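import Mathlib
import Claimed.Agent.R291.Defs.Frozen

/-!
# Row 291 (S0539), Tool/HexPeel : planar topology by cochains mod 2      (owner helper105; prefix `hx_`, defs `Hx*`)      complete

Unit PLA.  Carrier: an ambient `(V, adj)` and SETS of vertices (no subtypes); lattice = `ℤ × ℤ` + frozen `triAdj`.
* `HxCl adj S om`, `HxEx adj S om`, `HxSC adj S`  closed / exact mod 2 edge cochains on the cliques of `S`; `HxSC` = `H^1 = 0` (= TriSC of 147, relative form)
* `HxJoin adj A u v`, `HxConn adj A`             joined inside `A`; `A` connected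
* `hx_ext`     EXT : a closed cochain on `S` extends to `S + w` if the link of `w` in `S` has `H^1 = 0`
* `hx_peel`    PEEL: `T` SC, link of `w` in `T - w` SC  ⟹  `T - w` SC
* `hx_ve`      vertex extension (connected link);  `hx_sc_path` subsets of induced paths
* `hx_region`  `T` SC, `S ⊆ T`, every deleted site joined off `S` to the complement of `T`, links = circles ⟹ `S` SC
* `hx_tri_link`, `hx_sc_box`, `hx_sc_of_box`
* **`hx_sc_of_free`** : EVERY finite set of sites of the triangular lattice without holes has `H^1 = 0`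
  (irregular domains: no Alexander duality, no Jordan curve theorem)
-/

set_option autoImplicit false
set_option linter.unusedVariables false

namespace Claimed.Agent.R291

open Claims Claims.C0467

section Abstract

variable {V : Type*}

/-- `om` is a symmetric mod 2 edge cochain which is closed on every 3-clique of `S`. -/
def HxCl (adj : V → V → Prop) (S : Set V) (om : V → V → ZMod 2) : Prop :=
  (∀ u v, om u v = om v u) ∧
    ∀ u ∈ S, ∀ v ∈ S, ∀ w ∈ S, adj u v → adj v w → adj u w → om u v + om v w + om u w = 0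

/-- `om` is a coboundary on the edges of `S`. -/
def HxEx (adj : V → V → Prop) (S : Set V) (om : V → V → ZMod 2) : Prop :=
  ∃ f : V → ZMod 2, ∀ u ∈ S, ∀ v ∈ S, adj u v → om u v = f u + f v

/-- `H^1 = 0` (mod 2) of the clique complex induced on `S`. -/
def HxSC (adj : V → V → Prop) (S : Set V) : Prop :=
  ∀ om, HxCl adj S om → HxEx adj S om

/-- `u` and `v` are joined by a path all of whose vertices lie in `A` (or `u = v`). -/
def HxJoin (adj : V → V → Prop) (A : Set V) (u v : V) : Prop :=
  Relation.ReflTransGen (fun a b => adj a b ∧ a ∈ A ∧ b ∈ A) u v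

/-- `A` is connected (the empty set is). -/
def HxConn (adj : V → V → Prop) (A : Set V) : Prop :=
  ∀ u ∈ A, ∀ v ∈ A, HxJoin adj A u v

theorem hx_cl_mono {adj : V → V → Prop} {S T : Set V} (h : S ⊆ T) {om : V → V → ZMod 2}
    (hom : HxCl adj T om) : HxCl adj S om :=
  ⟨hom.1, fun u hu v hv w hw => hom.2 u (h hu) v (h hv) w (h hw)⟩

theorem hx_ex_mono {adj : V → V → Prop} {S T : Set V} (h : S ⊆ T) {om : V → V → ZMod 2}
    (hom : HxEx adj T om) : HxEx adj S om := by
  obtain ⟨f, hf⟩ := hom
  exact ⟨f, fun u hu v hv => hf u (h hu) v (h hv)⟩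

theorem hx_z2_a : ∀ a b c : ZMod 2, c = a + b → a + c + b = 0 := by decide
theorem hx_z2_b : ∀ a b c : ZMod 2, c = a + b → c + b + a = 0 := by decide
theorem hx_z2_c : ∀ a b c : ZMod 2, c = a + b → a + b + c = 0 := by decide

/-- **EXT**: a closed cochain on `S` extends to `S + w` as soon as the link of `w` in `S` has `H^1 = 0`. -/
theorem hx_ext {adj : V → V → Prop} (hsym : ∀ u v, adj u v → adj v u) (hirr : ∀ u, ¬ adj u u)
    {S : Set V} {w : V} (hw : w ∉ S) (hL : HxSC adj (S ∩ {u | adj w u}))
    {om : V → V → ZMod 2} (hom : HxCl adj S om) :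
    ∃ om', HxCl adj (insert w S) om' ∧ ∀ u v, u ≠ w → v ≠ w → om' u v = om u v := by
  classical
  obtain ⟨g, hg⟩ := hL om (hx_cl_mono Set.inter_subset_left hom)
  refine ⟨fun u v => if u = w then (if v = w then 0 else g v) else (if v = w then g u else om u v),
    ⟨?_, ?_⟩, ?_⟩
  · intro u v
    by_cases hu : u = w <;> by_cases hv : v = w <;> simp [hu, hv, hom.1 u v]
  · intro u hu v hv x hx huv hvx hux
    have memS : ∀ y, y ∈ insert w S → y ≠ w → y ∈ S := fun y hy hne => by
      rcases hy with h | h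
      · exact absurd h hne
      · exact h
    by_cases h1 : u = w
    · have h2 : v ≠ w := fun h => hirr w (by rw [h1, h] at huv; exact huv)
      have h3 : x ≠ w := fun h => hirr w (by rw [h1, h] at hux; exact hux)
      have hvS := memS v hv h2
      have hxS := memS x hx h3
      have := hg v ⟨hvS, by rw [h1] at huv; exact huv⟩ x ⟨hxS, by rw [h1] at hux; exact hux⟩ hvx
      simp only [h1, h2, h3, if_true, if_false]
      exact hx_z2_a _ _ _ this
    · by_cases h2 : v = w
      · have h3 : x ≠ w := fun h => hirr w (by rw [h2, h] at hvx; exact hvx)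
        have huS := memS u hu h1
        have hxS := memS x hx h3
        have := hg u ⟨huS, by rw [h2] at huv; exact hsym _ _ huv⟩ x
          ⟨hxS, by rw [h2] at hvx; exact hvx⟩ hux
        simp only [h1, h2, h3, if_true, if_false]
        exact hx_z2_c _ _ _ this
      · by_cases h3 : x = w
        · have huS := memS u hu h1
          have hvS := memS v hv h2
          have := hg u ⟨huS, by rw [h3] at hux; exact hsym _ _ hux⟩ v
            ⟨hvS, by rw [h3] at hvx; exact hsym _ _ hvx⟩ huv
          simp only [h1, h2, h3, if_true, if_false]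
          exact hx_z2_b _ _ _ this
        · simp only [h1, h2, h3, if_false]
          exact hom.2 u (memS u hu h1) v (memS v hv h2) x (memS x hx h3) huv hvx hux
  · intro u v hu hv
    simp [hu, hv]

/-- **PEEL**: a vertex whose link in the rest has `H^1 = 0` can be deleted. -/
theorem hx_peel {adj : V → V → Prop} (hsym : ∀ u v, adj u v → adj v u) (hirr : ∀ u, ¬ adj u u)
    {T : Set V} {w : V} (hT : HxSC adj T) (hw : w ∈ T)
    (hL : HxSC adj ((T \ {w}) ∩ {u | adj w u})) : HxSC adj (T \ {w}) := by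
  intro om hom
  obtain ⟨om', h1, h2⟩ := hx_ext hsym hirr (S := T \ {w}) (w := w) (by simp) hL hom
  have hins : insert w (T \ {w}) = T := by
    ext y
    by_cases hy : y = w
    · simp [hy, hw]
    · simp [hy]
  rw [hins] at h1
  obtain ⟨f, hf⟩ := hT om' h1
  refine ⟨f, fun u hu v hv huv => ?_⟩
  rw [← h2 u v hu.2 hv.2]
  exact hf u hu.1 v hv.1 huv

/-- vertex extension when the link is connected (the empty link is allowed). -/
theorem hx_ve {adj : V → V → Prop} (hsym : ∀ u v, adj u v → adj v u) (hirr : ∀ u, ¬ adj u u)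
    {S : Set V} {w : V} (hw : w ∉ S) (hS : HxSC adj S)
    (hL : HxConn adj (S ∩ {u | adj w u})) : HxSC adj (insert w S) := by
  classical
  intro om hom
  obtain ⟨f, hf⟩ := hS om (hx_cl_mono (Set.subset_insert w S) hom)
  by_cases hne : (S ∩ {u | adj w u}).Nonempty
  · obtain ⟨u0, hu0⟩ := hne
    -- `om u w + f u` is constant on the link
    have hconst : ∀ u, HxJoin adj (S ∩ {u | adj w u}) u0 u → om u w + f u = om u0 w + f u0 := by
      intro u hu
      induction hu with
      | refl => rfl
      | @tail b c _ hbc ih =>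
        obtain ⟨hadj, hb, hc⟩ := hbc
        have h1 := hom.2 b (Set.mem_insert_of_mem _ hb.1) c (Set.mem_insert_of_mem _ hc.1) w
          (Set.mem_insert _ _) hadj (hsym _ _ hc.2) (hsym _ _ hb.2)
        have h2 := hf b hb.1 c hc.1 hadj
        rw [← ih]
        revert h1 h2
        generalize om b c = x1
        generalize om c w = x2
        generalize om b w = x3
        generalize f b = x4
        generalize f c = x5
        revert x1 x2 x3 x4 x5
        decide
    refine ⟨Function.update f w (om u0 w + f u0), ?_⟩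
    intro u hu v hv huv
    have memS : ∀ y, y ∈ insert w S → y ≠ w → y ∈ S := fun y hy hne => by
      rcases hy with h | h
      · exact absurd h hne
      · exact h
    by_cases h1 : u = w
    · have h2 : v ≠ w := fun h => hirr w (by rw [h1, h] at huv; exact huv)
      have hvS := memS v hv h2
      have hvL : v ∈ S ∩ {u | adj w u} := ⟨hvS, by rw [h1] at huv; exact huv⟩
      have := hconst v (hL u0 hu0 v hvL)
      rw [h1, Function.update_self, Function.update_of_ne h2, ← this, hom.1 w v]
      generalize om v w = x1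
      generalize f v = x2
      revert x1 x2
      decide
    · by_cases h2 : v = w
      · have huS := memS u hu h1
        have huL : u ∈ S ∩ {u | adj w u} := ⟨huS, by rw [h2] at huv; exact hsym _ _ huv⟩
        have := hconst u (hL u0 hu0 u huL)
        rw [h2, Function.update_self, Function.update_of_ne h1, ← this]
        generalize om u w = x1
        generalize f u = x2
        revert x1 x2
        decide
      · rw [Function.update_of_ne h1, Function.update_of_ne h2]
        exact hf u (memS u hu h1) v (memS v hv h2) huv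
  · refine ⟨f, ?_⟩
    intro u hu v hv huv
    have memS : ∀ y, y ∈ insert w S → y ≠ w → y ∈ S := fun y hy hne => by
      rcases hy with h | h
      · exact absurd h hne
      · exact h
    by_cases h1 : u = w
    · have h2 : v ≠ w := fun h => hirr w (by rw [h1, h] at huv; exact huv)
      exact absurd ⟨v, memS v hv h2, by rw [h1] at huv; exact huv⟩ hne
    · by_cases h2 : v = w
      · exact absurd ⟨u, memS u hu h1, by rw [h2] at huv; exact hsym _ _ huv⟩ hne
      · exact hf u (memS u hu h1) v (memS v hv h2) huv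

theorem hx_sc_empty (adj : V → V → Prop) : HxSC adj (∅ : Set V) :=
  fun _ _ => ⟨fun _ => 0, fun u hu => absurd hu (Set.notMem_empty u)⟩

/-- every subset of an induced path has `H^1 = 0`. -/
theorem hx_sc_path {adj : V → V → Prop} (hsym : ∀ u v, adj u v → adj v u) (hirr : ∀ u, ¬ adj u u)
    (c : ℕ → V) : ∀ n : ℕ, (∀ i j, i < j → j < n → adj (c i) (c j) → j = i + 1) →
    ∀ L : Set V, (∀ v ∈ L, ∃ i, i < n ∧ v = c i) → HxSC adj L := by
  classical
  intro n
  induction n with
  | zero =>
    intro _ L hL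
    have : L = ∅ := by
      ext v
      simp only [Set.mem_empty_iff_false, iff_false]
      intro hv
      obtain ⟨i, hi, _⟩ := hL v hv
      omega
    rw [this]
    exact hx_sc_empty adj
  | succ n ih =>
    intro hc L hL
    have hc' : ∀ i j, i < j → j < n → adj (c i) (c j) → j = i + 1 :=
      fun i j hij hj => hc i j hij (by omega)
    by_cases hn : c n ∈ L
    · have hL' : ∀ v ∈ L \ {c n}, ∃ i, i < n ∧ v = c i := by
        intro v hv
        obtain ⟨i, hi, rfl⟩ := hL v hv.1
        refine ⟨i, ?_, rfl⟩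
        rcases Nat.lt_succ_iff_lt_or_eq.mp hi with h | h
        · exact h
        · exact absurd (by rw [h]; rfl) hv.2
      have h1 := ih hc' (L \ {c n}) hL'
      have hins : insert (c n) (L \ {c n}) = L := by
        ext y
        by_cases hy : y = c n
        · simp [hy, hn]
        · simp [hy]
      rw [← hins]
      refine hx_ve hsym hirr (by simp) h1 ?_
      intro u hu v hv
      obtain ⟨i, hi, rfl⟩ := hL' u hu.1
      obtain ⟨j, hj, rfl⟩ := hL' v hv.1
      have e1 := hc i n hi (Nat.lt_succ_self n) (hsym _ _ hu.2)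
      have e2 := hc j n hj (Nat.lt_succ_self n) (hsym _ _ hv.2)
      have : i = j := by omega
      rw [this]
      exact Relation.ReflTransGen.refl
    · refine ih hc' L ?_
      intro v hv
      obtain ⟨i, hi, rfl⟩ := hL v hv
      refine ⟨i, ?_, rfl⟩
      rcases Nat.lt_succ_iff_lt_or_eq.mp hi with h | h
      · exact h
      · exact absurd (h ▸ hv) hn

/-- **REGION**: `T` has `H^1 = 0`, `S ⊆ T`, `T \ S` finite, every site of `T \ S` is joined to the complement of `T`
off `S`, and the links of the deleted sites are "circles" (a link minus one point has only `H^1 = 0` subsets).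
Then `S` has `H^1 = 0`.   (No Alexander duality, no Jordan curve.) -/
theorem hx_region {adj : V → V → Prop} (hsym : ∀ u v, adj u v → adj v u) (hirr : ∀ u, ¬ adj u u) :
    ∀ (n : ℕ) (T S : Set V) (D : Finset V), D.card = n → HxSC adj T → S ⊆ T → T \ S = ↑D →
    (∀ w ∈ D, ∀ w', adj w w' → ∀ L : Set V, L ⊆ {u | adj w u} \ {w'} → HxSC adj L) →
    (∀ s ∈ D, ∃ t, t ∉ T ∧ Relation.ReflTransGen (fun a b => adj a b ∧ b ∉ S) s t) →
    HxSC adj S := by
  classical
  intro n
  induction n with
  | zero =>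
    intro T S D hD hT hST hTS _ _
    have : D = ∅ := Finset.card_eq_zero.mp hD
    rw [this, Finset.coe_empty, Set.sdiff_eq_empty] at hTS
    rw [Set.Subset.antisymm hST hTS]
    exact hT
  | succ n ih =>
    intro T S D hD hT hST hTS hlink hjoin
    have hne : D.Nonempty := by
      rw [← Finset.card_pos]; omega
    obtain ⟨s, hs⟩ := hne
    obtain ⟨t, ht, hpath⟩ := hjoin s hs
    -- the last site of the path inside `T`
    have key : ∀ a, Relation.ReflTransGen (fun a b => adj a b ∧ b ∉ S) a t → a ∈ T → a ∉ S →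
        ∃ w w', w ∈ T ∧ w ∉ S ∧ w' ∉ T ∧ adj w w' := by
      intro a ha
      induction ha using Relation.ReflTransGen.head_induction_on with
      | refl => intro h _; exact absurd h ht
      | @head a b hab _ ih2 =>
        intro haT haS
        by_cases hb : b ∈ T
        · exact ih2 hb hab.2
        · exact ⟨a, b, haT, haS, hb, hab.1⟩
    have hsTS : s ∈ T \ S := by rw [hTS]; exact hs
    obtain ⟨w, w', hwT, hwS, hw'T, hww'⟩ := key s hpath hsTS.1 hsTS.2
    have hwD : w ∈ D := by
      have : w ∈ T \ S := ⟨hwT, hwS⟩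
      rw [hTS] at this; exact this
    have hT' : HxSC adj (T \ {w}) := by
      refine hx_peel hsym hirr hT hwT (hlink w hwD w' hww' _ ?_)
      intro u hu
      refine ⟨hu.2, ?_⟩
      intro h
      exact hw'T (by rw [Set.mem_singleton_iff] at h; rw [← h]; exact hu.1.1)
    refine ih (T \ {w}) S (D.erase w) (by rw [Finset.card_erase_of_mem hwD, hD]; rfl) hT' ?_ ?_ ?_ ?_
    · intro y hy
      exact ⟨hST hy, fun h => hwS (by rw [Set.mem_singleton_iff] at h; rw [← h]; exact hy)⟩
    · ext y
      have : y ∈ T \ S ↔ y ∈ D := by rw [hTS]; rfl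
      simp only [Set.mem_sdiff, Set.mem_singleton_iff, Finset.coe_erase, Finset.mem_coe] at this ⊢
      tauto
    · intro y hy
      exact hlink y (Finset.mem_of_mem_erase hy)
    · intro y hy
      obtain ⟨t', ht', hp⟩ := hjoin y (Finset.mem_of_mem_erase hy)
      exact ⟨t', fun h => ht' h.1, hp⟩

/-- a set with a centre adjacent to all other points is connected. -/
theorem hx_conn_star {adj : V → V → Prop} (hsym : ∀ u v, adj u v → adj v u) {L : Set V} {m : V}
    (hm : m ∈ L) (h : ∀ u ∈ L, u = m ∨ adj u m) : HxConn adj L := by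
  have h1 : ∀ u ∈ L, HxJoin adj L u m := by
    intro u hu
    rcases h u hu with rfl | h'
    · exact Relation.ReflTransGen.refl
    · exact Relation.ReflTransGen.single ⟨h', hu, hm⟩
  have h2 : ∀ u ∈ L, HxJoin adj L m u := by
    intro u hu
    rcases h u hu with rfl | h'
    · exact Relation.ReflTransGen.refl
    · exact Relation.ReflTransGen.single ⟨hsym _ _ h', hm, hu⟩
  intro u hu v hv
  exact (h1 u hu).trans (h2 v hv)

theorem hx_conn_subsingleton {adj : V → V → Prop} {L : Set V} (h : ∀ u ∈ L, ∀ v ∈ L, u = v) :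
    HxConn adj L := by
  intro u hu v hv
  rw [h u hu v hv]
  exact Relation.ReflTransGen.refl

end Abstract

/-! ### the triangular lattice -/

section Lattice

theorem hx_tri_symm (u v : ℤ × ℤ) (h : triAdj u v) : triAdj v u := by
  obtain ⟨u1, u2⟩ := u
  obtain ⟨v1, v2⟩ := v
  simp only [triAdj, Prod.mk_sub_mk, Prod.mk.injEq] at h ⊢
  omega

theorem hx_tri_irrefl (u : ℤ × ℤ) : ¬ triAdj u u := by
  obtain ⟨u1, u2⟩ := u
  simp only [triAdj, Prod.mk_sub_mk, Prod.mk.injEq]
  omega

/-- the six directions in cyclic order (period 6) -/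
def hxDir (k : ℕ) : ℤ × ℤ :=
  match k % 6 with
  | 0 => (1, 0)
  | 1 => (0, 1)
  | 2 => (-1, 1)
  | 3 => (-1, 0)
  | 4 => (0, -1)
  | _ => (1, -1)

theorem hx_tri_iff_dir (u v : ℤ × ℤ) : triAdj u v ↔ ∃ k, k < 6 ∧ v = u + hxDir k := by
  obtain ⟨u1, u2⟩ := u
  obtain ⟨v1, v2⟩ := v
  constructor
  · intro h
    simp only [triAdj, Prod.mk_sub_mk, Prod.mk.injEq] at h
    rcases h with h | h | h | h | h | h
    · exact ⟨0, by norm_num, by simp [hxDir]; omega⟩
    · exact ⟨1, by norm_num, by simp [hxDir]; omega⟩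
    · exact ⟨2, by norm_num, by simp [hxDir]; omega⟩
    · exact ⟨3, by norm_num, by simp [hxDir]; omega⟩
    · exact ⟨4, by norm_num, by simp [hxDir]; omega⟩
    · exact ⟨5, by norm_num, by simp [hxDir]; omega⟩
  · rintro ⟨k, hk, h⟩
    simp only [triAdj, Prod.mk_sub_mk, Prod.mk.injEq]
    interval_cases k <;> simp [hxDir] at h <;> omega

/-- a link minus one point is an induced path: all its subsets have `H^1 = 0`. -/
theorem hx_tri_link (w w' : ℤ × ℤ) (h : triAdj w w') (L : Set (ℤ × ℤ))
    (hL : L ⊆ {u | triAdj w u} \ {w'}) : HxSC triAdj L := by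
  obtain ⟨k, hk, rfl⟩ := (hx_tri_iff_dir w w').mp h
  refine hx_sc_path hx_tri_symm hx_tri_irrefl (fun i => w + hxDir (k + 1 + i)) 5 ?_ L ?_
  · intro i j hij hj hadj
    obtain ⟨w1, w2⟩ := w
    simp only [triAdj] at hadj
    interval_cases k <;> interval_cases j <;> interval_cases i <;>
      first
      | rfl
      | (exfalso; simp [hxDir] at hadj)
  · intro v hv
    obtain ⟨hv1, hv2⟩ := hL hv
    obtain ⟨j, hj, rfl⟩ := (hx_tri_iff_dir w v).mp hv1
    have hjk : j ≠ k := by
      intro e
      exact hv2 (by rw [e]; rfl)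
    refine ⟨(j + 5 - k) % 6, ?_, ?_⟩
    · interval_cases k <;> interval_cases j <;> simp_all
    · congr 1
      interval_cases k <;> interval_cases j <;> simp_all [hxDir]

/-- lattice parallelogram `[x0, x0 + a) x [y0, y0 + b)` plus the first `k` sites of the next row -/
def hxBoxP (x0 y0 : ℤ) (a b k : ℕ) : Set (ℤ × ℤ) :=
  {p | x0 ≤ p.1 ∧ p.1 < x0 + a ∧ y0 ≤ p.2 ∧ (p.2 < y0 + b ∨ (p.2 = y0 + b ∧ p.1 < x0 + k))}

/-- lattice parallelogram `[x0, x0 + a) x [y0, y0 + b)` -/
def hxBox (x0 y0 : ℤ) (a b : ℕ) : Set (ℤ × ℤ) :=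
  {p | x0 ≤ p.1 ∧ p.1 < x0 + a ∧ y0 ≤ p.2 ∧ p.2 < y0 + b}

theorem hx_boxP_zero (x0 y0 : ℤ) (a b : ℕ) : hxBoxP x0 y0 a b 0 = hxBox x0 y0 a b := by
  ext ⟨p1, p2⟩
  simp only [hxBoxP, hxBox, Set.mem_ofPred_eq]
  constructor
  · rintro ⟨h1, h2, h3, h4⟩
    refine ⟨h1, h2, h3, ?_⟩
    rcases h4 with h4 | h4
    · exact h4
    · push_cast at h4; omega
  · rintro ⟨h1, h2, h3, h4⟩
    exact ⟨h1, h2, h3, Or.inl h4⟩

theorem hx_boxP_full (x0 y0 : ℤ) (a b : ℕ) : hxBoxP x0 y0 a b a = hxBox x0 y0 a (b + 1) := by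
  ext ⟨p1, p2⟩
  simp only [hxBoxP, hxBox, Set.mem_ofPred_eq]
  push_cast
  constructor
  · rintro ⟨h1, h2, h3, h4⟩
    refine ⟨h1, h2, h3, ?_⟩
    omega
  · rintro ⟨h1, h2, h3, h4⟩
    refine ⟨h1, h2, h3, ?_⟩
    omega

theorem hx_boxP_succ (x0 y0 : ℤ) (a b k : ℕ) (hk : k < a) :
    hxBoxP x0 y0 a b (k + 1) = insert (x0 + k, y0 + b) (hxBoxP x0 y0 a b k) := by
  ext ⟨p1, p2⟩
  simp only [hxBoxP, Set.mem_ofPred_eq, Set.mem_insert_iff, Prod.mk.injEq]
  push_cast
  constructor
  · rintro ⟨h1, h2, h3, h4⟩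
    by_cases h : p1 = x0 + k ∧ p2 = y0 + b
    · exact Or.inl h
    · refine Or.inr ⟨h1, h2, h3, ?_⟩
      omega
  · rintro (⟨h1, h2⟩ | ⟨h1, h2, h3, h4⟩)
    · refine ⟨by omega, by omega, by omega, ?_⟩
      omega
    · refine ⟨h1, h2, h3, ?_⟩
      omega

theorem hx_sc_boxP (x0 y0 : ℤ) (a : ℕ) : ∀ b k : ℕ, k ≤ a → HxSC triAdj (hxBoxP x0 y0 a b k) := by
  intro b
  induction b with
  | zero =>
    intro k
    induction k with
    | zero =>
      intro _
      have : hxBoxP x0 y0 a 0 0 = ∅ := by
        ext ⟨p1, p2⟩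
        simp only [hxBoxP, Set.mem_ofPred_eq, Set.mem_empty_iff_false, iff_false]
        push_cast
        omega
      rw [this]
      exact hx_sc_empty _
    | succ k ih =>
      intro hk
      rw [hx_boxP_succ x0 y0 a 0 k (by omega)]
      refine hx_ve hx_tri_symm hx_tri_irrefl ?_ (ih (by omega)) ?_
      · simp only [hxBoxP, Set.mem_ofPred_eq]
        push_cast
        omega
      · apply hx_conn_subsingleton
        rintro ⟨u1, u2⟩ ⟨hu, hu'⟩ ⟨v1, v2⟩ ⟨hv, hv'⟩
        simp only [hxBoxP, Set.mem_ofPred_eq, triAdj, Prod.mk_sub_mk, Prod.mk.injEq] at hu hu' hv hv' ⊢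
        push_cast at hu hu' hv hv'
        omega
  | succ b ihb =>
    intro k
    induction k with
    | zero =>
      intro _
      rw [hx_boxP_zero, ← hx_boxP_full]
      exact ihb a le_rfl
    | succ k ih =>
      intro hk
      rw [hx_boxP_succ x0 y0 a (b + 1) k (by omega)]
      refine hx_ve hx_tri_symm hx_tri_irrefl ?_ (ih (by omega)) ?_
      · simp only [hxBoxP, Set.mem_ofPred_eq]
        push_cast
        omega
      · refine hx_conn_star hx_tri_symm (m := (x0 + k, y0 + b)) ?_ ?_
        · refine ⟨?_, ?_⟩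
          · simp only [hxBoxP, Set.mem_ofPred_eq]
            push_cast
            omega
          · simp only [Set.mem_ofPred_eq, triAdj, Prod.mk_sub_mk, Prod.mk.injEq]
            push_cast
            omega
        · rintro ⟨u1, u2⟩ ⟨hu, hu'⟩
          simp only [hxBoxP, Set.mem_ofPred_eq, triAdj, Prod.mk_sub_mk, Prod.mk.injEq] at hu hu' ⊢
          push_cast at hu hu'
          omega

/-- lattice parallelograms have `H^1 = 0`. -/
theorem hx_sc_box (x0 y0 : ℤ) (a b : ℕ) : HxSC triAdj (hxBox x0 y0 a b) := by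
  rw [← hx_boxP_zero]
  exact hx_sc_boxP x0 y0 a b 0 (Nat.zero_le _)

theorem hx_box_finite (x0 y0 : ℤ) (a b : ℕ) : (hxBox x0 y0 a b).Finite := by
  refine Set.Finite.subset ((Set.finite_Ico x0 (x0 + a)).prod (Set.finite_Ico y0 (y0 + b))) ?_
  rintro ⟨p1, p2⟩ ⟨h1, h2, h3, h4⟩
  exact ⟨⟨h1, h2⟩, ⟨h3, h4⟩⟩

/-- `S` has no hole: every site off `S` is joined off `S` to sites outside any given finite set. -/
def HxFree (S : Set (ℤ × ℤ)) : Prop :=
  ∀ s, s ∉ S → ∀ B : Set (ℤ × ℤ), B.Finite →
    ∃ t, t ∉ B ∧ Relation.ReflTransGen (fun a b => triAdj a b ∧ b ∉ S) s t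

/-- **every subset of a lattice parallelogram without holes (relative to the parallelogram) has `H^1 = 0`.** -/
theorem hx_sc_of_box {S : Set (ℤ × ℤ)} {x0 y0 : ℤ} {a b : ℕ} (hS : S ⊆ hxBox x0 y0 a b)
    (h : ∀ s ∈ hxBox x0 y0 a b, s ∉ S →
      ∃ t, t ∉ hxBox x0 y0 a b ∧ Relation.ReflTransGen (fun a b => triAdj a b ∧ b ∉ S) s t) :
    HxSC triAdj S := by
  classical
  have hfin : (hxBox x0 y0 a b \ S).Finite := (hx_box_finite x0 y0 a b).subset Set.sdiff_subset
  refine hx_region hx_tri_symm hx_tri_irrefl _ (hxBox x0 y0 a b) S hfin.toFinset rfl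
    (hx_sc_box x0 y0 a b) hS (by simp) ?_ ?_
  · intro w _ w' hww' L hL
    exact hx_tri_link w w' hww' L hL
  · intro s hs
    rw [Set.Finite.mem_toFinset] at hs
    exact h s hs.1 hs.2

theorem hx_finite_sub_box {S : Set (ℤ × ℤ)} (hS : S.Finite) :
    ∃ (x0 y0 : ℤ) (a b : ℕ), S ⊆ hxBox x0 y0 a b := by
  classical
  obtain ⟨M, hM⟩ : ∃ M : ℕ, ∀ p ∈ S, p.1.natAbs ≤ M ∧ p.2.natAbs ≤ M := by
    refine ⟨hS.toFinset.sup (fun p => p.1.natAbs + p.2.natAbs), fun p hp => ?_⟩
    have := Finset.le_sup (f := fun p : ℤ × ℤ => p.1.natAbs + p.2.natAbs) (hS.mem_toFinset.mpr hp)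
    omega
  refine ⟨-M, -M, 2 * M + 1, 2 * M + 1, fun p hp => ?_⟩
  obtain ⟨h1, h2⟩ := hM p hp
  simp only [hxBox, Set.mem_ofPred_eq]
  push_cast
  omega

/-- **every finite set of sites without holes has `H^1 = 0`** (irregular domains, explored regions with holes filled,
components of intersections of such sets, ...). -/
theorem hx_sc_of_free {S : Set (ℤ × ℤ)} (hfin : S.Finite) (h : HxFree S) : HxSC triAdj S := by
  obtain ⟨x0, y0, a, b, hS⟩ := hx_finite_sub_box hfin
  exact hx_sc_of_box hS (fun s _ hs => h s hs _ (hx_box_finite x0 y0 a b))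

end Lattice

end Claimed.Agent.R291
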