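import Mathlib
import Claimed.Agent.R291.Defs.Frozen

/-!
# Row 291 (S0539), Tool/TriSC : DISCRETE PLANAR TOPOLOGY BY COCHAINS      (owner helper147; prefix `tsc_`)      no sorry

Design note: `origin/helper147:notes/R291/trisc_147.md`.      ABSTRACT PART (any simple graph).  The lattice instances are in `Tool/TriSCLat.lean`.

* `TriSCOn A G s`   every antisymmetric `A`-valued edge cochain on `s` which is additive on the 3-cliques inside `s` is a coboundary `ω u v = f v - f u`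
                    ("triangles generate the cycles of `G[s]`").   `A = ZMod 2` : walls, Timar;   `A = ℤ` : lifts, collar switch
* `TscR G s u v`    `u` and `v` are joined by a path of `G` inside `s`;   `TscConn G s`;   `tscComp G s x`
* `tsc_core`, `tsc_timar_out`, `tsc_timar_in`      TIMAR'S LEMMA: `C` connected, `D` a component of `s \ C`: the two boundary layers between `C` and `D` are connected
* `tsc_timar_meets` every path inside `s` from `C` to a point of `D` visits the outer layer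
* `tsc_hex`         ABSTRACT HEX DUALITY: `t, b ∈ P` not joined inside `P`  ⟹  a CONNECTED set `M ⊆ s \ P` which meets every path from `t` to `b` inside `s`
* `tsc_insert`      vertex extension;   `tsc_union`  Mayer-Vietoris;   `tsc_iUnion`  increasing unions      (to build instances)
-/

set_option autoImplicit false
set_option linter.unusedSectionVars false
set_option linter.unusedVariables false
set_option linter.unusedSimpArgs false

namespace Claimed.Agent.R291

open Relation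

section basic
variable {V : Type*} {A : Type*} [AddCommGroup A]

/-- an `A`-valued edge cochain on the part `s` of the graph: antisymmetric, additive on the 3-cliques inside `s` -/
structure TscClosed (G : SimpleGraph V) (s : Set V) (ω : V → V → A) : Prop where
  anti : ∀ u ∈ s, ∀ v ∈ s, G.Adj u v → ω v u = - ω u v
  tri : ∀ u ∈ s, ∀ v ∈ s, ∀ w ∈ s, G.Adj u v → G.Adj v w → G.Adj u w → ω u v + ω v w = ω u w

/-- "the triangles generate the cycles of `G[s]`", in cochain form -/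
def TriSCOn (A : Type*) [AddCommGroup A] (G : SimpleGraph V) (s : Set V) : Prop :=
  ∀ ω : V → V → A, TscClosed G s ω → ∃ f : V → A, ∀ u ∈ s, ∀ v ∈ s, G.Adj u v → ω u v = f v - f u

/-- one step of a path inside `s` -/
def TscStep (G : SimpleGraph V) (s : Set V) (a b : V) : Prop := G.Adj a b ∧ a ∈ s ∧ b ∈ s

/-- joined by a path inside `s` -/
def TscR (G : SimpleGraph V) (s : Set V) : V → V → Prop := ReflTransGen (TscStep G s)

/-- `s` is connected (the empty set is) -/
def TscConn (G : SimpleGraph V) (s : Set V) : Prop := ∀ u ∈ s, ∀ v ∈ s, TscR G s u v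

/-- the connected component of `x` in `s` -/
def tscComp (G : SimpleGraph V) (s : Set V) (x : V) : Set V := {v | v ∈ s ∧ TscR G s x v}

variable {G : SimpleGraph V} {s t : Set V}

theorem tsc_step_symm {a b : V} (h : TscStep G s a b) : TscStep G s b a := ⟨h.1.symm, h.2.2, h.2.1⟩

theorem tsc_R_refl (a : V) : TscR G s a a := ReflTransGen.refl

theorem tsc_R_symm {a b : V} (h : TscR G s a b) : TscR G s b a := by
  induction h with
  | refl => exact ReflTransGen.refl
  | tail _ hbc ih => exact ReflTransGen.head (tsc_step_symm hbc) ih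

theorem tsc_R_trans {a b c : V} (h : TscR G s a b) (h' : TscR G s b c) : TscR G s a c := ReflTransGen.trans h h'

theorem tsc_R_mono (hst : s ⊆ t) {a b : V} (h : TscR G s a b) : TscR G t a b := by
  induction h with
  | refl => exact ReflTransGen.refl
  | tail _ hbc ih => exact ih.tail ⟨hbc.1, hst hbc.2.1, hst hbc.2.2⟩

theorem tsc_R_step {a b : V} (h : G.Adj a b) (ha : a ∈ s) (hb : b ∈ s) : TscR G s a b := ReflTransGen.single ⟨h, ha, hb⟩

theorem tsc_R_mem {a b : V} (h : TscR G s a b) (ha : a ∈ s) : b ∈ s := by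
  induction h with
  | refl => exact ha
  | tail _ hbc _ => exact hbc.2.2

/-- a function which does not change along the steps is constant along paths -/
theorem tsc_R_const {α : Type*} (f : V → α) (hf : ∀ a b, TscStep G s a b → f a = f b) {a b : V} (h : TscR G s a b) : f a = f b := by
  induction h with
  | refl => rfl
  | tail _ hbc ih => exact ih.trans (hf _ _ hbc)

theorem tsc_comp_self {x : V} (hx : x ∈ s) : x ∈ tscComp G s x := ⟨hx, ReflTransGen.refl⟩

theorem tsc_comp_sub (x : V) : tscComp G s x ⊆ s := fun _ h => h.1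

theorem tsc_comp_adj {x v w : V} (hv : v ∈ tscComp G s x) (hw : w ∈ s) (h : G.Adj v w) : w ∈ tscComp G s x :=
  ⟨hw, hv.2.tail ⟨h, hv.1, hw⟩⟩

/-- a path inside `s` which starts in the component stays in the component -/
theorem tsc_comp_R {x v w : V} (hv : v ∈ tscComp G s x) (h : TscR G s v w) : TscR G (tscComp G s x) v w := by
  induction h with
  | refl => exact ReflTransGen.refl
  | @tail b c hab hbc ih =>
    have hb : b ∈ tscComp G s x := ⟨hbc.2.1, hv.2.trans hab⟩
    exact ih.tail ⟨hbc.1, hb, tsc_comp_adj hb hbc.2.2 hbc.1⟩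

theorem tsc_comp_conn (x : V) : TscConn G (tscComp G s x) := by
  intro u hu v hv
  by_cases hx : x ∈ s
  · have hx' := tsc_comp_self (G := G) hx
    exact tsc_R_trans (tsc_R_symm (tsc_comp_R hx' hu.2)) (tsc_comp_R hx' hv.2)
  · -- `x ∉ s`: the only path from `x` is the trivial one
    exfalso
    rcases ReflTransGen.cases_head hu.2 with h | ⟨c, hc, _⟩
    · exact hx (h ▸ hu.1)
    · exact hx hc.2.1

/-- two connected sets with a common point, or joined by an edge -/
theorem tsc_conn_union (hs : TscConn G s) (ht : TscConn G t) {a b : V} (ha : a ∈ s) (hb : b ∈ t) (hab : a = b ∨ G.Adj a b) :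
    TscConn G (s ∪ t) := by
  have hl : ∀ u ∈ s, TscR G (s ∪ t) u a := fun u hu => tsc_R_mono Set.subset_union_left (hs u hu a ha)
  have hr : ∀ u ∈ t, TscR G (s ∪ t) u b := fun u hu => tsc_R_mono Set.subset_union_right (ht u hu b hb)
  have hab' : TscR G (s ∪ t) a b := by
    rcases hab with rfl | h
    · exact ReflTransGen.refl
    · exact tsc_R_step h (Or.inl ha) (Or.inr hb)
  have hall : ∀ u ∈ s ∪ t, TscR G (s ∪ t) u a := by
    rintro u (hu | hu)
    · exact hl u hu
    · exact tsc_R_trans (hr u hu) (tsc_R_symm hab')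
  exact fun u hu v hv => tsc_R_trans (hall u hu) (tsc_R_symm (hall v hv))

theorem TscClosed.mono {ω : V → V → A} (h : TscClosed G t ω) (hst : s ⊆ t) : TscClosed G s ω :=
  ⟨fun u hu v hv => h.anti u (hst hu) v (hst hv), fun u hu v hv w hw => h.tri u (hst hu) v (hst hv) w (hst hw)⟩

/-- two potentials of the same cochain differ by a constant along paths -/
theorem tsc_pot_unique {ω : V → V → A} {f g : V → A} (hf : ∀ u ∈ s, ∀ v ∈ s, G.Adj u v → ω u v = f v - f u)
    (hg : ∀ u ∈ s, ∀ v ∈ s, G.Adj u v → ω u v = g v - g u) {a b : V} (h : TscR G s a b) : f a - g a = f b - g b := by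
  refine tsc_R_const (fun v => f v - g v) (fun p q hpq => ?_) h
  have h1 := hf p hpq.2.1 q hpq.2.2 hpq.1
  have h2 := hg p hpq.2.1 q hpq.2.2 hpq.1
  have h3 : f q - f p = g q - g p := h1.symm.trans h2
  have h4 : f q - g q - (f p - g p) = 0 := by
    have : f q - g q - (f p - g p) = (f q - f p) - (g q - g p) := by abel
    rw [this, h3, sub_self]
  exact (sub_eq_zero.1 h4).symm

/-- the mod 2 form of the definition: symmetric cochains with zero sum on the triangles -/
theorem tsc_mod2 (hs : TriSCOn (ZMod 2) G s) (ω : V → V → ZMod 2) (hsym : ∀ u ∈ s, ∀ v ∈ s, G.Adj u v → ω u v = ω v u)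
    (htri : ∀ u ∈ s, ∀ v ∈ s, ∀ w ∈ s, G.Adj u v → G.Adj v w → G.Adj u w → ω u v + ω v w + ω u w = 0) :
    ∃ f : V → ZMod 2, ∀ u ∈ s, ∀ v ∈ s, G.Adj u v → ω u v = f u + f v := by
  obtain ⟨f, hf⟩ := hs ω ⟨fun u hu v hv h => by rw [CharTwo.neg_eq, hsym u hu v hv h],
    fun u hu v hv w hw h1 h2 h3 => CharTwo.add_eq_zero.1 (htri u hu v hv w hw h1 h2 h3)⟩
  exact ⟨f, fun u hu v hv h => by rw [hf u hu v hv h, CharTwo.sub_eq_add, add_comm]⟩

/-- propositional core of the closedness of the cut cochain -/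
theorem tsc_aux (a1 a2 b1 b2 c1 c2 : Prop) [Decidable a1] [Decidable a2] [Decidable b1] [Decidable b2] [Decidable c1] [Decidable c2]
    (d1 : a1 → a2 → False) (d2 : b1 → b2 → False) (d3 : c1 → c2 → False)
    (k1 : a1 → b2 → c1 ∨ c2) (k2 : b1 → a2 → c1 ∨ c2) (k3 : a1 → c2 → b1 ∨ b2) (k4 : c1 → a2 → b1 ∨ b2)
    (k5 : b1 → c2 → a1 ∨ a2) (k6 : c1 → b2 → a1 ∨ a2) :
    (if (a1 ∧ b2) ∨ (b1 ∧ a2) then (1 : ZMod 2) else 0) + (if (b1 ∧ c2) ∨ (c1 ∧ b2) then 1 else 0)
      + (if (a1 ∧ c2) ∨ (c1 ∧ a2) then 1 else 0) = 0 := by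
  by_cases h1 : a1 <;> by_cases h2 : a2 <;> by_cases h3 : b1 <;> by_cases h4 : b2 <;> by_cases h5 : c1 <;> by_cases h6 : c2 <;>
    simp only [h1, h2, h3, h4, h5, h6, true_and, and_true, false_and, and_false, or_self, or_true, true_or, if_true, if_false,
      forall_const, false_or, or_false, imp_false, not_true_eq_false, IsEmpty.forall_iff, not_false_eq_true] at * <;> decide

/-- **core of Timar's lemma** -/
theorem tsc_core (hs : TriSCOn (ZMod 2) G s) {X Y : Set V} (hX : X ⊆ s) (hY : Y ⊆ s) (hXY : ∀ a, a ∈ X → a ∈ Y → False)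
    (hXc : TscConn G X) (hYc : TscConn G Y)
    (hK : ∀ x ∈ X, ∀ y ∈ Y, ∀ c ∈ s, G.Adj x c → G.Adj y c → c ∈ X ∨ c ∈ Y) :
    TscConn G {y | y ∈ Y ∧ ∃ x ∈ X, G.Adj x y} := by
  classical
  set bY : Set V := {y | y ∈ Y ∧ ∃ x ∈ X, G.Adj x y} with hbY
  intro d₀ hd₀ d₁ hd₁
  set S : Set V := {d | d ∈ bY ∧ TscR G bY d₀ d} with hS
  have hSY : ∀ a, a ∈ S → a ∈ Y := fun a h => h.1.1
  have hdis : ∀ a, a ∈ X → a ∈ S → False := fun a h h' => hXY a h (hSY a h')
  have key : ∀ a ∈ X, ∀ b ∈ S, ∀ c ∈ s, G.Adj a c → G.Adj b c → c ∈ X ∨ c ∈ S := by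
    intro a ha b hb c hc hac hbc
    rcases hK a ha b (hSY b hb) c hc hac hbc with h | h
    · exact Or.inl h
    · have hcb : c ∈ bY := ⟨h, a, ha, hac⟩
      exact Or.inr ⟨hcb, hb.2.tail ⟨hbc, hb.1, hcb⟩⟩
  let ω : V → V → ZMod 2 := fun u v => if (u ∈ X ∧ v ∈ S) ∨ (v ∈ X ∧ u ∈ S) then 1 else 0
  obtain ⟨f, hf⟩ := tsc_mod2 hs ω (fun u _ v _ _ => by simp only [ω, or_comm])
    (fun u hu v hv w hw huv hvw huw => tsc_aux (u ∈ X) (u ∈ S) (v ∈ X) (v ∈ S) (w ∈ X) (w ∈ S) (hdis u) (hdis v) (hdis w)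
      (fun h h' => key u h v h' w hw huw hvw) (fun h h' => key v h u h' w hw hvw huw)
      (fun h h' => key u h w h' v hv huv hvw.symm) (fun h h' => key w h u h' v hv hvw.symm huv)
      (fun h h' => key v h w h' u hu huv.symm huw.symm) (fun h h' => key w h v h' u hu huw.symm huv.symm))
  have fX : ∀ a ∈ X, ∀ b ∈ X, f a = f b := by
    intro a ha b hb
    refine tsc_R_const f (fun p q h => ?_) (hXc a ha b hb)
    have h1 := hf p (hX h.2.1) q (hX h.2.2) h.1
    have h2 : ω p q = 0 := by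
      simp only [ω]
      rw [if_neg]
      rintro (⟨_, h'⟩ | ⟨_, h'⟩)
      · exact hdis q h.2.2 h'
      · exact hdis p h.2.1 h'
    rw [h2] at h1
    exact CharTwo.add_eq_zero.1 h1.symm
  have fY : ∀ a ∈ Y, ∀ b ∈ Y, f a = f b := by
    intro a ha b hb
    refine tsc_R_const f (fun p q h => ?_) (hYc a ha b hb)
    have h1 := hf p (hY h.2.1) q (hY h.2.2) h.1
    have h2 : ω p q = 0 := by
      simp only [ω]
      rw [if_neg]
      rintro (⟨h', _⟩ | ⟨h', _⟩)
      · exact hXY p h' h.2.1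
      · exact hXY q h' h.2.2
    rw [h2] at h1
    exact CharTwo.add_eq_zero.1 h1.symm
  obtain ⟨c₀, hc₀, hcd₀⟩ := hd₀.2
  obtain ⟨c₁, hc₁, hcd₁⟩ := hd₁.2
  have e0 : ω c₀ d₀ = 1 := by
    simp only [ω]
    exact if_pos (Or.inl ⟨hc₀, hd₀, ReflTransGen.refl⟩)
  have e1 : ω c₁ d₁ = 1 := by
    rw [hf c₁ (hX hc₁) d₁ (hY hd₁.1) hcd₁, fX c₁ hc₁ c₀ hc₀, fY d₁ hd₁.1 d₀ hd₀.1, ← hf c₀ (hX hc₀) d₀ (hY hd₀.1) hcd₀, e0]
  simp only [ω] at e1
  by_cases h : (c₁ ∈ X ∧ d₁ ∈ S) ∨ (d₁ ∈ X ∧ c₁ ∈ S)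
  · rcases h with h | h
    · exact h.2.2
    · exact (hXY d₁ h.1 hd₁.1).elim
  · rw [if_neg h] at e1
    exact absurd e1 (by decide)

/-- **Timar's lemma, outer layer**: the vertices of the component `D` of `x` in `s \ C` which touch the connected set `C` form a connected set -/
theorem tsc_timar_out (hs : TriSCOn (ZMod 2) G s) {C : Set V} (hCs : C ⊆ s) (hC : TscConn G C) (x : V) :
    TscConn G {d | d ∈ tscComp G (s \ C) x ∧ ∃ c ∈ C, G.Adj c d} := by
  refine tsc_core hs hCs (fun a h => h.1.1) (fun a h h' => h'.1.2 h) hC (tsc_comp_conn x) ?_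
  intro c _ d hd e he _ hde
  by_cases h : e ∈ C
  · exact Or.inl h
  · exact Or.inr (tsc_comp_adj hd ⟨he, h⟩ hde)

/-- **Timar's lemma, inner layer** -/
theorem tsc_timar_in (hs : TriSCOn (ZMod 2) G s) {C : Set V} (hCs : C ⊆ s) (hC : TscConn G C) (x : V) :
    TscConn G {c | c ∈ C ∧ ∃ d ∈ tscComp G (s \ C) x, G.Adj d c} := by
  refine tsc_core hs (fun a h => h.1.1) hCs (fun a h h' => h.1.2 h') (tsc_comp_conn x) hC ?_
  intro d hd c _ e he hde _
  by_cases h : e ∈ C
  · exact Or.inr h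
  · exact Or.inl (tsc_comp_adj hd ⟨he, h⟩ hde)

/-- every path inside `s` from a point `b` of the component `D` of `s \ C` to a point of `C` visits the outer layer (no hypothesis on `s`, `C`) -/
theorem tsc_timar_meets {C : Set V} {x b c : V} (hb : b ∈ tscComp G (s \ C) x) (hc : c ∈ C) {Q : Set V} (hQ : Q ⊆ s) (hpath : TscR G Q b c) :
    (Q ∩ {d | d ∈ tscComp G (s \ C) x ∧ ∃ c ∈ C, G.Adj c d}).Nonempty := by
  have claim : ∀ v, TscR G Q b v → (Q ∩ {d | d ∈ tscComp G (s \ C) x ∧ ∃ c ∈ C, G.Adj c d}).Nonempty ∨ v ∈ tscComp G (s \ C) x := by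
    intro v hv
    induction hv with
    | refl => exact Or.inr hb
    | @tail v w _ hvw ih =>
      rcases ih with h | h
      · exact Or.inl h
      · by_cases hw : w ∈ C
        · exact Or.inl ⟨v, hvw.2.1, h, w, hw, hvw.1.symm⟩
        · exact Or.inr (tsc_comp_adj h ⟨hQ hvw.2.2, hw⟩ hvw.1)
  rcases claim c hpath with h | h
  · exact h
  · exact (h.1.2 hc).elim

/-- **ABSTRACT HEX DUALITY**: if `t, b ∈ P` are not joined inside `P`, there is a connected set outside `P` which meets every path from `t` to `b` -/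
theorem tsc_hex (hs : TriSCOn (ZMod 2) G s) {P : Set V} (hPs : P ⊆ s) {t b : V} (ht : t ∈ P) (hb : b ∈ P) (hno : ¬ TscR G P t b) :
    ∃ M : Set V, M ⊆ s \ P ∧ TscConn G M ∧ ∀ Q : Set V, Q ⊆ s → TscR G Q t b → (Q ∩ M).Nonempty := by
  set C := tscComp G P t with hC
  have hCs : C ⊆ s := fun a h => hPs h.1
  have hbC : b ∉ C := fun h => hno h.2
  refine ⟨{d | d ∈ tscComp G (s \ C) b ∧ ∃ c ∈ C, G.Adj c d}, ?_, tsc_timar_out hs hCs (tsc_comp_conn t) b, ?_⟩
  · rintro d ⟨hd, c, hc, hcd⟩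
    exact ⟨hd.1.1, fun hdP => hd.1.2 (tsc_comp_adj hc hdP hcd)⟩
  · intro Q hQ hpath
    exact tsc_timar_meets (tsc_comp_self ⟨hPs hb, hbC⟩) (tsc_comp_self ht) hQ (tsc_R_symm hpath)

/-- **vertex extension**: a new vertex whose old neighbours form a connected set -/
theorem tsc_insert (hs : TriSCOn A G s) {v : V} (hv : v ∉ s) (hN : TscConn G {u | u ∈ s ∧ G.Adj u v}) : TriSCOn A G (insert v s) := by
  classical
  intro ω hω
  obtain ⟨f, hf⟩ := hs ω (hω.mono (Set.subset_insert v s))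
  set N : Set V := {u | u ∈ s ∧ G.Adj u v} with hNdef
  have hvs : v ∈ insert v s := Set.mem_insert v s
  have hss : ∀ a, a ∈ s → a ∈ insert v s := fun a h => Set.mem_insert_of_mem v h
  obtain ⟨c, hall⟩ : ∃ c : A, ∀ u ∈ N, ω u v = c - f u := by
    by_cases hne : N.Nonempty
    · obtain ⟨u₀, hu₀⟩ := hne
      refine ⟨f u₀ + ω u₀ v, fun u hu => ?_⟩
      have hconst : f u₀ + ω u₀ v = f u + ω u v := by
        refine tsc_R_const (fun a => f a + ω a v) (fun p q hpq => ?_) (hN u₀ hu₀ u hu)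
        have h1 := hω.tri p (hss p hpq.2.1.1) q (hss q hpq.2.2.1) v hvs hpq.1 hpq.2.2.2 hpq.2.1.2
        rw [hf p hpq.2.1.1 q hpq.2.2.1 hpq.1] at h1
        show f p + ω p v = f q + ω q v
        rw [← h1]; abel
      rw [hconst]; abel
    · exact ⟨0, fun u hu => (hne ⟨u, hu⟩).elim⟩
  refine ⟨Function.update f v c, ?_⟩
  intro a ha b hb hab
  rcases ha with rfl | ha
  · rcases hb with rfl | hb
    · exact (G.irrefl hab).elim
    · have hbv : b ≠ a := fun h => hv (h ▸ hb)
      rw [Function.update_self, Function.update_of_ne hbv, hω.anti b (hss b hb) a hvs hab.symm, hall b ⟨hb, hab.symm⟩, neg_sub]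
  · have hav : a ≠ v := fun h => hv (h ▸ ha)
    rcases hb with rfl | hb
    · rw [Function.update_self, Function.update_of_ne hav, hall a ⟨ha, hab⟩]
    · have hbv : b ≠ v := fun h => hv (h ▸ hb)
      rw [Function.update_of_ne hav, Function.update_of_ne hbv]
      exact hf a ha b hb hab

/-- **Mayer-Vietoris**: two pieces with connected intersection, every edge of the union inside one piece -/
theorem tsc_union (hs : TriSCOn A G s) (ht : TriSCOn A G t) (hst : TscConn G (s ∩ t))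
    (hE : ∀ u ∈ s ∪ t, ∀ v ∈ s ∪ t, G.Adj u v → (u ∈ s ∧ v ∈ s) ∨ (u ∈ t ∧ v ∈ t)) : TriSCOn A G (s ∪ t) := by
  classical
  intro ω hω
  obtain ⟨f₁, hf₁⟩ := hs ω (hω.mono Set.subset_union_left)
  obtain ⟨f₂, hf₂⟩ := ht ω (hω.mono Set.subset_union_right)
  have hconst : ∀ a ∈ s ∩ t, ∀ b ∈ s ∩ t, f₁ a - f₂ a = f₁ b - f₂ b := fun a ha b hb =>
    tsc_pot_unique (ω := ω) (fun u hu v hv => hf₁ u hu.1 v hv.1) (fun u hu v hv => hf₂ u hu.2 v hv.2) (hst a ha b hb)
  obtain ⟨κ, hκ⟩ : ∃ κ : A, ∀ a ∈ s ∩ t, f₁ a - f₂ a = κ := by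
    by_cases hne : (s ∩ t).Nonempty
    · obtain ⟨o, ho⟩ := hne
      exact ⟨f₁ o - f₂ o, fun a ha => hconst a ha o ho⟩
    · exact ⟨0, fun a ha => (hne ⟨a, ha⟩).elim⟩
  have hval : ∀ a ∈ t, (if a ∈ s then f₁ a else f₂ a + κ) = f₂ a + κ := by
    intro a ha
    by_cases has : a ∈ s
    · rw [if_pos has, ← hκ a ⟨has, ha⟩]; abel
    · rw [if_neg has]
  refine ⟨fun a => if a ∈ s then f₁ a else f₂ a + κ, ?_⟩
  intro a ha b hb hab
  rcases hE a ha b hb hab with h | h
  · simp only [if_pos h.1, if_pos h.2]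
    exact hf₁ a h.1 b h.2 hab
  · simp only [hval a h.1, hval b h.2]
    rw [hf₂ a h.1 b h.2 hab]; abel

theorem tsc_empty : TriSCOn A G (∅ : Set V) := fun _ _ => ⟨0, fun _ h => h.elim⟩

/-- **increasing unions** of connected pieces through a base point -/
theorem tsc_iUnion (S : ℕ → Set V) (hmono : Monotone S) (o : V) (ho : o ∈ S 0) (hc : ∀ n, TscConn G (S n)) (hs : ∀ n, TriSCOn A G (S n)) :
    TriSCOn A G (⋃ n, S n) := by
  classical
  intro ω hω
  have hex : ∀ n, ∃ f : V → A, f o = 0 ∧ ∀ u ∈ S n, ∀ v ∈ S n, G.Adj u v → ω u v = f v - f u := by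
    intro n
    obtain ⟨f, hf⟩ := hs n ω (hω.mono (Set.subset_iUnion S n))
    exact ⟨fun v => f v - f o, sub_self _, fun u hu v hv h => by rw [hf u hu v hv h]; exact (sub_sub_sub_cancel_right _ _ _).symm⟩
  choose F hF0 hF using hex
  have hoS : ∀ n, o ∈ S n := fun n => hmono (Nat.zero_le n) ho
  have hagree : ∀ n m, n ≤ m → ∀ u ∈ S n, F m u = F n u := by
    intro n m hnm u hu
    have h := tsc_pot_unique (ω := ω) (f := F m) (g := F n) (fun a ha b hb => hF m a (hmono hnm ha) b (hmono hnm hb)) (hF n) (hc n o (hoS n) u hu)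
    rw [hF0, hF0, sub_self] at h
    exact (sub_eq_zero.1 h.symm)
  have hidx : ∀ u : V, ∃ n, u ∈ (⋃ n, S n) → u ∈ S n := by
    intro u
    by_cases h : u ∈ ⋃ n, S n
    · obtain ⟨n, hn⟩ := Set.mem_iUnion.1 h
      exact ⟨n, fun _ => hn⟩
    · exact ⟨0, fun h' => (h h').elim⟩
  choose idx hidx using hidx
  refine ⟨fun u => F (idx u) u, fun u hu v hv h => ?_⟩
  have hu' := hidx u hu
  have hv' := hidx v hv
  set N := max (idx u) (idx v) with hN
  have e1 : F N u = F (idx u) u := hagree _ _ (le_max_left _ _) u hu'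
  have e2 : F N v = F (idx v) v := hagree _ _ (le_max_right _ _) v hv'
  show ω u v = F (idx v) v - F (idx u) u
  rw [← e1, ← e2]
  exact hF N u (hmono (le_max_left _ _) hu') v (hmono (le_max_right _ _) hv') h

/-- transport along an isomorphism of the pieces -/
theorem tsc_map {V' : Type*} {G' : SimpleGraph V'} (e : V ≃ V') (he : ∀ a b, G.Adj a b ↔ G'.Adj (e a) (e b)) (hs : TriSCOn A G s) :
    TriSCOn A G' (e '' s) := by
  intro ω hω
  have hm : ∀ a, a ∈ s → e a ∈ e '' s := fun a h => Set.mem_image_of_mem e h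
  obtain ⟨f, hf⟩ := hs (fun a b => ω (e a) (e b))
    ⟨fun u hu v hv h => hω.anti _ (hm u hu) _ (hm v hv) ((he u v).1 h),
     fun u hu v hv w hw h1 h2 h3 => hω.tri _ (hm u hu) _ (hm v hv) _ (hm w hw) ((he u v).1 h1) ((he v w).1 h2) ((he u w).1 h3)⟩
  refine ⟨fun a' => f (e.symm a'), ?_⟩
  rintro _ ⟨u, hu, rfl⟩ _ ⟨v, hv, rfl⟩ h
  simp only [Equiv.symm_apply_apply]
  exact hf u hu v hv ((he u v).2 h)

theorem tsc_R_map {V' : Type*} {G' : SimpleGraph V'} (e : V → V') (he : ∀ a b, G.Adj a b → G'.Adj (e a) (e b)) {a b : V} (h : TscR G s a b) :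
    TscR G' (e '' s) (e a) (e b) := by
  induction h with
  | refl => exact ReflTransGen.refl
  | tail _ hbc ih => exact ih.tail ⟨he _ _ hbc.1, Set.mem_image_of_mem e hbc.2.1, Set.mem_image_of_mem e hbc.2.2⟩

theorem tsc_conn_map {V' : Type*} {G' : SimpleGraph V'} (e : V → V') (he : ∀ a b, G.Adj a b → G'.Adj (e a) (e b)) (h : TscConn G s) :
    TscConn G' (e '' s) := by
  rintro _ ⟨u, hu, rfl⟩ _ ⟨v, hv, rfl⟩
  exact tsc_R_map e he (h u hu v hv)

/-- unfolding equations of the definitions of this file -/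
theorem tsc_eqns_cite (G : SimpleGraph V) (s : Set V) (a b x : V) :
    (TriSCOn A G s ↔ ∀ ω : V → V → A, TscClosed G s ω → ∃ f : V → A, ∀ u ∈ s, ∀ v ∈ s, G.Adj u v → ω u v = f v - f u) ∧
    (TscStep G s a b ↔ G.Adj a b ∧ a ∈ s ∧ b ∈ s) ∧ (TscR G s = ReflTransGen (TscStep G s)) ∧
    (TscConn G s ↔ ∀ u ∈ s, ∀ v ∈ s, TscR G s u v) ∧ (tscComp G s x = {v | v ∈ s ∧ TscR G s x v}) :=
  ⟨Iff.rfl, Iff.rfl, rfl, Iff.rfl, rfl⟩

end basic

end Claimed.Agent.R291
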