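import Mathlib
import Claimed.Agent.R291.Defs.Frozen
import Claimed.Agent.R291.Tool.TriSC

/-!
# Row 291 (S0539), Tool/TriSCLat : THE TRIANGULAR LATTICE IS SIMPLY CONNECTED      (owner helper147; prefix `tsc_`)      no sorry

Instances of the abstract kit `Tool/TriSC.lean` on `ℤ × ℤ` with the frozen adjacency `Claims.C0467.triAdj`.

* `tscG`              the triangular lattice as a `SimpleGraph (ℤ × ℤ)`  (`tscG.Adj = triAdj` by `Iff.rfl`)
* `TscShell s`, `tsc_shell`, `tsc_shell_set`   LEXICOGRAPHIC SHELLING: a finite `s` with `(x,y), (x-1,y), (x+1,y-1) ∈ s → (x,y-1) ∈ s` is `TriSCOn A` for every `A`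
* `tscHex a b c d e f`  `= {a ≤ x ≤ b, c ≤ y ≤ d, e ≤ x+y ≤ f}` (parallelograms, trapezoids, triangles, hexagon balls);  `tsc_hex_sc`;   `tscBox`, `tsc_box_sc`, `tsc_box_conn`
* `tsc_plane`         the whole lattice is `TriSCOn A`
* `tsc_plane_timar`, `tsc_plane_timar_in`, `tsc_plane_meets`      Timar's lemma in the plane
* `tsc_box_compl_conn`  the complement of a box is connected ("visible from infinity" is one component)
* `tsc_hex_box`       HEX EXISTENCE in a lattice parallelogram: a left-right path inside `P` or a bottom-top path outside `P`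
* `tsc_R_iff_chain`   bridge to the carrier of `Pl/Flux.lean` (`List.IsChain triAdj`)
-/

set_option autoImplicit false
set_option linter.unusedSectionVars false
set_option linter.unusedVariables false
set_option linter.unusedSimpArgs false

namespace Claimed.Agent.R291

open Relation Claims.C0467

theorem tsc_adj_iff (u v : ℤ × ℤ) : triAdj u v ↔
    (v.1 = u.1 + 1 ∧ v.2 = u.2) ∨ (v.1 = u.1 ∧ v.2 = u.2 + 1) ∨ (v.1 = u.1 - 1 ∧ v.2 = u.2 + 1) ∨
      (v.1 = u.1 - 1 ∧ v.2 = u.2) ∨ (v.1 = u.1 ∧ v.2 = u.2 - 1) ∨ (v.1 = u.1 + 1 ∧ v.2 = u.2 - 1) := by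
  unfold triAdj
  simp only [Prod.ext_iff, Prod.fst_sub, Prod.snd_sub]
  omega

/-- the triangular lattice -/
def tscG : SimpleGraph (ℤ × ℤ) where
  Adj := triAdj
  symm := ⟨by
    intro u v h
    rw [tsc_adj_iff] at *
    omega⟩
  loopless := ⟨by
    intro u h
    rw [tsc_adj_iff] at h
    omega⟩

theorem tsc_G_adj (u v : ℤ × ℤ) : tscG.Adj u v ↔ triAdj u v := Iff.rfl

/-- no "lexicographic fjord" -/
def TscShell (s : Set (ℤ × ℤ)) : Prop := ∀ x y : ℤ, (x, y) ∈ s → (x - 1, y) ∈ s → (x + 1, y - 1) ∈ s → (x, y - 1) ∈ s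

theorem tsc_shell_nbr {a u : ℤ × ℤ} (h : triAdj u a) (hle : u.2 < a.2 ∨ (u.2 = a.2 ∧ u.1 ≤ a.1)) :
    u = (a.1 - 1, a.2) ∨ u = (a.1, a.2 - 1) ∨ u = (a.1 + 1, a.2 - 1) := by
  rw [tsc_adj_iff] at h
  simp only [Prod.ext_iff]
  omega

section inst
variable (A : Type*) [AddCommGroup A]

/-- **lexicographic shelling** -/
theorem tsc_shell (s : Finset (ℤ × ℤ)) : TscShell (↑s : Set (ℤ × ℤ)) → TriSCOn A tscG (↑s : Set (ℤ × ℤ)) := by
  classical
  refine Finset.induction_on_max_value (fun v : ℤ × ℤ => toLex (v.2, v.1)) s ?_ ?_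
  · intro _
    rw [Finset.coe_empty]
    exact tsc_empty
  · intro a s ha hmax ih hsh
    have hlex : ∀ u ∈ s, u.2 < a.2 ∨ (u.2 = a.2 ∧ u.1 ≤ a.1) := by
      intro u hu
      have := hmax u hu
      rw [Prod.Lex.toLex_le_toLex] at this
      exact this
    have hne : ∀ u ∈ s, u ≠ a := fun u hu h => ha (h ▸ hu)
    rw [Finset.coe_insert] at hsh ⊢
    have hsh' : TscShell (↑s : Set (ℤ × ℤ)) := by
      intro x y h1 h2 h3
      rcases hsh x y (Or.inr h1) (Or.inr h2) (Or.inr h3) with h | h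
      · exfalso
        have := hlex (x, y) h1
        rw [← h] at this
        simp only at this
        omega
      · exact h
    refine tsc_insert (ih hsh') (by simpa using ha) ?_
    set N : Set (ℤ × ℤ) := {u | u ∈ (↑s : Set (ℤ × ℤ)) ∧ tscG.Adj u a} with hN
    have aLD : triAdj (a.1 - 1, a.2) (a.1, a.2 - 1) := (tsc_adj_iff _ _).2 (by dsimp only; omega)
    have aDR : triAdj (a.1, a.2 - 1) (a.1 + 1, a.2 - 1) := (tsc_adj_iff _ _).2 (by dsimp only; omega)
    have aDa : triAdj (a.1, a.2 - 1) a := (tsc_adj_iff _ _).2 (by dsimp only; omega)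
    have hD : (a.1 - 1, a.2) ∈ N → (a.1 + 1, a.2 - 1) ∈ N → (a.1, a.2 - 1) ∈ N := by
      intro h1 h2
      rcases hsh a.1 a.2 (Or.inl rfl) (Or.inr h1.1) (Or.inr h2.1) with h | h
      · exfalso
        have := congrArg Prod.snd h
        simp only at this
        omega
      · exact ⟨h, aDa⟩
    have hLR : (a.1 - 1, a.2) ∈ N → (a.1 + 1, a.2 - 1) ∈ N → TscR tscG N (a.1 - 1, a.2) (a.1 + 1, a.2 - 1) := fun h1 h2 =>
      tsc_R_trans (tsc_R_step aLD h1 (hD h1 h2)) (tsc_R_step aDR (hD h1 h2) h2)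
    intro u hu v hv
    rcases tsc_shell_nbr hu.2 (hlex u hu.1) with rfl | rfl | rfl <;> rcases tsc_shell_nbr hv.2 (hlex v hv.1) with rfl | rfl | rfl
    · exact tsc_R_refl _
    · exact tsc_R_step aLD hu hv
    · exact hLR hu hv
    · exact tsc_R_symm (tsc_R_step aLD hv hu)
    · exact tsc_R_refl _
    · exact tsc_R_step aDR hu hv
    · exact tsc_R_symm (hLR hv hu)
    · exact tsc_R_symm (tsc_R_step aDR hv hu)
    · exact tsc_R_refl _

theorem tsc_shell_set {s : Set (ℤ × ℤ)} (hfin : s.Finite) (h : TscShell s) : TriSCOn A tscG s := by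
  have := tsc_shell A hfin.toFinset
  rw [Set.Finite.coe_toFinset] at this
  exact this h

end inst

/-- hex-convex sets: parallelograms, trapezoids, triangles, hexagon balls -/
def tscHex (a b c d e f : ℤ) : Set (ℤ × ℤ) := {p | a ≤ p.1 ∧ p.1 ≤ b ∧ c ≤ p.2 ∧ p.2 ≤ d ∧ e ≤ p.1 + p.2 ∧ p.1 + p.2 ≤ f}

/-- lattice parallelograms -/
def tscBox (a b c d : ℤ) : Set (ℤ × ℤ) := {p | a ≤ p.1 ∧ p.1 ≤ b ∧ c ≤ p.2 ∧ p.2 ≤ d}

theorem tsc_box_finite (a b c d : ℤ) : (tscBox a b c d).Finite := by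
  refine (Set.finite_Icc ((a, c) : ℤ × ℤ) (b, d)).subset ?_
  intro p hp
  exact ⟨⟨hp.1, hp.2.2.1⟩, ⟨hp.2.1, hp.2.2.2⟩⟩

theorem tsc_hex_sub_box (a b c d e f : ℤ) : tscHex a b c d e f ⊆ tscBox a b c d := fun p hp => ⟨hp.1, hp.2.1, hp.2.2.1, hp.2.2.2.1⟩

theorem tsc_hex_finite (a b c d e f : ℤ) : (tscHex a b c d e f).Finite := (tsc_box_finite a b c d).subset (tsc_hex_sub_box a b c d e f)

theorem tsc_hex_shell (a b c d e f : ℤ) : TscShell (tscHex a b c d e f) := by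
  intro x y h1 h2 h3
  simp only [tscHex, Set.mem_ofPred_eq] at *
  omega

theorem tsc_box_shell (a b c d : ℤ) : TscShell (tscBox a b c d) := by
  intro x y h1 h2 h3
  simp only [tscBox, Set.mem_ofPred_eq] at *
  omega

theorem tsc_hex_sc (A : Type*) [AddCommGroup A] (a b c d e f : ℤ) : TriSCOn A tscG (tscHex a b c d e f) :=
  tsc_shell_set A (tsc_hex_finite a b c d e f) (tsc_hex_shell a b c d e f)

theorem tsc_box_sc (A : Type*) [AddCommGroup A] (a b c d : ℤ) : TriSCOn A tscG (tscBox a b c d) :=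
  tsc_shell_set A (tsc_box_finite a b c d) (tsc_box_shell a b c d)

/-! ### straight paths -/

theorem tsc_R_hline {s : Set (ℤ × ℤ)} (x y : ℤ) (k : ℕ) (h : ∀ j : ℕ, j ≤ k → (x + j, y) ∈ s) : TscR tscG s (x, y) (x + k, y) := by
  induction k with
  | zero => simp only [Nat.cast_zero, add_zero]; exact tsc_R_refl _
  | succ k ih =>
    refine (ih (fun j hj => h j (by omega))).tail ⟨(tsc_adj_iff _ _).2 (by dsimp only; push_cast; omega), h k (by omega), h (k + 1) le_rfl⟩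

theorem tsc_R_vline {s : Set (ℤ × ℤ)} (x y : ℤ) (k : ℕ) (h : ∀ j : ℕ, j ≤ k → (x, y + j) ∈ s) : TscR tscG s (x, y) (x, y + k) := by
  induction k with
  | zero => simp only [Nat.cast_zero, add_zero]; exact tsc_R_refl _
  | succ k ih =>
    refine (ih (fun j hj => h j (by omega))).tail ⟨(tsc_adj_iff _ _).2 (by dsimp only; push_cast; omega), h k (by omega), h (k + 1) le_rfl⟩

theorem tsc_R_hseg {s : Set (ℤ × ℤ)} {x x' y : ℤ} (h : ∀ z, min x x' ≤ z → z ≤ max x x' → (z, y) ∈ s) : TscR tscG s (x, y) (x', y) := by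
  rcases le_total x x' with hx | hx
  · have := tsc_R_hline (s := s) x y (x' - x).toNat (fun j hj => h _ (by rw [min_eq_left hx]; omega) (by rw [max_eq_right hx]; omega))
    rwa [Int.toNat_of_nonneg (by omega), add_sub_cancel] at this
  · have := tsc_R_hline (s := s) x' y (x - x').toNat (fun j hj => h _ (by rw [min_eq_right hx]; omega) (by rw [max_eq_left hx]; omega))
    rw [Int.toNat_of_nonneg (by omega), add_sub_cancel] at this
    exact tsc_R_symm this

theorem tsc_R_vseg {s : Set (ℤ × ℤ)} {x y y' : ℤ} (h : ∀ z, min y y' ≤ z → z ≤ max y y' → (x, z) ∈ s) : TscR tscG s (x, y) (x, y') := by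
  rcases le_total y y' with hx | hx
  · have := tsc_R_vline (s := s) x y (y' - y).toNat (fun j hj => h _ (by rw [min_eq_left hx]; omega) (by rw [max_eq_right hx]; omega))
    rwa [Int.toNat_of_nonneg (by omega), add_sub_cancel] at this
  · have := tsc_R_vline (s := s) x y' (y - y').toNat (fun j hj => h _ (by rw [min_eq_right hx]; omega) (by rw [max_eq_left hx]; omega))
    rw [Int.toNat_of_nonneg (by omega), add_sub_cancel] at this
    exact tsc_R_symm this

/-- products of intervals are connected -/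
theorem tsc_conn_prod (I J : Set ℤ) (hI : I.OrdConnected) (hJ : J.OrdConnected) : TscConn tscG (I ×ˢ J) := by
  rintro ⟨u1, u2⟩ ⟨hu1, hu2⟩ ⟨v1, v2⟩ ⟨hv1, hv2⟩
  simp only at hu1 hu2 hv1 hv2
  refine tsc_R_trans (tsc_R_hseg (x' := v1) (fun z h1 h2 => ⟨?_, hu2⟩)) (tsc_R_vseg (fun z h1 h2 => ⟨hv1, ?_⟩))
  · rcases le_total u1 v1 with h | h
    · exact hI.out hu1 hv1 ⟨by rwa [min_eq_left h] at h1, by rwa [max_eq_right h] at h2⟩
    · exact hI.out hv1 hu1 ⟨by rwa [min_eq_right h] at h1, by rwa [max_eq_left h] at h2⟩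
  · rcases le_total u2 v2 with h | h
    · exact hJ.out hu2 hv2 ⟨by rwa [min_eq_left h] at h1, by rwa [max_eq_right h] at h2⟩
    · exact hJ.out hv2 hu2 ⟨by rwa [min_eq_right h] at h1, by rwa [max_eq_left h] at h2⟩

theorem tsc_box_eq (a b c d : ℤ) : tscBox a b c d = Set.Icc a b ×ˢ Set.Icc c d := by
  ext p
  simp only [tscBox, Set.mem_ofPred_eq, Set.mem_prod, Set.mem_Icc]
  tauto

theorem tsc_box_conn (a b c d : ℤ) : TscConn tscG (tscBox a b c d) := by
  rw [tsc_box_eq]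
  exact tsc_conn_prod _ _ Set.ordConnected_Icc Set.ordConnected_Icc

/-- **the whole triangular lattice is simply connected** -/
theorem tsc_plane (A : Type*) [AddCommGroup A] : TriSCOn A tscG (Set.univ : Set (ℤ × ℤ)) := by
  have h := tsc_iUnion (A := A) (G := tscG) (fun n : ℕ => tscBox (-n) n (-n) n) ?_ (0, 0) ?_ (fun n => tsc_box_conn _ _ _ _) (fun n => tsc_box_sc A _ _ _ _)
  · have hU : (⋃ n : ℕ, tscBox (-n) n (-n) n) = Set.univ := by
      refine Set.eq_univ_of_forall (fun p => Set.mem_iUnion.2 ⟨p.1.natAbs + p.2.natAbs, ?_⟩)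
      simp only [tscBox, Set.mem_ofPred_eq]
      push_cast
      have h1 := abs_nonneg p.1
      have h2 := abs_nonneg p.2
      have h3 := le_abs_self p.1
      have h4 := le_abs_self p.2
      have h5 := neg_abs_le p.1
      have h6 := neg_abs_le p.2
      refine ⟨by linarith, by linarith, by linarith, by linarith⟩
    rwa [hU] at h
  · intro n m hnm p hp
    simp only [tscBox, Set.mem_ofPred_eq] at *
    have : (n : ℤ) ≤ m := by exact_mod_cast hnm
    omega
  · simp [tscBox]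

/-- **Timar's lemma in the plane, outer layer**: `C` connected, `D` the component of `x` in the complement: the sites of `D` which touch `C` form a connected set -/
theorem tsc_plane_timar {C : Set (ℤ × ℤ)} (hC : TscConn tscG C) (x : ℤ × ℤ) :
    TscConn tscG {d | d ∈ tscComp tscG Cᶜ x ∧ ∃ c ∈ C, triAdj c d} := by
  have := tsc_timar_out (tsc_plane (ZMod 2)) (Set.subset_univ C) hC x
  rwa [← Set.compl_eq_univ_sdiff] at this

/-- **Timar's lemma in the plane, inner layer** -/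
theorem tsc_plane_timar_in {C : Set (ℤ × ℤ)} (hC : TscConn tscG C) (x : ℤ × ℤ) :
    TscConn tscG {c | c ∈ C ∧ ∃ d ∈ tscComp tscG Cᶜ x, triAdj d c} := by
  have := tsc_timar_in (tsc_plane (ZMod 2)) (Set.subset_univ C) hC x
  rwa [← Set.compl_eq_univ_sdiff] at this

/-- every path from the component `D` to `C` visits the outer layer -/
theorem tsc_plane_meets {C : Set (ℤ × ℤ)} {x b c : ℤ × ℤ} (hb : b ∈ tscComp tscG Cᶜ x) (hc : c ∈ C) {Q : Set (ℤ × ℤ)} (hpath : TscR tscG Q b c) :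
    (Q ∩ {d | d ∈ tscComp tscG Cᶜ x ∧ ∃ c ∈ C, triAdj c d}).Nonempty := by
  rw [Set.compl_eq_univ_sdiff] at hb ⊢
  exact tsc_timar_meets hb hc (Set.subset_univ Q) hpath

/-- the complement of a box is connected -/
theorem tsc_box_compl_conn (a b c d : ℤ) : TscConn tscG (tscBox a b c d)ᶜ := by
  have h1 : TscConn tscG (Set.Iio a ×ˢ (Set.univ : Set ℤ)) := tsc_conn_prod _ _ Set.ordConnected_Iio Set.ordConnected_univ
  have h2 : TscConn tscG ((Set.univ : Set ℤ) ×ˢ Set.Ioi d) := tsc_conn_prod _ _ Set.ordConnected_univ Set.ordConnected_Ioi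
  have h3 : TscConn tscG (Set.Ioi b ×ˢ (Set.univ : Set ℤ)) := tsc_conn_prod _ _ Set.ordConnected_Ioi Set.ordConnected_univ
  have h4 : TscConn tscG ((Set.univ : Set ℤ) ×ˢ Set.Iio c) := tsc_conn_prod _ _ Set.ordConnected_univ Set.ordConnected_Iio
  have h12 := tsc_conn_union h1 h2 (a := (a - 1, d + 1)) (b := (a - 1, d + 1)) (by simp) (by simp) (Or.inl rfl)
  have h123 := tsc_conn_union h12 h3 (a := (b + 1, d + 1)) (b := (b + 1, d + 1)) (Or.inr (by simp)) (by simp) (Or.inl rfl)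
  have h1234 := tsc_conn_union h123 h4 (a := (b + 1, c - 1)) (b := (b + 1, c - 1)) (Or.inr (by simp)) (by simp) (Or.inl rfl)
  have hE : (tscBox a b c d)ᶜ = Set.Iio a ×ˢ (Set.univ : Set ℤ) ∪ (Set.univ : Set ℤ) ×ˢ Set.Ioi d ∪ Set.Ioi b ×ˢ (Set.univ : Set ℤ) ∪ (Set.univ : Set ℤ) ×ˢ Set.Iio c := by
    ext p
    simp only [tscBox, Set.mem_compl_iff, Set.mem_ofPred_eq, Set.mem_union, Set.mem_prod, Set.mem_Iio, Set.mem_Ioi, Set.mem_univ, and_true, true_and]
    omega
  rw [hE]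
  exact h1234

theorem tsc_adj_fst {u v : ℤ × ℤ} (h : triAdj u v) : v.1 ≤ u.1 + 1 ∧ u.1 ≤ v.1 + 1 := by
  rw [tsc_adj_iff] at h
  omega

theorem tsc_adj_snd {u v : ℤ × ℤ} (h : triAdj u v) : v.2 ≤ u.2 + 1 ∧ u.2 ≤ v.2 + 1 := by
  rw [tsc_adj_iff] at h
  omega

/-- **HEX EXISTENCE in a lattice parallelogram**: a left-right path inside `P` or a bottom-top path outside `P` -/
theorem tsc_hex_box {a b c d : ℤ} (hab : a ≤ b) (hcd : c ≤ d) (P : Set (ℤ × ℤ)) :
    (∃ l r, l ∈ tscBox a b c d ∩ P ∧ l.1 = a ∧ r.1 = b ∧ TscR tscG (tscBox a b c d ∩ P) l r) ∨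
    (∃ u v, u ∈ tscBox a b c d \ P ∧ u.2 = c ∧ v.2 = d ∧ TscR tscG (tscBox a b c d \ P) u v) := by
  set R := tscBox a b c d with hR
  set R' := tscBox (a - 1) (b + 1) c d with hR'
  set P0 := R ∩ P with hP0
  set P' : Set (ℤ × ℤ) := {p | p ∈ P0 ∨ (p ∈ R' ∧ (p.1 = a - 1 ∨ p.1 = b + 1))} with hP'
  have hRR' : R ⊆ R' := by
    intro p hp
    simp only [hR, hR', tscBox, Set.mem_ofPred_eq] at *
    omega
  have hP'R' : P' ⊆ R' := by
    rintro p (hp | hp)
    · exact hRR' hp.1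
    · exact hp.1
  have memR' : ∀ x y : ℤ, a - 1 ≤ x → x ≤ b + 1 → c ≤ y → y ≤ d → (x, y) ∈ R' := fun x y h1 h2 h3 h4 => ⟨h1, h2, h3, h4⟩
  have ht : ((a - 1, c) : ℤ × ℤ) ∈ P' := Or.inr ⟨memR' _ _ le_rfl (by omega) le_rfl hcd, Or.inl rfl⟩
  have hb : ((b + 1, c) : ℤ × ℤ) ∈ P' := Or.inr ⟨memR' _ _ (by omega) le_rfl le_rfl hcd, Or.inr rfl⟩
  by_cases hj : TscR tscG P' (a - 1, c) (b + 1, c)
  · left
    have claim : ∀ v, TscR tscG P' (a - 1, c) v → v.1 = a - 1 ∨ (∃ l r, l ∈ P0 ∧ l.1 = a ∧ r.1 = b ∧ TscR tscG P0 l r) ∨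
        (∃ l, l ∈ P0 ∧ l.1 = a ∧ TscR tscG P0 l v ∧ v ∈ P0) := by
      intro v hv
      induction hv with
      | refl => exact Or.inl rfl
      | @tail v w _ hvw ih =>
        have hadj := tsc_adj_fst hvw.1
        rcases ih with h | h | ⟨l, hl, hla, hlv, hvP⟩
        · rcases hvw.2.2 with hw | ⟨_, hw | hw⟩
          · have : a ≤ w.1 := hw.1.1
            exact Or.inr (Or.inr ⟨w, hw, by omega, tsc_R_refl _, hw⟩)
          · exact Or.inl hw
          · omega
        · exact Or.inr (Or.inl h)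
        · rcases hvw.2.2 with hw | ⟨_, hw | hw⟩
          · exact Or.inr (Or.inr ⟨l, hl, hla, hlv.tail ⟨hvw.1, hvP, hw⟩, hw⟩)
          · exact Or.inl hw
          · have : v.1 ≤ b := hvP.1.2.1
            exact Or.inr (Or.inl ⟨l, v, hl, hla, by omega, hlv⟩)
    rcases claim _ hj with h | h | ⟨l, _, _, _, h⟩
    · simp only at h
      omega
    · exact h
    · have : b + 1 ≤ b := h.1.2.1
      omega
  · right
    obtain ⟨M, hM, hMc, hMq⟩ := tsc_hex (tsc_box_sc (ZMod 2) (a - 1) (b + 1) c d) hP'R' ht hb hj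
    have hMR : M ⊆ R \ P := by
      intro p hp
      have h1 := (hM hp).1
      have h2 := (hM hp).2
      have h3 : p.1 ≠ a - 1 := fun h => h2 (Or.inr ⟨h1, Or.inl h⟩)
      have h4 : p.1 ≠ b + 1 := fun h => h2 (Or.inr ⟨h1, Or.inr h⟩)
      have h5 : p ∈ R := by
        simp only [hR, hR', tscBox, Set.mem_ofPred_eq] at *
        omega
      exact ⟨h5, fun h => h2 (Or.inl ⟨h5, h⟩)⟩
    -- the bottom row
    obtain ⟨u, hu1, hu2⟩ := hMq {p | p ∈ R' ∧ p.2 = c} (fun p hp => hp.1)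
      (tsc_R_hseg (fun z h1 h2 => ⟨memR' _ _ (by rw [min_eq_left (by omega)] at h1; exact h1) (by rw [max_eq_right (by omega)] at h2; exact h2) le_rfl hcd, rfl⟩))
    -- up the left column, along the top row, down the right column
    obtain ⟨v, hv1, hv2⟩ := hMq {p | p ∈ R' ∧ (p.1 = a - 1 ∨ p.1 = b + 1 ∨ p.2 = d)} (fun p hp => hp.1)
      (tsc_R_trans (tsc_R_vseg (y' := d) (fun z h1 h2 => ⟨memR' _ _ le_rfl (by omega) (by rw [min_eq_left hcd] at h1; exact h1) (by rw [max_eq_right hcd] at h2; exact h2), Or.inl rfl⟩))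
        (tsc_R_trans (tsc_R_hseg (x' := b + 1) (fun z h1 h2 => ⟨memR' _ _ (by rw [min_eq_left (by omega)] at h1; exact h1) (by rw [max_eq_right (by omega)] at h2; exact h2) hcd le_rfl, Or.inr (Or.inr rfl)⟩))
          (tsc_R_vseg (fun z h1 h2 => ⟨memR' _ _ (by omega) le_rfl (by rw [min_eq_right hcd] at h1; exact h1) (by rw [max_eq_left hcd] at h2; exact h2), Or.inr (Or.inl rfl)⟩))))
    have hvd : v.2 = d := by
      rcases hv1.2 with h | h | h
      · exact ((hM hv2).2 (Or.inr ⟨hv1.1, Or.inl h⟩)).elim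
      · exact ((hM hv2).2 (Or.inr ⟨hv1.1, Or.inr h⟩)).elim
      · exact h
    exact ⟨u, v, hMR hu2, hu1.2, hvd, tsc_R_mono hMR (hMc u hu2 v hv2)⟩

/-- bridge to the carrier of `Pl/Flux.lean`: walks are lists `u :: l` with `List.IsChain triAdj` -/
theorem tsc_R_iff_chain {s : Set (ℤ × ℤ)} {u v : ℤ × ℤ} :
    (u ∈ s ∧ TscR tscG s u v) ↔
      ∃ l : List (ℤ × ℤ), (u :: l).IsChain triAdj ∧ (u :: l).getLast (List.cons_ne_nil u l) = v ∧ ∀ z ∈ u :: l, z ∈ s := by
  constructor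
  · rintro ⟨hu, h⟩
    revert hu
    refine ReflTransGen.head_induction_on (motive := fun a _ => a ∈ s → ∃ l : List (ℤ × ℤ), (a :: l).IsChain triAdj ∧
      (a :: l).getLast (List.cons_ne_nil a l) = v ∧ ∀ z ∈ a :: l, z ∈ s) h ?_ ?_
    · intro hv
      exact ⟨[], List.isChain_singleton _, rfl, by simpa using hv⟩
    · intro a c hac _ ih ha
      obtain ⟨l, h1, h2, h3⟩ := ih hac.2.2
      refine ⟨c :: l, List.isChain_cons_cons.2 ⟨hac.1, h1⟩, ?_, ?_⟩
      · rw [List.getLast_cons (List.cons_ne_nil c l)]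
        exact h2
      · intro z hz
        rcases List.mem_cons.1 hz with rfl | hz
        · exact ha
        · exact h3 z hz
  · rintro ⟨l, h1, h2, h3⟩
    induction l generalizing u with
    | nil =>
      have : u = v := h2
      exact ⟨h3 u (by simp), this ▸ tsc_R_refl _⟩
    | cons c l ih =>
      rw [List.isChain_cons_cons] at h1
      rw [List.getLast_cons (List.cons_ne_nil c l)] at h2
      obtain ⟨hc, hcv⟩ := ih h1.2 h2 (fun z hz => h3 z (List.mem_cons_of_mem _ hz))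
      exact ⟨h3 u (by simp), ReflTransGen.head ⟨h1.1, h3 u (by simp), hc⟩ hcv⟩

/-- unfolding equations of the definitions of this file -/
theorem tsc_lat_eqns_cite (s : Set (ℤ × ℤ)) (a b c d e f : ℤ) :
    (TscShell s ↔ ∀ x y : ℤ, (x, y) ∈ s → (x - 1, y) ∈ s → (x + 1, y - 1) ∈ s → (x, y - 1) ∈ s) ∧
    (tscHex a b c d e f = {p | a ≤ p.1 ∧ p.1 ≤ b ∧ c ≤ p.2 ∧ p.2 ≤ d ∧ e ≤ p.1 + p.2 ∧ p.1 + p.2 ≤ f}) ∧
    (tscBox a b c d = {p | a ≤ p.1 ∧ p.1 ≤ b ∧ c ≤ p.2 ∧ p.2 ≤ d}) ∧ (tscG.Adj = triAdj) :=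
  ⟨Iff.rfl, rfl, rfl, rfl⟩

end Claimed.Agent.R291
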