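/-
# Row 291 (S0539), tool box ISING-Z (helper160)

Mathlib only.  Paper: Sec. 2.2 preamble + Lemma 2.5 (`discrete:ising-partition`).

* `isz_holley`, `isz_fkg` : Holley / FKG on a finite distributive lattice, NONNEGATIVE weights (zeros and unequal
  supports allowed), SIGNED increasing observables, unnormalised (cross multiplied) form.
* `iszZ S s t a` : the complementary-spin partition sum of ANY finite multigraph (edge `i` joins `s i`, `t i`;
  virtual edges are allowed), spin type `S` with two elements.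
* `isz_Z_mono`, `isz_Z_super` : `Z` is increasing and log-supermodular on `[0,1]^E`
  (FK expansion + four functions theorem + `𝔽₂` dimension formula; no derivative, no continuity argument).
-/
import Mathlib

set_option autoImplicit false
set_option linter.unusedSectionVars false
set_option linter.unusedVariables false
set_option linter.unusedSimpArgs false

namespace Claimed.Agent.R291

open Finset

section Kit

variable {α : Type*} [DistribLattice α] [Fintype α]

/-- a finite family of reals is bounded below. -/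
theorem isz_exists_shift (f : α → ℝ) : ∃ c : ℝ, ∀ a, 0 ≤ f a + c := by
  refine ⟨∑ a, |f a|, fun a => ?_⟩
  have h1 : |f a| ≤ ∑ a, |f a| :=
    Finset.single_le_sum (f := fun a => |f a|) (fun i _ => abs_nonneg _) (Finset.mem_univ a)
  have h2 := neg_abs_le (f a)
  linarith

/-- **Holley's inequality**, unnormalised nonnegative weights (zeros allowed, unequal supports
allowed), signed increasing observable. -/
theorem isz_holley {w₁ w₂ f : α → ℝ} (h1 : ∀ a, 0 ≤ w₁ a) (h2 : ∀ a, 0 ≤ w₂ a) (hf : Monotone f)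
    (h : ∀ a b, w₁ a * w₂ b ≤ w₁ (a ⊓ b) * w₂ (a ⊔ b)) :
    (∑ a, w₁ a * f a) * ∑ a, w₂ a ≤ (∑ a, w₁ a) * ∑ a, w₂ a * f a := by
  obtain ⟨c, hc⟩ := isz_exists_shift f
  have key := four_functions_theorem_univ (fun a => w₁ a * (f a + c)) w₂ w₁
    (fun a => w₂ a * (f a + c)) (fun a => mul_nonneg (h1 a) (hc a)) h2 h1
    (fun a => mul_nonneg (h2 a) (hc a)) (fun a b => by
      have h3 : f a + c ≤ f (a ⊔ b) + c := by
        have := hf (le_sup_left : a ≤ a ⊔ b)
        linarith
      calc w₁ a * (f a + c) * w₂ b = (w₁ a * w₂ b) * (f a + c) := by ring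
        _ ≤ (w₁ (a ⊓ b) * w₂ (a ⊔ b)) * (f (a ⊔ b) + c) :=
            mul_le_mul (h a b) h3 (hc a) (mul_nonneg (h1 _) (h2 _))
        _ = w₁ (a ⊓ b) * (w₂ (a ⊔ b) * (f (a ⊔ b) + c)) := by ring)
  simp only [mul_add, Finset.sum_add_distrib, ← Finset.sum_mul] at key
  nlinarith [key]

/-- **FKG**, nonnegative weight (zeros allowed), signed increasing observables. -/
theorem isz_fkg {μ f g : α → ℝ} (hμ₀ : ∀ a, 0 ≤ μ a) (hf : Monotone f) (hg : Monotone g)
    (hμ : ∀ a b, μ a * μ b ≤ μ (a ⊓ b) * μ (a ⊔ b)) :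
    (∑ a, μ a * f a) * ∑ a, μ a * g a ≤ (∑ a, μ a) * ∑ a, μ a * (f a * g a) := by
  obtain ⟨c, hc⟩ := isz_exists_shift f
  obtain ⟨d, hd⟩ := isz_exists_shift g
  have key := fkg (μ := μ) (f := fun a => f a + c) (g := fun a => g a + d) hμ₀ hc hd
    (fun a b hab => by have := hf hab; simp only; linarith)
    (fun a b hab => by have := hg hab; simp only; linarith) hμ
  have e1 : ∑ a, μ a * (f a + c) = (∑ a, μ a * f a) + (∑ a, μ a) * c := by
    simp only [mul_add, Finset.sum_add_distrib, ← Finset.sum_mul]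
  have e2 : ∑ a, μ a * (g a + d) = (∑ a, μ a * g a) + (∑ a, μ a) * d := by
    simp only [mul_add, Finset.sum_add_distrib, ← Finset.sum_mul]
  have e3 : ∑ a, μ a * ((f a + c) * (g a + d)) = (∑ a, μ a * (f a * g a))
      + (∑ a, μ a * f a) * d + (∑ a, μ a * g a) * c + (∑ a, μ a) * (c * d) := by
    simp only [Finset.sum_mul, ← Finset.sum_add_distrib]
    refine Finset.sum_congr rfl fun a _ => ?_
    ring
  rw [e1, e2, e3] at key
  nlinarith [key]

end Kit

theorem isz_edge_ineq {a b : ℝ} (ha0 : 0 ≤ a) (ha1 : a ≤ 1) (hb0 : 0 ≤ b) (hb1 : b ≤ 1)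
    (p q : Prop) [Decidable p] [Decidable q] :
    (if p then 1 - a else a) * (if q then 1 - b else b)
      ≤ (if p ∧ q then 1 - max a b else max a b) * (if p ∨ q then 1 - min a b else min a b) := by
  rcases le_total a b with h | h
  · rw [max_eq_right h, min_eq_left h]
    by_cases hp : p <;> by_cases hq : q <;> simp only [hp, hq, if_true, if_false, and_true,
      and_false, or_true, or_false, true_and, false_and, true_or, false_or] <;> nlinarith
  · rw [max_eq_left h, min_eq_right h]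
    by_cases hp : p <;> by_cases hq : q <;> simp only [hp, hq, if_true, if_false, and_true,
      and_false, or_true, or_false, true_and, false_and, true_or, false_or] <;> nlinarith

section IsingZ

variable {V ι S : Type*} [Fintype V] [DecidableEq V] [Fintype ι] [DecidableEq ι]
  [Fintype S] [DecidableEq S]

/-- Ising-type partition sum of the multigraph with edges `i : ι` joining `s i` and `t i`; an edge
with unequal spins costs `a i`. -/
noncomputable def iszZ (S : Type*) [Fintype S] [DecidableEq S] (s t : ι → V) (a : ι → ℝ) : ℝ :=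
  ∑ σ : V → S, ∏ i, (if σ (s i) = σ (t i) then 1 else a i)

/-- number of spin configurations that are constant along the edges of `ω`. -/
noncomputable def iszN (S : Type*) [Fintype S] [DecidableEq S] (s t : ι → V) (ω : Finset ι) : ℕ :=
  (univ.filter fun σ : V → S => ∀ i ∈ ω, σ (s i) = σ (t i)).card

/-- FK weight. -/
noncomputable def iszW (S : Type*) [Fintype S] [DecidableEq S] (s t : ι → V) (a : ι → ℝ)
    (ω : Finset ι) : ℝ :=
  (iszN S s t ω : ℝ) * ∏ i, (if i ∈ ω then 1 - a i else a i)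

theorem isz_Z_nonneg (s t : ι → V) {a : ι → ℝ} (ha : ∀ i, 0 ≤ a i) : 0 ≤ iszZ S s t a := by
  unfold iszZ
  refine Finset.sum_nonneg fun σ _ => Finset.prod_nonneg fun i _ => ?_
  split_ifs
  · exact zero_le_one
  · exact ha i

theorem isz_Z_mono (s t : ι → V) {a b : ι → ℝ} (ha : ∀ i, 0 ≤ a i) (hab : ∀ i, a i ≤ b i) :
    iszZ S s t a ≤ iszZ S s t b := by
  unfold iszZ
  refine Finset.sum_le_sum fun σ _ => Finset.prod_le_prod (fun i _ => ?_) fun i _ => ?_
  · split_ifs
    · exact zero_le_one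
    · exact ha i
  · split_ifs
    · exact le_rfl
    · exact hab i

/-- FK (random cluster) expansion. -/
theorem isz_Z_eq_sum_W (s t : ι → V) (a : ι → ℝ) :
    iszZ S s t a = ∑ ω : Finset ι, iszW S s t a ω := by
  classical
  unfold iszZ iszW iszN
  have h1 : ∀ σ : V → S, ∏ i, (if σ (s i) = σ (t i) then 1 else a i)
      = ∑ ω : Finset ι, (if ∀ i ∈ ω, σ (s i) = σ (t i) then (1:ℝ) else 0)
          * ∏ i, (if i ∈ ω then 1 - a i else a i) := by
    intro σ
    have h2 : ∀ i, (if σ (s i) = σ (t i) then 1 else a i)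
        = (if σ (s i) = σ (t i) then 1 - a i else 0) + a i := by
      intro i; split_ifs <;> ring
    simp_rw [h2]
    rw [Finset.prod_add]
    rw [← Finset.powerset_univ]
    refine Finset.sum_congr rfl fun ω _ => ?_
    have h3 : ∏ i, (if i ∈ ω then 1 - a i else a i)
        = (∏ i ∈ ω, (1 - a i)) * ∏ i ∈ univ \ ω, a i := by
      rw [← Finset.prod_sdiff (Finset.subset_univ ω), mul_comm]
      congr 1
      · refine Finset.prod_congr rfl fun i hi => ?_
        rw [if_pos hi]
      · refine Finset.prod_congr rfl fun i hi => ?_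
        rw [if_neg (Finset.mem_sdiff.1 hi).2]
    rw [h3, ← mul_assoc]
    congr 1
    by_cases h : ∀ i ∈ ω, σ (s i) = σ (t i)
    · rw [if_pos h, one_mul]
      refine Finset.prod_congr rfl fun i hi => ?_
      rw [if_pos (h i hi)]
    · rw [if_neg h, zero_mul]
      push Not at h
      obtain ⟨i, hi, hne⟩ := h
      exact Finset.prod_eq_zero hi (if_neg hne)
  simp_rw [h1]
  rw [Finset.sum_comm]
  refine Finset.sum_congr rfl fun ω _ => ?_
  rw [← Finset.sum_mul]
  congr 1
  rw [Finset.card_filter]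
  push_cast
  rfl

theorem isz_N_congr {S' : Type*} [Fintype S'] [DecidableEq S'] (e : S ≃ S') (s t : ι → V)
    (ω : Finset ι) : iszN S s t ω = iszN S' s t ω := by
  unfold iszN
  refine Finset.card_equiv (Equiv.arrowCongr (Equiv.refl V) e) ?_
  intro σ
  simp [Equiv.arrowCongr]

/-- the `𝔽₂`-space of spin configurations constant along the edges of `ω`. -/
def iszSub (s t : ι → V) (ω : Finset ι) : Submodule (ZMod 2) (V → ZMod 2) where
  carrier := {σ | ∀ i ∈ ω, σ (s i) = σ (t i)}
  add_mem' := by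
    intro σ τ hσ hτ i hi
    simp only [Pi.add_apply, hσ i hi, hτ i hi]
  zero_mem' := by
    intro i _
    rfl
  smul_mem' := by
    intro c σ hσ i hi
    simp only [Pi.smul_apply, hσ i hi]

theorem isz_mem_Sub (s t : ι → V) (ω : Finset ι) (σ : V → ZMod 2) :
    σ ∈ iszSub s t ω ↔ ∀ i ∈ ω, σ (s i) = σ (t i) := Iff.rfl

theorem isz_N_eq_pow (s t : ι → V) (ω : Finset ι) :
    iszN (ZMod 2) s t ω = 2 ^ Module.finrank (ZMod 2) (iszSub s t ω) := by
  classical
  have h1 : Fintype.card (iszSub s t ω) = 2 ^ Module.finrank (ZMod 2) (iszSub s t ω) := by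
    have := Module.card_eq_pow_finrank (K := ZMod 2) (V := iszSub s t ω)
    rw [ZMod.card] at this
    exact this
  rw [← h1]
  unfold iszN
  rw [← Fintype.card_subtype]
  exact Fintype.card_congr (Equiv.subtypeEquivRight fun σ => Iff.rfl)

theorem isz_N_super_two (s t : ι → V) (ω ω' : Finset ι) :
    iszN (ZMod 2) s t ω * iszN (ZMod 2) s t ω'
      ≤ iszN (ZMod 2) s t (ω ∩ ω') * iszN (ZMod 2) s t (ω ∪ ω') := by
  rw [isz_N_eq_pow, isz_N_eq_pow, isz_N_eq_pow, isz_N_eq_pow, ← pow_add, ← pow_add]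
  refine Nat.pow_le_pow_right (by norm_num) ?_
  have h1 := Submodule.finrank_sup_add_finrank_inf_eq (iszSub s t ω) (iszSub s t ω')
  have h2 : iszSub s t ω ⊓ iszSub s t ω' = iszSub s t (ω ∪ ω') := by
    ext σ
    simp only [Submodule.mem_inf, isz_mem_Sub, Finset.mem_union]
    constructor
    · rintro ⟨h, h'⟩ i (hi | hi)
      · exact h i hi
      · exact h' i hi
    · intro h
      exact ⟨fun i hi => h i (Or.inl hi), fun i hi => h i (Or.inr hi)⟩
  have h3 : iszSub s t ω ⊔ iszSub s t ω' ≤ iszSub s t (ω ∩ ω') := by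
    refine sup_le ?_ ?_
    · intro σ h i hi
      exact h i (Finset.mem_inter.1 hi).1
    · intro σ h i hi
      exact h i (Finset.mem_inter.1 hi).2
  have h4 := Submodule.finrank_mono h3
  rw [h2] at h1
  omega

theorem isz_N_super (hS : Fintype.card S = 2) (s t : ι → V) (ω ω' : Finset ι) :
    iszN S s t ω * iszN S s t ω' ≤ iszN S s t (ω ∩ ω') * iszN S s t (ω ∪ ω') := by
  have e : S ≃ ZMod 2 := Fintype.equivOfCardEq (by rw [hS, ZMod.card])
  rw [isz_N_congr e, isz_N_congr e, isz_N_congr e, isz_N_congr e]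
  exact isz_N_super_two s t ω ω'


theorem isz_W_nonneg (s t : ι → V) {a : ι → ℝ} (ha0 : ∀ i, 0 ≤ a i) (ha1 : ∀ i, a i ≤ 1)
    (ω : Finset ι) : 0 ≤ iszW S s t a ω := by
  unfold iszW
  refine mul_nonneg (Nat.cast_nonneg _) (Finset.prod_nonneg fun i _ => ?_)
  split_ifs
  · linarith [ha1 i]
  · exact ha0 i

/-- **Lemma 2.5**: the complementary-spin partition sum is log-supermodular on `[0,1]^E`. -/
theorem isz_Z_super (hS : Fintype.card S = 2) (s t : ι → V) {a b : ι → ℝ} (ha0 : ∀ i, 0 ≤ a i)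
    (ha1 : ∀ i, a i ≤ 1) (hb0 : ∀ i, 0 ≤ b i) (hb1 : ∀ i, b i ≤ 1) :
    iszZ S s t a * iszZ S s t b ≤ iszZ S s t (a ⊓ b) * iszZ S s t (a ⊔ b) := by
  have hm0 : ∀ i, 0 ≤ (a ⊓ b) i := fun i => le_min (ha0 i) (hb0 i)
  have hm1 : ∀ i, (a ⊓ b) i ≤ 1 := fun i => (min_le_left _ _).trans (ha1 i)
  have hM0 : ∀ i, 0 ≤ (a ⊔ b) i := fun i => (ha0 i).trans (le_max_left _ _)
  have hM1 : ∀ i, (a ⊔ b) i ≤ 1 := fun i => max_le (ha1 i) (hb1 i)
  rw [isz_Z_eq_sum_W, isz_Z_eq_sum_W, isz_Z_eq_sum_W, isz_Z_eq_sum_W,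
    mul_comm (∑ ω : Finset ι, iszW S s t (a ⊓ b) ω)]
  refine four_functions_theorem_univ _ _ _ _ (isz_W_nonneg s t ha0 ha1) (isz_W_nonneg s t hb0 hb1)
    (isz_W_nonneg s t hM0 hM1) (isz_W_nonneg s t hm0 hm1) fun ω ω' => ?_
  unfold iszW
  have hN : (iszN S s t ω : ℝ) * (iszN S s t ω' : ℝ)
      ≤ (iszN S s t (ω ⊓ ω') : ℝ) * (iszN S s t (ω ⊔ ω') : ℝ) := by
    exact_mod_cast isz_N_super hS s t ω ω'
  have hP : (∏ i, (if i ∈ ω then 1 - a i else a i)) * ∏ i, (if i ∈ ω' then 1 - b i else b i)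
      ≤ (∏ i, (if i ∈ ω ⊓ ω' then 1 - (a ⊔ b) i else (a ⊔ b) i))
        * ∏ i, (if i ∈ ω ⊔ ω' then 1 - (a ⊓ b) i else (a ⊓ b) i) := by
    rw [← Finset.prod_mul_distrib, ← Finset.prod_mul_distrib]
    refine Finset.prod_le_prod (fun i _ => ?_) fun i _ => ?_
    · refine mul_nonneg ?_ ?_
      · split_ifs
        · linarith [ha1 i]
        · exact ha0 i
      · split_ifs
        · linarith [hb1 i]
        · exact hb0 i
    · have h := isz_edge_ineq (ha0 i) (ha1 i) (hb0 i) (hb1 i) (i ∈ ω) (i ∈ ω')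
      simp only [Finset.inf_eq_inter, Finset.sup_eq_union, Finset.mem_inter, Finset.mem_union,
        Pi.sup_apply, Pi.inf_apply]
      exact h
  have hP0 : 0 ≤ (∏ i, (if i ∈ ω then 1 - a i else a i))
      * ∏ i, (if i ∈ ω' then 1 - b i else b i) := by
    refine mul_nonneg (Finset.prod_nonneg fun i _ => ?_) (Finset.prod_nonneg fun i _ => ?_)
    · split_ifs
      · linarith [ha1 i]
      · exact ha0 i
    · split_ifs
      · linarith [hb1 i]
      · exact hb0 i
  calc (iszN S s t ω : ℝ) * (∏ i, (if i ∈ ω then 1 - a i else a i))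
        * ((iszN S s t ω' : ℝ) * ∏ i, (if i ∈ ω' then 1 - b i else b i))
      = ((iszN S s t ω : ℝ) * (iszN S s t ω' : ℝ))
        * ((∏ i, (if i ∈ ω then 1 - a i else a i))
          * ∏ i, (if i ∈ ω' then 1 - b i else b i)) := by ring
    _ ≤ ((iszN S s t (ω ⊓ ω') : ℝ) * (iszN S s t (ω ⊔ ω') : ℝ))
        * ((∏ i, (if i ∈ ω ⊓ ω' then 1 - (a ⊔ b) i else (a ⊔ b) i))
          * ∏ i, (if i ∈ ω ⊔ ω' then 1 - (a ⊓ b) i else (a ⊓ b) i)) :=
        mul_le_mul hN hP hP0 (mul_nonneg (Nat.cast_nonneg _) (Nat.cast_nonneg _))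
    _ = _ := by ring

end IsingZ

/-- the equation and congruence lemmas of the definitions of this file are generated HERE, once (RULES.md, rule 6; CI board of 40) -/
theorem isz_eqns_cite : True := by
  have := @iszZ.eq_1.{0,0,0}
  have := @iszN.eq_1.{0,0,0}
  have := @iszW.eq_1.{0,0,0}
  have := @iszSub.eq_1.{0,0}
  have := @iszZ.congr_simp.{0,0,0}
  have := @iszN.congr_simp.{0,0,0}
  have := @iszW.congr_simp.{0,0,0}
  have := @iszSub.congr_simp.{0,0}
  trivial

end Claimed.Agent.R291
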