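import Mathlib

/-!
# Row 291 (S0539), Tool/Online : ONLINE COMPARISON WITHOUT COUPLINGS      (owner helper141; prefix `ol_`; Mathlib only)

TEX[discrete:online] TEX[cor:conditional-plane-matching] TEX[discrete:stack]      Design: `origin/helper141:notes/R291/sec2b_141.md`, devices D1, D3.

* `ol_step_le`, `ol_step_ge` : ONE QUERY.   `p ≤st q` on a finite poset `Q` (tested on monotone functions), `a k ≤ v k'` for all feasible `k ≤ k'`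
   ⟹ `∑ p a ≤ ∑ q v`.   (Replaces the ordered kernel `κ_R` of Lemma online = Strassen's theorem: the running maximum of `a` is monotone.)
* `ol_main` : THE INDUCTION over joint records.   `e₁`, `Φ` functions of the record of the lower law, `e₂` of the record of the upper law.   At every admissible
   joint record either `|e₁ - e₂| ≤ Φ` (stop) or there is a query with ordered answers, the tower property for `e₁, e₂` and the supermartingale property for `Φ`.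
   Then `|e₁ - e₂| ≤ Φ` at every admissible record.
* `ol_l1_of_test`, `ol_tv_cs` : total variation tested on bounded functions; `|P φ - Q φ| ≤ √‖P-Q‖₁ √(P φ² + Q φ²)` for UNBOUNDED `φ`.
* `ol_decouple` : abstract form of Corollary conditional-plane-matching: exact factorisation on every successful record + closeness of the retained laws to one
   reference law ⟹ decoupling inequality for unbounded observables.
* `ol_stack`, `ol_geom_pow` : product bound for successive slots, `ρ^k ≤ ρ⁻¹ (r/L)^α`.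
-/

set_option autoImplicit false

universe uQ

namespace Claimed.Agent.R291

open Finset

/-! ## 1. one query -/

section step

variable {Q : Type*} [Fintype Q] [PartialOrder Q]

open Classical in
/-- **one query, upper direction** -/
theorem ol_step_le {p q : Q → ℝ} (hp : ∀ k, 0 ≤ p k) (hq : ∀ k, 0 ≤ q k)
    (hst : ∀ g : Q → ℝ, Monotone g → ∑ k, p k * g k ≤ ∑ k, q k * g k) {a v : Q → ℝ}
    (h : ∀ k k', k ≤ k' → 0 < p k → 0 < q k' → a k ≤ v k') : ∑ k, p k * a k ≤ ∑ k, q k * v k := by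
  -- a lower bound of everything
  obtain ⟨L, hL⟩ : ∃ L : ℝ, ∀ k, L ≤ v k := by
    refine ⟨-∑ k, |v k|, fun k => ?_⟩
    have h1 : |v k| ≤ ∑ k, |v k| := Finset.single_le_sum (f := fun k => |v k|) (fun i _ => abs_nonneg _) (mem_univ k)
    have h2 := neg_abs_le (v k)
    linarith
  set S : Q → Finset ℝ := fun k' => insert L ((univ.filter fun k => k ≤ k' ∧ 0 < p k).image a) with hS
  have hne : ∀ k', (S k').Nonempty := fun k' => insert_nonempty _ _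
  set m : Q → ℝ := fun k' => (S k').max' (hne k') with hm
  have hmono : Monotone m := by
    intro k₁ k₂ h12
    refine Finset.max'_subset (hne k₁) ?_
    refine insert_subset_insert _ (image_subset_image ?_)
    intro k hk
    simp only [mem_filter, mem_univ, true_and] at hk ⊢
    exact ⟨hk.1.trans h12, hk.2⟩
  have h1 : ∑ k, p k * a k ≤ ∑ k, p k * m k := by
    refine Finset.sum_le_sum fun k _ => ?_
    rcases (hp k).eq_or_lt with h0 | h0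
    · rw [← h0, zero_mul, zero_mul]
    · refine mul_le_mul_of_nonneg_left ?_ (hp k)
      refine Finset.le_max' _ _ ?_
      refine mem_insert_of_mem (mem_image_of_mem a ?_)
      simp only [mem_filter, mem_univ, true_and]
      exact ⟨le_rfl, h0⟩
  have h2 : ∑ k, q k * m k ≤ ∑ k, q k * v k := by
    refine Finset.sum_le_sum fun k' _ => ?_
    rcases (hq k').eq_or_lt with h0 | h0
    · rw [← h0, zero_mul, zero_mul]
    · refine mul_le_mul_of_nonneg_left ?_ (hq k')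
      refine Finset.max'_le _ _ _ fun y hy => ?_
      rcases mem_insert.1 hy with rfl | hy
      · exact hL k'
      · obtain ⟨k, hk, rfl⟩ := mem_image.1 hy
        simp only [mem_filter, mem_univ, true_and] at hk
        exact h k k' hk.1 hk.2 h0
  exact h1.trans ((hst m hmono).trans h2)

/-- **one query, lower direction** -/
theorem ol_step_ge {p q : Q → ℝ} (hp : ∀ k, 0 ≤ p k) (hq : ∀ k, 0 ≤ q k)
    (hst : ∀ g : Q → ℝ, Monotone g → ∑ k, p k * g k ≤ ∑ k, q k * g k) {c v : Q → ℝ}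
    (h : ∀ k k', k ≤ k' → 0 < p k → 0 < q k' → v k' ≤ c k) : ∑ k, q k * v k ≤ ∑ k, p k * c k := by
  have := ol_step_le hp hq hst (a := fun k => - c k) (v := fun k => - v k)
    (fun k k' hk h1 h2 => neg_le_neg (h k k' hk h1 h2))
  simp only [mul_neg, Finset.sum_neg_distrib] at this
  linarith

end step

/-! ## 2. the induction over joint records -/

/-- the alternative at a joint record: a query with ordered answers -/
def OlBranch {R₁ R₂ : Type*} (Adm : R₁ → R₂ → Prop) (rk : R₁ → ℕ) (e₁ Φ : R₁ → ℝ) (e₂ : R₂ → ℝ) (r₁ : R₁) (r₂ : R₂) : Prop :=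
  ∃ (Q : Type uQ) (_ : Fintype Q) (_ : PartialOrder Q) (p q : Q → ℝ) (c₁ : Q → R₁) (c₂ : Q → R₂),
    (∀ k, 0 ≤ p k) ∧ (∀ k, 0 ≤ q k) ∧ (∀ g : Q → ℝ, Monotone g → ∑ k, p k * g k ≤ ∑ k, q k * g k) ∧
    e₁ r₁ = ∑ k, p k * e₁ (c₁ k) ∧ e₂ r₂ = ∑ k, q k * e₂ (c₂ k) ∧ ∑ k, p k * Φ (c₁ k) ≤ Φ r₁ ∧
    ∀ k k', k ≤ k' → 0 < p k → 0 < q k' → Adm (c₁ k) (c₂ k') ∧ rk (c₁ k) < rk r₁

/-- **ONLINE COMPARISON** (Lemma online + common sampling, without any coupling).      TEX[discrete:online] -/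
theorem ol_main {R₁ R₂ : Type*} (Adm : R₁ → R₂ → Prop) (rk : R₁ → ℕ) (e₁ Φ : R₁ → ℝ) (e₂ : R₂ → ℝ)
    (H : ∀ r₁ r₂, Adm r₁ r₂ → |e₁ r₁ - e₂ r₂| ≤ Φ r₁ ∨ OlBranch.{uQ} Adm rk e₁ Φ e₂ r₁ r₂) :
    ∀ r₁ r₂, Adm r₁ r₂ → |e₁ r₁ - e₂ r₂| ≤ Φ r₁ := by
  have key : ∀ n : ℕ, ∀ r₁ r₂, rk r₁ < n → Adm r₁ r₂ → |e₁ r₁ - e₂ r₂| ≤ Φ r₁ := by
    intro n
    induction n with
    | zero => intro r₁ r₂ h; exact absurd h (Nat.not_lt_zero _)
    | succ n ih =>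
      intro r₁ r₂ hn hA
      rcases H r₁ r₂ hA with h | ⟨Q, _, _, p, q, c₁, c₂, hp, hq, hst, he₁, he₂, hΦ, hc⟩
      · exact h
      · have hch : ∀ k k', k ≤ k' → 0 < p k → 0 < q k' → |e₁ (c₁ k) - e₂ (c₂ k')| ≤ Φ (c₁ k) := fun k k' hk h1 h2 =>
          ih _ _ (lt_of_lt_of_le (hc k k' hk h1 h2).2 (Nat.lt_succ_iff.1 hn)) (hc k k' hk h1 h2).1
        have hu := ol_step_le hp hq hst (a := fun k => e₁ (c₁ k) - Φ (c₁ k)) (v := fun k => e₂ (c₂ k))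
          (fun k k' hk h1 h2 => by have := (abs_le.1 (hch k k' hk h1 h2)).2; linarith)
        have hl := ol_step_ge hp hq hst (c := fun k => e₁ (c₁ k) + Φ (c₁ k)) (v := fun k => e₂ (c₂ k))
          (fun k k' hk h1 h2 => by have := (abs_le.1 (hch k k' hk h1 h2)).1; linarith)
        simp only [mul_sub, mul_add, Finset.sum_sub_distrib, Finset.sum_add_distrib] at hu hl
        rw [abs_le]
        constructor <;> linarith
  exact fun r₁ r₂ hA => key (rk r₁ + 1) r₁ r₂ (Nat.lt_succ_self _) hA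

/-! ## 3. total variation and unbounded observables -/

section tv

variable {Λ : Type*} [Fintype Λ]

/-- the `ℓ¹` distance is controlled by bounded tests -/
theorem ol_l1_of_test (P Q : Λ → ℝ) {ε : ℝ}
    (h : ∀ f : Λ → ℝ, (∀ l, |f l| ≤ 1) → |∑ l, P l * f l - ∑ l, Q l * f l| ≤ ε) : ∑ l, |P l - Q l| ≤ ε := by
  have h1 := h (fun l => if 0 ≤ P l - Q l then 1 else -1) (fun l => by split_ifs <;> simp)
  have e : ∑ l, P l * (if 0 ≤ P l - Q l then (1 : ℝ) else -1) - ∑ l, Q l * (if 0 ≤ P l - Q l then (1 : ℝ) else -1)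
      = ∑ l, |P l - Q l| := by
    rw [← Finset.sum_sub_distrib]
    refine Finset.sum_congr rfl fun l _ => ?_
    split_ifs with h0
    · rw [abs_of_nonneg h0]; ring
    · rw [abs_of_neg (not_le.1 h0)]; ring
  rw [e] at h1
  exact (le_abs_self _).trans h1

/-- **unbounded observables**: `|P φ - Q φ| ≤ √‖P - Q‖₁ √(P φ² + Q φ²)` -/
theorem ol_tv_cs {P Q : Λ → ℝ} (hP : ∀ l, 0 ≤ P l) (hQ : ∀ l, 0 ≤ Q l) (φ : Λ → ℝ) :
    |∑ l, P l * φ l - ∑ l, Q l * φ l|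
      ≤ Real.sqrt (∑ l, |P l - Q l|) * Real.sqrt (∑ l, P l * φ l ^ 2 + ∑ l, Q l * φ l ^ 2) := by
  have h1 : |∑ l, P l * φ l - ∑ l, Q l * φ l| ≤ ∑ l, Real.sqrt |P l - Q l| * Real.sqrt (|P l - Q l| * φ l ^ 2) := by
    rw [← Finset.sum_sub_distrib]
    refine (Finset.abs_sum_le_sum_abs _ _).trans (le_of_eq (Finset.sum_congr rfl fun l _ => ?_))
    rw [← Real.sqrt_mul (abs_nonneg _), ← mul_assoc, ← sq, ← mul_pow, Real.sqrt_sq_eq_abs, abs_mul, abs_abs, ← abs_mul]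
    congr 1; ring
  refine h1.trans ((Real.sum_sqrt_mul_sqrt_le _ (fun l => abs_nonneg _)
    (fun l => mul_nonneg (abs_nonneg _) (sq_nonneg _))).trans ?_)
  refine mul_le_mul_of_nonneg_left (Real.sqrt_le_sqrt ?_) (Real.sqrt_nonneg _)
  rw [← Finset.sum_add_distrib]
  refine Finset.sum_le_sum fun l _ => ?_
  have : |P l - Q l| ≤ P l + Q l := by
    rw [abs_le]; constructor <;> linarith [hP l, hQ l]
  calc |P l - Q l| * φ l ^ 2 ≤ (P l + Q l) * φ l ^ 2 := mul_le_mul_of_nonneg_right this (sq_nonneg _)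
    _ = _ := by ring

end tv

/-! ## 4. the decoupling inequality -/

/-- two term Cauchy-Schwarz -/
theorem ol_cs2 {a b c d : ℝ} (ha : 0 ≤ a) (hb : 0 ≤ b) (hc : 0 ≤ c) (hd : 0 ≤ d) :
    Real.sqrt a * Real.sqrt b + Real.sqrt c * Real.sqrt d ≤ Real.sqrt (a + c) * Real.sqrt (b + d) := by
  have := Real.sum_sqrt_mul_sqrt_le (Finset.univ : Finset (Fin 2)) (f := ![a, c]) (g := ![b, d])
    (fun i => by fin_cases i <;> simpa) (fun i => by fin_cases i <;> simpa)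
  simpa [Fin.sum_univ_two] using this

/-- weighted Cauchy-Schwarz: `|E[X Y]| ≤ √E[X²] √E[Y²]` -/
theorem ol_cs_w {Ω : Type*} [Fintype Ω] {w : Ω → ℝ} (hw : ∀ ω, 0 ≤ w ω) (X Y : Ω → ℝ) :
    |∑ ω, w ω * (X ω * Y ω)| ≤ Real.sqrt (∑ ω, w ω * X ω ^ 2) * Real.sqrt (∑ ω, w ω * Y ω ^ 2) := by
  have h1 : |∑ ω, w ω * (X ω * Y ω)| ≤ ∑ ω, Real.sqrt (w ω * X ω ^ 2) * Real.sqrt (w ω * Y ω ^ 2) := by
    refine (Finset.abs_sum_le_sum_abs _ _).trans (le_of_eq (Finset.sum_congr rfl fun ω _ => ?_))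
    rw [← Real.sqrt_mul (mul_nonneg (hw ω) (sq_nonneg _))]
    have e : w ω * X ω ^ 2 * (w ω * Y ω ^ 2) = (w ω * (X ω * Y ω)) ^ 2 := by ring
    rw [e, Real.sqrt_sq_eq_abs]
  exact h1.trans (Real.sum_sqrt_mul_sqrt_le _ (fun ω => mul_nonneg (hw ω) (sq_nonneg _))
    (fun ω => mul_nonneg (hw ω) (sq_nonneg _)))

/-- LEAF: the term of one successful record.   PLAN: `|E[F χ]| ≤ √E[χ] √E[F² χ]` (`ol_cs_w` with `X = χ`, `Y = F χ`, `χ² = χ`), `|νi φ - ν φ| ≤ √ε₁ √(νi φ² + ν φ²)` (`ol_tv_cs`),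
`Real.sqrt_mul`. -/
theorem ol_dec_term {Ω Λ : Type*} [Fintype Ω] [Fintype Λ] {w : Ω → ℝ} (hw : ∀ ω, 0 ≤ w ω)
    {χ : Ω → ℝ} (hχ : ∀ ω, χ ω = 0 ∨ χ ω = 1) (F : Ω → ℝ) (φ : Λ → ℝ)
    {ν νi : Λ → ℝ} (hν : ∀ l, 0 ≤ ν l) (hνi : ∀ l, 0 ≤ νi l) {ε₁ : ℝ} (hclose : ∑ l, |νi l - ν l| ≤ ε₁) :
    |(∑ ω, w ω * (F ω * χ ω)) * (∑ l, νi l * φ l - ∑ l, ν l * φ l)|
      ≤ Real.sqrt (ε₁ * ∑ ω, w ω * χ ω) *
        Real.sqrt ((∑ ω, w ω * (F ω ^ 2 * χ ω)) * ∑ l, νi l * φ l ^ 2 + (∑ ω, w ω * (F ω ^ 2 * χ ω)) * ∑ l, ν l * φ l ^ 2) := by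
  have hsq : ∀ ω, χ ω ^ 2 = χ ω := fun ω => by rcases hχ ω with h | h <;> rw [h] <;> norm_num
  have hχ0 : ∀ ω, 0 ≤ χ ω := fun ω => by rcases hχ ω with h | h <;> rw [h] <;> norm_num
  have h1 : |∑ ω, w ω * (F ω * χ ω)| ≤ Real.sqrt (∑ ω, w ω * χ ω) * Real.sqrt (∑ ω, w ω * (F ω ^ 2 * χ ω)) := by
    have := ol_cs_w hw χ (fun ω => F ω * χ ω)
    have e1 : ∀ ω, w ω * (χ ω * (F ω * χ ω)) = w ω * (F ω * χ ω) := fun ω => by
      have : χ ω * (F ω * χ ω) = F ω * χ ω ^ 2 := by ring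
      rw [this, hsq]
    have e2 : ∀ ω, w ω * (F ω * χ ω) ^ 2 = w ω * (F ω ^ 2 * χ ω) := fun ω => by
      rw [mul_pow, hsq]
    simp only [e1, e2, hsq] at this
    exact this
  have h2 : |∑ l, νi l * φ l - ∑ l, ν l * φ l| ≤
      Real.sqrt ε₁ * Real.sqrt (∑ l, νi l * φ l ^ 2 + ∑ l, ν l * φ l ^ 2) :=
    (ol_tv_cs hνi hν φ).trans (mul_le_mul_of_nonneg_right (Real.sqrt_le_sqrt hclose) (Real.sqrt_nonneg _))
  have hE : 0 ≤ ∑ ω, w ω * χ ω := Finset.sum_nonneg fun ω _ => mul_nonneg (hw ω) (hχ0 ω)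
  have hF : 0 ≤ ∑ ω, w ω * (F ω ^ 2 * χ ω) :=
    Finset.sum_nonneg fun ω _ => mul_nonneg (hw ω) (mul_nonneg (sq_nonneg _) (hχ0 ω))
  have hε : 0 ≤ ε₁ := (Finset.sum_nonneg fun l _ => abs_nonneg _).trans hclose
  rw [abs_mul, ← mul_add, Real.sqrt_mul hε, Real.sqrt_mul hF]
  calc _ ≤ (Real.sqrt (∑ ω, w ω * χ ω) * Real.sqrt (∑ ω, w ω * (F ω ^ 2 * χ ω))) *
        (Real.sqrt ε₁ * Real.sqrt (∑ l, νi l * φ l ^ 2 + ∑ l, ν l * φ l ^ 2)) :=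
        mul_le_mul h1 h2 (abs_nonneg _) (mul_nonneg (Real.sqrt_nonneg _) (Real.sqrt_nonneg _))
    _ = _ := by ring

/-- LEAF: the two terms of the failure event `χ₀`.   PLAN: `ol_cs_w` twice, `(ν φ)² ≤ ν φ²` (`ol_cs_w` on `Λ` with `X = 1`), `ol_cs2`. -/
theorem ol_dec_fail {Ω Λ : Type*} [Fintype Ω] [Fintype Λ] {w : Ω → ℝ} (hw : ∀ ω, 0 ≤ w ω)
    {χ₀ : Ω → ℝ} (hχ : ∀ ω, χ₀ ω = 0 ∨ χ₀ ω = 1) (F Φ : Ω → ℝ) (φ : Λ → ℝ)
    {ν : Λ → ℝ} (hν : ∀ l, 0 ≤ ν l) (hν1 : ∑ l, ν l = 1) :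
    |∑ ω, w ω * (F ω * Φ ω * χ₀ ω) - (∑ ω, w ω * (F ω * χ₀ ω)) * ∑ l, ν l * φ l|
      ≤ Real.sqrt (2 * ∑ ω, w ω * χ₀ ω) *
        Real.sqrt (∑ ω, w ω * (F ω ^ 2 * Φ ω ^ 2 * χ₀ ω) + (∑ ω, w ω * (F ω ^ 2 * χ₀ ω)) * ∑ l, ν l * φ l ^ 2) := by
  have hsq : ∀ ω, χ₀ ω ^ 2 = χ₀ ω := fun ω => by rcases hχ ω with h | h <;> rw [h] <;> norm_num
  have hχ0 : ∀ ω, 0 ≤ χ₀ ω := fun ω => by rcases hχ ω with h | h <;> rw [h] <;> norm_num
  have key : ∀ G : Ω → ℝ, |∑ ω, w ω * (G ω * χ₀ ω)| ≤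
      Real.sqrt (∑ ω, w ω * χ₀ ω) * Real.sqrt (∑ ω, w ω * (G ω ^ 2 * χ₀ ω)) := by
    intro G
    have := ol_cs_w hw χ₀ (fun ω => G ω * χ₀ ω)
    have e1 : ∀ ω, w ω * (χ₀ ω * (G ω * χ₀ ω)) = w ω * (G ω * χ₀ ω) := fun ω => by
      have : χ₀ ω * (G ω * χ₀ ω) = G ω * χ₀ ω ^ 2 := by ring
      rw [this, hsq]
    have e2 : ∀ ω, w ω * (G ω * χ₀ ω) ^ 2 = w ω * (G ω ^ 2 * χ₀ ω) := fun ω => by
      rw [mul_pow, hsq]
    simp only [e1, e2, hsq] at this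
    exact this
  have h1 := key (fun ω => F ω * Φ ω)
  simp only [mul_pow] at h1
  have h2 := key F
  have h3 : |∑ l, ν l * φ l| ≤ Real.sqrt (∑ l, ν l * φ l ^ 2) := by
    have := ol_cs_w hν (fun _ => (1 : ℝ)) φ
    simp only [one_mul, one_pow, mul_one, hν1, Real.sqrt_one] at this
    exact this
  have hE : 0 ≤ ∑ ω, w ω * χ₀ ω := Finset.sum_nonneg fun ω _ => mul_nonneg (hw ω) (hχ0 ω)
  have hF : 0 ≤ ∑ ω, w ω * (F ω ^ 2 * χ₀ ω) :=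
    Finset.sum_nonneg fun ω _ => mul_nonneg (hw ω) (mul_nonneg (sq_nonneg _) (hχ0 ω))
  have hFΦ : 0 ≤ ∑ ω, w ω * (F ω ^ 2 * Φ ω ^ 2 * χ₀ ω) :=
    Finset.sum_nonneg fun ω _ => mul_nonneg (hw ω) (mul_nonneg (mul_nonneg (sq_nonneg _) (sq_nonneg _)) (hχ0 ω))
  have hφ : 0 ≤ ∑ l, ν l * φ l ^ 2 := Finset.sum_nonneg fun l _ => mul_nonneg (hν l) (sq_nonneg _)
  have h4 : |(∑ ω, w ω * (F ω * χ₀ ω)) * ∑ l, ν l * φ l| ≤
      Real.sqrt (∑ ω, w ω * χ₀ ω) * Real.sqrt ((∑ ω, w ω * (F ω ^ 2 * χ₀ ω)) * ∑ l, ν l * φ l ^ 2) := by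
    rw [abs_mul, Real.sqrt_mul hF, ← mul_assoc]
    exact mul_le_mul h2 h3 (abs_nonneg _) (mul_nonneg (Real.sqrt_nonneg _) (Real.sqrt_nonneg _))
  have h5 := ol_cs2 hE hFΦ hE (mul_nonneg hF hφ)
  rw [← two_mul] at h5
  refine le_trans ?_ h5
  refine (abs_sub _ _).trans (add_le_add h1 h4)

/-- **ABSTRACT DECOUPLING** (Corollary conditional-plane-matching without couplings).   `w` = the law; `χ i` = indicator of the successful record `i` (disjoint events);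
`loc` = the local variable; on the record `i` the exterior observable `F` and the local variable factorise, the local law being `νi i`; all `νi i` are `ε₁`-close in `ℓ¹` to
the reference law `ν`.   `F` and `φ` need not be bounded.      TEX[cor:conditional-plane-matching] TEX[eq:limit-coupling-error] -/
theorem ol_decouple {Ω ι Λ : Type*} [Fintype Ω] [Fintype ι] [Fintype Λ]
    {w : Ω → ℝ} (hw : ∀ ω, 0 ≤ w ω) (hw1 : ∑ ω, w ω = 1)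
    {χ : ι → Ω → ℝ} (hχ : ∀ i ω, χ i ω = 0 ∨ χ i ω = 1) (hdis : ∀ ω, ∑ i, χ i ω ≤ 1)
    (loc : Ω → Λ) (F : Ω → ℝ) (φ : Λ → ℝ)
    {ν : Λ → ℝ} (hν : ∀ l, 0 ≤ ν l) (hν1 : ∑ l, ν l = 1)
    {νi : ι → Λ → ℝ} (hνi : ∀ i l, 0 ≤ νi i l)
    (hcut1 : ∀ i, ∑ ω, w ω * (F ω * φ (loc ω) * χ i ω) = (∑ ω, w ω * (F ω * χ i ω)) * ∑ l, νi i l * φ l)
    (hcut2 : ∀ i, ∑ ω, w ω * (F ω ^ 2 * φ (loc ω) ^ 2 * χ i ω)
      = (∑ ω, w ω * (F ω ^ 2 * χ i ω)) * ∑ l, νi i l * φ l ^ 2)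
    {ε₁ : ℝ} (hε : 0 ≤ ε₁) (hclose : ∀ i, ∑ l, |νi i l - ν l| ≤ ε₁) :
    |∑ ω, w ω * (F ω * φ (loc ω)) - (∑ ω, w ω * F ω) * ∑ l, ν l * φ l|
      ≤ Real.sqrt (ε₁ + 2 * ∑ ω, w ω * (1 - ∑ i, χ i ω)) *
        Real.sqrt (∑ ω, w ω * (F ω ^ 2 * φ (loc ω) ^ 2) + (∑ ω, w ω * F ω ^ 2) * ∑ l, ν l * φ l ^ 2) := by
  classical
  obtain ⟨χ₀, hχ₀⟩ : ∃ χ₀ : Ω → ℝ, ∀ ω, χ₀ ω = 1 - ∑ i, χ i ω := ⟨_, fun _ => rfl⟩
  have hχnn : ∀ i ω, 0 ≤ χ i ω := fun i ω => by rcases hχ i ω with h | h <;> rw [h] <;> norm_num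
  have hχ₀01 : ∀ ω, χ₀ ω = 0 ∨ χ₀ ω = 1 := by
    intro ω
    by_cases h : ∀ i, χ i ω = 0
    · right
      rw [hχ₀]
      simp [h]
    · left
      push Not at h
      obtain ⟨i, hi⟩ := h
      have h1 : χ i ω = 1 := (hχ i ω).resolve_left hi
      have h2 : χ i ω ≤ ∑ j, χ j ω := Finset.single_le_sum (fun j _ => hχnn j ω) (Finset.mem_univ i)
      have := hdis ω
      rw [hχ₀]
      linarith
  have hχ₀nn : ∀ ω, 0 ≤ χ₀ ω := fun ω => by rcases hχ₀01 ω with h | h <;> rw [h] <;> norm_num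
  have dec : ∀ G : Ω → ℝ, ∑ ω, w ω * G ω = ∑ i, ∑ ω, w ω * (G ω * χ i ω) + ∑ ω, w ω * (G ω * χ₀ ω) := by
    intro G
    rw [Finset.sum_comm, ← Finset.sum_add_distrib]
    refine Finset.sum_congr rfl fun ω _ => ?_
    rw [← Finset.mul_sum, ← Finset.mul_sum, ← mul_add, ← mul_add, hχ₀]
    ring
  have e : ∑ ω, w ω * (F ω * φ (loc ω)) - (∑ ω, w ω * F ω) * ∑ l, ν l * φ l =
      ∑ i, (∑ ω, w ω * (F ω * χ i ω)) * (∑ l, νi i l * φ l - ∑ l, ν l * φ l) +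
        (∑ ω, w ω * (F ω * φ (loc ω) * χ₀ ω) - (∑ ω, w ω * (F ω * χ₀ ω)) * ∑ l, ν l * φ l) := by
    rw [dec (fun ω => F ω * φ (loc ω)), dec F]
    simp only [hcut1, mul_sub, Finset.sum_sub_distrib, add_mul, Finset.sum_mul]
    ring
  have hEi : ∀ i, 0 ≤ ∑ ω, w ω * χ i ω := fun i => Finset.sum_nonneg fun ω _ => mul_nonneg (hw ω) (hχnn i ω)
  have hE0 : 0 ≤ ∑ ω, w ω * χ₀ ω := Finset.sum_nonneg fun ω _ => mul_nonneg (hw ω) (hχ₀nn ω)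
  have hFi : ∀ i, 0 ≤ ∑ ω, w ω * (F ω ^ 2 * χ i ω) := fun i =>
    Finset.sum_nonneg fun ω _ => mul_nonneg (hw ω) (mul_nonneg (sq_nonneg _) (hχnn i ω))
  have hF0 : 0 ≤ ∑ ω, w ω * (F ω ^ 2 * χ₀ ω) :=
    Finset.sum_nonneg fun ω _ => mul_nonneg (hw ω) (mul_nonneg (sq_nonneg _) (hχ₀nn ω))
  have hFΦ0 : 0 ≤ ∑ ω, w ω * (F ω ^ 2 * φ (loc ω) ^ 2 * χ₀ ω) :=
    Finset.sum_nonneg fun ω _ => mul_nonneg (hw ω) (mul_nonneg (mul_nonneg (sq_nonneg _) (sq_nonneg _)) (hχ₀nn ω))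
  have hφ : 0 ≤ ∑ l, ν l * φ l ^ 2 := Finset.sum_nonneg fun l _ => mul_nonneg (hν l) (sq_nonneg _)
  have hφi : ∀ i, 0 ≤ ∑ l, νi i l * φ l ^ 2 := fun i => Finset.sum_nonneg fun l _ => mul_nonneg (hνi i l) (sq_nonneg _)
  obtain ⟨a, ha⟩ : ∃ a : ι → ℝ, ∀ i, a i = ε₁ * ∑ ω, w ω * χ i ω := ⟨_, fun _ => rfl⟩
  obtain ⟨b, hb⟩ : ∃ b : ι → ℝ, ∀ i, b i = (∑ ω, w ω * (F ω ^ 2 * χ i ω)) * ∑ l, νi i l * φ l ^ 2 +
      (∑ ω, w ω * (F ω ^ 2 * χ i ω)) * ∑ l, ν l * φ l ^ 2 := ⟨_, fun _ => rfl⟩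
  have ha0 : ∀ i, 0 ≤ a i := fun i => by rw [ha]; exact mul_nonneg hε (hEi i)
  have hb0 : ∀ i, 0 ≤ b i := fun i => by
    rw [hb]; exact add_nonneg (mul_nonneg (hFi i) (hφi i)) (mul_nonneg (hFi i) hφ)
  have t1 : ∀ i, |(∑ ω, w ω * (F ω * χ i ω)) * (∑ l, νi i l * φ l - ∑ l, ν l * φ l)| ≤
      Real.sqrt (a i) * Real.sqrt (b i) := fun i => by
    rw [ha, hb]
    exact ol_dec_term hw (hχ i) F φ hν (hνi i) (hclose i)
  have t0 := ol_dec_fail hw hχ₀01 F (fun ω => φ (loc ω)) φ hν hν1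
  have s1 : ∑ i, Real.sqrt (a i) * Real.sqrt (b i) ≤ Real.sqrt (∑ i, a i) * Real.sqrt (∑ i, b i) :=
    Real.sum_sqrt_mul_sqrt_le _ (fun i => ha0 i) (fun i => hb0 i)
  have s2 := ol_cs2 (a := ∑ i, a i) (b := ∑ i, b i) (Finset.sum_nonneg fun i _ => ha0 i) (Finset.sum_nonneg fun i _ => hb0 i)
    (mul_nonneg zero_le_two hE0) (add_nonneg hFΦ0 (mul_nonneg hF0 hφ))
  have hA : ∑ i, a i + 2 * ∑ ω, w ω * χ₀ ω ≤ ε₁ + 2 * ∑ ω, w ω * (1 - ∑ i, χ i ω) := by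
    have h1 := dec (fun _ => 1)
    simp only [mul_one, one_mul, hw1] at h1
    have h2 : ∑ i, a i = ε₁ * ∑ i, ∑ ω, w ω * χ i ω := by
      rw [Finset.mul_sum]
      exact Finset.sum_congr rfl fun i _ => ha i
    have h3 : ∑ ω, w ω * (1 - ∑ i, χ i ω) = ∑ ω, w ω * χ₀ ω :=
      Finset.sum_congr rfl fun ω _ => by rw [hχ₀]
    rw [h2, h3]
    have h4 : ∑ i, ∑ ω, w ω * χ i ω ≤ 1 := by linarith
    nlinarith
  have hB : ∑ i, b i + (∑ ω, w ω * (F ω ^ 2 * φ (loc ω) ^ 2 * χ₀ ω) + (∑ ω, w ω * (F ω ^ 2 * χ₀ ω)) * ∑ l, ν l * φ l ^ 2) =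
      ∑ ω, w ω * (F ω ^ 2 * φ (loc ω) ^ 2) + (∑ ω, w ω * F ω ^ 2) * ∑ l, ν l * φ l ^ 2 := by
    rw [dec (fun ω => F ω ^ 2 * φ (loc ω) ^ 2), dec (fun ω => F ω ^ 2)]
    have : ∑ i, b i = ∑ i, ∑ ω, w ω * (F ω ^ 2 * φ (loc ω) ^ 2 * χ i ω) +
        (∑ i, ∑ ω, w ω * (F ω ^ 2 * χ i ω)) * ∑ l, ν l * φ l ^ 2 := by
      rw [Finset.sum_mul, ← Finset.sum_add_distrib]
      exact Finset.sum_congr rfl fun i _ => by rw [hb, hcut2]
    rw [this]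
    ring
  rw [e]
  calc _ ≤ ∑ i, |(∑ ω, w ω * (F ω * χ i ω)) * (∑ l, νi i l * φ l - ∑ l, ν l * φ l)| +
        |∑ ω, w ω * (F ω * φ (loc ω) * χ₀ ω) - (∑ ω, w ω * (F ω * χ₀ ω)) * ∑ l, ν l * φ l| :=
        (abs_add_le _ _).trans (add_le_add (Finset.abs_sum_le_sum_abs _ _) le_rfl)
    _ ≤ Real.sqrt (∑ i, a i) * Real.sqrt (∑ i, b i) + _ :=
        add_le_add ((Finset.sum_le_sum fun i _ => t1 i).trans s1) t0
    _ ≤ _ := s2
    _ ≤ _ := by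
        rw [hB]
        exact mul_le_mul_of_nonneg_right (Real.sqrt_le_sqrt hA) (Real.sqrt_nonneg _)

/-! ## 5. stacks -/

/-- `ρ^k ≤ ρ⁻¹ (r/L)^α` when `k + 1` slots of ratio `b` cover `[r, L]`.      TEX[discrete:stack] -/
theorem ol_geom_pow {ρ b : ℝ} (hρ0 : 0 < ρ) (hρ1 : ρ < 1) (hb : 1 < b) :
    ∃ α : ℝ, 0 < α ∧ ∀ (r L : ℝ) (k : ℕ), 0 < r → 0 < L → L < r * b ^ (k + 1) → ρ ^ k ≤ ρ⁻¹ * (r / L) ^ α := by
  have hlb : 0 < Real.log b := Real.log_pos hb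
  have hlρ : Real.log ρ < 0 := Real.log_neg hρ0 hρ1
  refine ⟨-Real.log ρ / Real.log b, div_pos (by linarith) hlb, fun r L k hr hL hLr => ?_⟩
  have h1 : Real.log (L / r) < (k + 1 : ℕ) * Real.log b := by
    rw [← Real.log_pow]
    refine Real.log_lt_log (by positivity) ?_
    rw [div_lt_iff₀ hr]
    linarith
  have h2 : ρ ^ (k + 1) ≤ (r / L) ^ (-Real.log ρ / Real.log b) := by
    rw [Real.rpow_def_of_pos (by positivity), ← Real.exp_log (pow_pos hρ0 (k + 1)), Real.log_pow]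
    refine Real.exp_le_exp.2 ?_
    have e : Real.log (r / L) = - Real.log (L / r) := by
      rw [← Real.log_inv, inv_div]
    rw [e]
    have h3 : Real.log (L / r) * (-Real.log ρ / Real.log b) ≤ (k + 1 : ℕ) * Real.log b * (-Real.log ρ / Real.log b) :=
      mul_le_mul_of_nonneg_right h1.le (div_pos (by linarith) hlb).le
    have h4 : ((k + 1 : ℕ) : ℝ) * Real.log b * (-Real.log ρ / Real.log b) = -(((k + 1 : ℕ) : ℝ) * Real.log ρ) := by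
      field_simp
    rw [h4] at h3
    linarith
  calc ρ ^ k = ρ⁻¹ * ρ ^ (k + 1) := by rw [pow_succ]; field_simp
    _ ≤ _ := mul_le_mul_of_nonneg_left h2 (inv_pos.2 hρ0).le

/-- monotone form of `ol_geom_pow`: a larger inner radius -/
theorem ol_rpow_mono {r r' L α : ℝ} (hr : 0 < r) (hrr : r ≤ r') (hL : 0 < L) (hα : 0 ≤ α) :
    (r / L) ^ α ≤ (r' / L) ^ α :=
  Real.rpow_le_rpow (by positivity) (div_le_div_of_nonneg_right hrr hL.le) hα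

/-- the equation lemmas of the definitions of this file are generated HERE -/
theorem ol_eqns_cite : True := by
  have := @OlBranch.eq_1.{0, 0, 0}
  trivial

end Claimed.Agent.R291
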