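import Mathlib
import Claimed.Agent.R291.Defs.Frozen
import Claimed.Agent.R291.Tool.TriSC
import Claimed.Agent.R291.Tool.TriSCLat

/-!
# Row 291 (S0539), Tool/TriSCEdge : EDGE FORM OF TIMAR'S LEMMA, ONE SIGN ON A CUT, HOLE-FREE DOMAINS      (owner helper147; prefix `tsc_`)      no sorry

* `TscEStep G X Y e e'`   two boundary edges (from `X` to `Y`) of ONE triangle
* `tsc_core_edge`, `tsc_timar_edge`   the edge boundary between a connected `C` and a component `D` of `s \ C` is connected for `TscEStep`   (T8 of T23_CHAIN, request of 121)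
* `tsc_timar_sign`        a spin which does not change across the boundary edges between `C` and `D` takes ONE value on both layers
* `tsc_extend`, `tsc_erase`   closed cochains extend to a new vertex whose link is `TriSCOn`;  VERTEX DELETION: `TriSCOn (insert v s)`, link of `v` `TriSCOn`  ⟹  `TriSCOn s`
* `tsc_coconn`            **every finite set of sites with connected complement is `TriSCOn A` for every `A`** (remark of 193)
-/

set_option autoImplicit false
set_option linter.unusedSectionVars false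
set_option linter.unusedVariables false
set_option linter.unusedSimpArgs false

namespace Claimed.Agent.R291

open Relation Claims.C0467

section edge
variable {V : Type*} {G : SimpleGraph V} {s : Set V}

/-- two edges from `X` to `Y` which are two sides of one triangle -/
def TscEStep (G : SimpleGraph V) (X Y : Set V) (e e' : V × V) : Prop :=
  (e.1 ∈ X ∧ e.2 ∈ Y ∧ G.Adj e.1 e.2) ∧ (e'.1 ∈ X ∧ e'.2 ∈ Y ∧ G.Adj e'.1 e'.2) ∧
    ((e.1 = e'.1 ∧ G.Adj e.2 e'.2) ∨ (e.2 = e'.2 ∧ G.Adj e.1 e'.1))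

theorem tsc_aux2 (p q r : Prop) [Decidable p] [Decidable q] [Decidable r]
    (h1 : p → (q ∧ ¬ r) ∨ (r ∧ ¬ q)) (h2 : q → (p ∧ ¬ r) ∨ (r ∧ ¬ p)) (h3 : r → (p ∧ ¬ q) ∨ (q ∧ ¬ p)) :
    (if p then (1 : ZMod 2) else 0) + (if q then 1 else 0) + (if r then 1 else 0) = 0 := by
  by_cases hp : p <;> by_cases hq : q <;> by_cases hr : r <;>
    simp only [hp, hq, hr, if_true, if_false, true_and, and_true, false_and, and_false, not_true_eq_false, not_false_eq_true, or_self,
      forall_const, imp_false, IsEmpty.forall_iff, or_false, false_or] at * <;> decide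

/-- **core of the edge form of Timar's lemma** -/
theorem tsc_core_edge (hs : TriSCOn (ZMod 2) G s) {X Y : Set V} (hX : X ⊆ s) (hY : Y ⊆ s) (hXY : ∀ a, a ∈ X → a ∈ Y → False)
    (hXc : TscConn G X) (hYc : TscConn G Y)
    (hK : ∀ x ∈ X, ∀ y ∈ Y, ∀ c ∈ s, G.Adj x y → G.Adj x c → G.Adj y c → c ∈ X ∨ c ∈ Y)
    {e e' : V × V} (he : e.1 ∈ X ∧ e.2 ∈ Y ∧ G.Adj e.1 e.2) (he' : e'.1 ∈ X ∧ e'.2 ∈ Y ∧ G.Adj e'.1 e'.2) :
    ReflTransGen (TscEStep G X Y) e e' := by
  classical
  set S : V → V → Prop := fun a b => ReflTransGen (TscEStep G X Y) e (a, b) with hS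
  have hSE : ∀ a b, S a b → a ∈ X ∧ b ∈ Y ∧ G.Adj a b := by
    intro a b h
    rcases ReflTransGen.cases_tail h with h | ⟨c, _, hc⟩
    · have h' := he
      rw [← h] at h'
      exact h'
    · exact hc.2.1
  set T : V → V → Prop := fun a b => S a b ∨ S b a with hT
  have hTs : ∀ a b, T a b ↔ T b a := fun a b => or_comm
  have nXX : ∀ a b, a ∈ X → b ∈ X → ¬ T a b := by
    rintro a b ha hb (h | h)
    · exact hXY b hb (hSE a b h).2.1
    · exact hXY a ha (hSE b a h).2.1
  have nYY : ∀ a b, a ∈ Y → b ∈ Y → ¬ T a b := by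
    rintro a b ha hb (h | h)
    · exact hXY a (hSE a b h).1 ha
    · exact hXY b (hSE b a h).1 hb
  -- a triangle with one side in the class has exactly one other side in the class
  have keyS : ∀ a b c, S a b → c ∈ s → G.Adj a c → G.Adj b c → (T b c ∧ ¬ T a c) ∨ (T a c ∧ ¬ T b c) := by
    intro a b c h hc hac hbc
    obtain ⟨ha, hb, hab⟩ := hSE a b h
    rcases hK a ha b hb c hc hab hac hbc with hcX | hcY
    · left
      exact ⟨Or.inr (h.tail ⟨⟨ha, hb, hab⟩, ⟨hcX, hb, hbc.symm⟩, Or.inr ⟨rfl, hac⟩⟩), nXX a c ha hcX⟩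
    · right
      exact ⟨Or.inl (h.tail ⟨⟨ha, hb, hab⟩, ⟨ha, hcY, hac⟩, Or.inl ⟨rfl, hbc⟩⟩), nYY b c hb hcY⟩
  have keyT : ∀ a b c, T a b → c ∈ s → G.Adj a c → G.Adj b c → (T b c ∧ ¬ T a c) ∨ (T a c ∧ ¬ T b c) := by
    rintro a b c (h | h) hc hac hbc
    · exact keyS a b c h hc hac hbc
    · exact (keyS b a c h hc hbc hac).symm
  let ω : V → V → ZMod 2 := fun u v => if T u v then 1 else 0
  obtain ⟨f, hf⟩ := tsc_mod2 hs ω (fun u _ v _ _ => by simp only [ω, hTs u v])
    (fun u hu v hv w hw huv hvw huw => tsc_aux2 (T u v) (T v w) (T u w)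
      (fun h => keyT u v w h hw huw hvw)
      (fun h => by
        have := keyT v w u h hu huv.symm huw.symm
        rw [hTs w u, hTs v u] at this
        exact this.symm)
      (fun h => by
        have := keyT u w v h hv huv hvw.symm
        rw [hTs w v] at this
        exact this.symm))
  have fX : ∀ a ∈ X, ∀ b ∈ X, f a = f b := by
    intro a ha b hb
    refine tsc_R_const f (fun p q h => ?_) (hXc a ha b hb)
    have h1 := hf p (hX h.2.1) q (hX h.2.2) h.1
    have h2 : ω p q = 0 := if_neg (nXX p q h.2.1 h.2.2)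
    rw [h2] at h1
    exact CharTwo.add_eq_zero.1 h1.symm
  have fY : ∀ a ∈ Y, ∀ b ∈ Y, f a = f b := by
    intro a ha b hb
    refine tsc_R_const f (fun p q h => ?_) (hYc a ha b hb)
    have h1 := hf p (hY h.2.1) q (hY h.2.2) h.1
    have h2 : ω p q = 0 := if_neg (nYY p q h.2.1 h.2.2)
    rw [h2] at h1
    exact CharTwo.add_eq_zero.1 h1.symm
  have e0 : ω e.1 e.2 = 1 := if_pos (Or.inl ReflTransGen.refl)
  have e1 : ω e'.1 e'.2 = 1 := by
    rw [hf e'.1 (hX he'.1) e'.2 (hY he'.2.1) he'.2.2, fX e'.1 he'.1 e.1 he.1, fY e'.2 he'.2.1 e.2 he.2.1, ← hf e.1 (hX he.1) e.2 (hY he.2.1) he.2.2, e0]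
  by_cases h : T e'.1 e'.2
  · rcases h with h | h
    · exact h
    · exact (hXY e'.1 he'.1 (hSE _ _ h).2.1).elim
  · have : ω e'.1 e'.2 = 0 := if_neg h
    rw [this] at e1
    exact absurd e1 (by decide)

/-- **Timar's lemma, edge form**: `C` connected, `D` the component of `x` in `s \ C`: the boundary edges between `C` and `D` are connected through triangles -/
theorem tsc_timar_edge (hs : TriSCOn (ZMod 2) G s) {C : Set V} (hCs : C ⊆ s) (hC : TscConn G C) (x : V) {e e' : V × V}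
    (he : e.1 ∈ C ∧ e.2 ∈ tscComp G (s \ C) x ∧ G.Adj e.1 e.2) (he' : e'.1 ∈ C ∧ e'.2 ∈ tscComp G (s \ C) x ∧ G.Adj e'.1 e'.2) :
    ReflTransGen (TscEStep G C (tscComp G (s \ C) x)) e e' := by
  refine tsc_core_edge hs hCs (fun a h => h.1.1) (fun a h h' => h'.1.2 h) hC (tsc_comp_conn x) ?_ he he'
  intro c _ d hd b hb _ _ hdb
  by_cases h : b ∈ C
  · exact Or.inl h
  · exact Or.inr (tsc_comp_adj hd ⟨hb, h⟩ hdb)

/-- a function which does not change across the edges from `X` to `Y` is constant along `TscEStep` chains -/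
theorem tsc_estep_const {α : Type*} {X Y : Set V} (σ : V → α) (hσ : ∀ u ∈ X, ∀ v ∈ Y, G.Adj u v → σ u = σ v) {e e' : V × V}
    (h : ReflTransGen (TscEStep G X Y) e e') : σ e.1 = σ e'.1 := by
  induction h with
  | refl => rfl
  | @tail b c _ hbc ih =>
    rcases hbc.2.2 with h | h
    · rw [ih, h.1]
    · rw [ih, hσ b.1 hbc.1.1 b.2 hbc.1.2.1 hbc.1.2.2, h.1, ← hσ c.1 hbc.2.1.1 c.2 hbc.2.1.2.1 hbc.2.1.2.2]

/-- **ONE SIGN ON A CUT** (T8): a spin which does not change across the boundary edges between the connected set `C` and the component `D` of `s \ C`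
(for instance because every cell meeting both is open) takes one value on all the end points of these edges -/
theorem tsc_timar_sign {α : Type*} (hs : TriSCOn (ZMod 2) G s) {C : Set V} (hCs : C ⊆ s) (hC : TscConn G C) (x : V) (σ : V → α)
    (hσ : ∀ u ∈ C, ∀ v ∈ tscComp G (s \ C) x, G.Adj u v → σ u = σ v) {u v u' v' : V}
    (hu : u ∈ C) (hv : v ∈ tscComp G (s \ C) x) (huv : G.Adj u v) (hu' : u' ∈ C) (hv' : v' ∈ tscComp G (s \ C) x) (huv' : G.Adj u' v') :
    σ u = σ u' ∧ σ v = σ v' ∧ σ u = σ v' := by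
  have h := tsc_estep_const σ hσ (tsc_timar_edge hs hCs hC x (e := (u, v)) (e' := (u', v')) ⟨hu, hv, huv⟩ ⟨hu', hv', huv'⟩)
  have h1 : σ u = σ u' := h
  have h2 := hσ u hu v hv huv
  have h3 := hσ u' hu' v' hv' huv'
  exact ⟨h1, by rw [← h2, ← h3, h1], by rw [← h3, h1]⟩

end edge

section erase
variable {V : Type*} {A : Type*} [AddCommGroup A] {G : SimpleGraph V} {s : Set V}

/-- closed cochains extend to a new vertex whose link is `TriSCOn` -/
theorem tsc_extend {v : V} (hv : v ∉ s) (hN : TriSCOn A G {u | u ∈ s ∧ G.Adj u v}) {ω : V → V → A} (hω : TscClosed G s ω) :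
    ∃ ω' : V → V → A, TscClosed G (insert v s) ω' ∧ ∀ a ∈ s, ∀ b ∈ s, ω' a b = ω a b := by
  classical
  obtain ⟨g, hg⟩ := hN ω (hω.mono (fun u hu => hu.1))
  have hne : ∀ a, a ∈ s → a ≠ v := fun a ha h => hv (h ▸ ha)
  refine ⟨fun a b => if a = v then g b else if b = v then - g a else ω a b, ⟨?_, ?_⟩, ?_⟩
  · intro a ha b hb hab
    rcases ha with rfl | ha
    · rcases hb with rfl | hb
      · exact (G.irrefl hab).elim
      · simp only [if_true, if_neg (hne b hb), neg_neg]
    · rcases hb with rfl | hb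
      · simp only [if_true, if_neg (hne a ha), neg_neg]
      · simp only [if_neg (hne a ha), if_neg (hne b hb)]
        exact hω.anti a ha b hb hab
  · intro a ha b hb c hc hab hbc hac
    rcases ha with rfl | ha
    · rcases hb with rfl | hb
      · exact (G.irrefl hab).elim
      · rcases hc with rfl | hc
        · exact (G.irrefl hac).elim
        · simp only [if_true, if_neg (hne b hb), if_neg (hne c hc)]
          rw [hg b ⟨hb, hab.symm⟩ c ⟨hc, hac.symm⟩ hbc]; abel
    · rcases hb with rfl | hb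
      · rcases hc with rfl | hc
        · exact (G.irrefl hbc).elim
        · simp only [if_true, if_neg (hne a ha), if_neg (hne c hc)]
          rw [hg a ⟨ha, hab⟩ c ⟨hc, hbc.symm⟩ hac]; abel
      · rcases hc with rfl | hc
        · simp only [if_true, if_neg (hne a ha), if_neg (hne b hb)]
          rw [hg a ⟨ha, hac⟩ b ⟨hb, hbc⟩ hab]; abel
        · simp only [if_neg (hne a ha), if_neg (hne b hb), if_neg (hne c hc)]
          exact hω.tri a ha b hb c hc hab hbc hac
  · intro a ha b hb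
    simp only [if_neg (hne a ha), if_neg (hne b hb)]

/-- **vertex deletion** -/
theorem tsc_erase {v : V} (hs : TriSCOn A G (insert v s)) (hv : v ∉ s) (hN : TriSCOn A G {u | u ∈ s ∧ G.Adj u v}) : TriSCOn A G s := by
  intro ω hω
  obtain ⟨ω', hω', hag⟩ := tsc_extend hv hN hω
  obtain ⟨f, hf⟩ := hs ω' hω'
  exact ⟨f, fun a ha b hb hab => by rw [← hag a ha b hb]; exact hf a (Or.inr ha) b (Or.inr hb) hab⟩

/-- `TriSCOn` only sees the adjacency inside the set -/
theorem tsc_congr {G' : SimpleGraph V} (h : ∀ a ∈ s, ∀ b ∈ s, G.Adj a b ↔ G'.Adj a b) (hs : TriSCOn A G s) : TriSCOn A G' s := by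
  intro ω hω
  obtain ⟨f, hf⟩ := hs ω ⟨fun u hu v hv huv => hω.anti u hu v hv ((h u hu v hv).1 huv),
    fun u hu v hv w hw h1 h2 h3 => hω.tri u hu v hv w hw ((h u hu v hv).1 h1) ((h v hv w hw).1 h2) ((h u hu w hw).1 h3)⟩
  exact ⟨f, fun u hu v hv huv => hf u hu v hv ((h u hu v hv).2 huv)⟩

end erase

section lattice
variable (A : Type*) [AddCommGroup A]

theorem tsc_nbr_finite (v : ℤ × ℤ) {N : Set (ℤ × ℤ)} (hN : ∀ u ∈ N, triAdj u v) : N.Finite := by
  refine (tsc_box_finite (v.1 - 1) (v.1 + 1) (v.2 - 1) (v.2 + 1)).subset (fun u hu => ?_)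
  have := hN u hu
  rw [tsc_adj_iff] at this
  simp only [tscBox, Set.mem_ofPred_eq]
  omega

/-- a part of the hexagon around `v` which misses one of the three upper right neighbours -/
theorem tsc_link_aux (v : ℤ × ℤ) {N : Set (ℤ × ℤ)} (hN : ∀ u ∈ N, triAdj u v)
    (h : ¬ ((v.1 + 1, v.2) ∈ N ∧ (v.1, v.2 + 1) ∈ N ∧ (v.1 - 1, v.2 + 1) ∈ N)) : TriSCOn A tscG N := by
  refine tsc_shell_set A (tsc_nbr_finite v hN) ?_
  intro x y h1 h2 h3
  exfalso
  have a1 := hN _ h1
  have a2 := hN _ h2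
  have a3 := hN _ h3
  rw [tsc_adj_iff] at a1 a2 a3
  simp only at a1 a2 a3
  have hx : x = v.1 := by omega
  have hy : y = v.2 + 1 := by omega
  subst hx
  subst hy
  refine h ⟨?_, h1, h2⟩
  have : v.2 + 1 - 1 = v.2 := by ring
  rwa [this] at h3

/-- the point reflection in `v` -/
def tscPt (v : ℤ × ℤ) : ℤ × ℤ ≃ ℤ × ℤ where
  toFun u := (2 * v.1 - u.1, 2 * v.2 - u.2)
  invFun u := (2 * v.1 - u.1, 2 * v.2 - u.2)
  left_inv u := by simp
  right_inv u := by simp

theorem tsc_pt_adj (v a b : ℤ × ℤ) : tscG.Adj a b ↔ tscG.Adj (tscPt v a) (tscPt v b) := by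
  show triAdj a b ↔ triAdj (2 * v.1 - a.1, 2 * v.2 - a.2) (2 * v.1 - b.1, 2 * v.2 - b.2)
  rw [tsc_adj_iff, tsc_adj_iff]
  simp only
  omega

/-- **a proper part of the hexagon around a site is simply connected** -/
theorem tsc_link (v : ℤ × ℤ) {N : Set (ℤ × ℤ)} (hN : ∀ u ∈ N, triAdj u v) {w : ℤ × ℤ} (hw : triAdj w v) (hwN : w ∉ N) : TriSCOn A tscG N := by
  by_cases h : (v.1 + 1, v.2) ∈ N ∧ (v.1, v.2 + 1) ∈ N ∧ (v.1 - 1, v.2 + 1) ∈ N
  · -- reflect
    have hN' : ∀ u ∈ tscPt v '' N, triAdj u v := by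
      rintro _ ⟨u, hu, rfl⟩
      have := (tsc_pt_adj v u v).1 (hN u hu)
      have hv : tscPt v v = v := by
        show (2 * v.1 - v.1, 2 * v.2 - v.2) = v
        ext <;> simp <;> ring
      rwa [hv] at this
    have hmem : ∀ u, u ∈ tscPt v '' N ↔ tscPt v u ∈ N := by
      intro u
      constructor
      · rintro ⟨a, ha, rfl⟩
        have : tscPt v (tscPt v a) = a := (tscPt v).left_inv a
        rwa [this]
      · intro hu
        exact ⟨tscPt v u, hu, (tscPt v).left_inv u⟩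
    have h' : ¬ ((v.1 + 1, v.2) ∈ tscPt v '' N ∧ (v.1, v.2 + 1) ∈ tscPt v '' N ∧ (v.1 - 1, v.2 + 1) ∈ tscPt v '' N) := by
      rw [hmem, hmem, hmem]
      rintro ⟨b1, b2, b3⟩
      have c1 : ((v.1 - 1, v.2) : ℤ × ℤ) ∈ N := by
        have : tscPt v (v.1 + 1, v.2) = (v.1 - 1, v.2) := by
          show (2 * v.1 - (v.1 + 1), 2 * v.2 - v.2) = _
          ext <;> simp <;> ring
        rwa [this] at b1
      have c2 : ((v.1, v.2 - 1) : ℤ × ℤ) ∈ N := by
        have : tscPt v (v.1, v.2 + 1) = (v.1, v.2 - 1) := by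
          show (2 * v.1 - v.1, 2 * v.2 - (v.2 + 1)) = _
          ext <;> simp <;> ring
        rwa [this] at b2
      have c3 : ((v.1 + 1, v.2 - 1) : ℤ × ℤ) ∈ N := by
        have : tscPt v (v.1 - 1, v.2 + 1) = (v.1 + 1, v.2 - 1) := by
          show (2 * v.1 - (v.1 - 1), 2 * v.2 - (v.2 + 1)) = _
          ext <;> simp <;> ring
        rwa [this] at b3
      rw [tsc_adj_iff] at hw
      have : w = (v.1 + 1, v.2) ∨ w = (v.1, v.2 + 1) ∨ w = (v.1 - 1, v.2 + 1) ∨ w = (v.1 - 1, v.2) ∨ w = (v.1, v.2 - 1) ∨ w = (v.1 + 1, v.2 - 1) := by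
        simp only [Prod.ext_iff]
        omega
      rcases this with rfl | rfl | rfl | rfl | rfl | rfl
      · exact hwN h.1
      · exact hwN h.2.1
      · exact hwN h.2.2
      · exact hwN c1
      · exact hwN c2
      · exact hwN c3
    have := tsc_map (tscPt v) (tsc_pt_adj v) (tsc_link_aux A v hN' h')
    have hE : tscPt v '' (tscPt v '' N) = N := by
      rw [Set.image_image]
      have : (fun x => tscPt v (tscPt v x)) = id := funext (fun x => (tscPt v).left_inv x)
      rw [this, Set.image_id]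
    rwa [hE] at this
  · exact tsc_link_aux A v hN h

/-- removal of the finite set `R` from `D ∪ R`, one site visible from outside at a time -/
theorem tsc_coconn_aux {D : Set (ℤ × ℤ)} (hD : D.Finite) (hc : TscConn tscG Dᶜ) :
    ∀ (n : ℕ) (R : Finset (ℤ × ℤ)), R.card = n → (∀ u ∈ R, u ∉ D) → TriSCOn A tscG (D ∪ ↑R) → TriSCOn A tscG D := by
  classical
  intro n
  induction n with
  | zero =>
    intro R hR _ h
    rw [Finset.card_eq_zero] at hR
    subst hR
    simpa using h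
  | succ n ih =>
    intro R hR hRD h
    have hne : R.Nonempty := by
      rw [← Finset.card_pos]; omega
    obtain ⟨w, hw⟩ := hne
    have hfin : (D ∪ ↑R).Finite := hD.union R.finite_toSet
    obtain ⟨z, hz⟩ := hfin.exists_notMem
    have hzD : z ∈ Dᶜ := fun h' => hz (Or.inl h')
    have claim : ∀ t, TscR tscG Dᶜ w t → t ∈ R ∨ ∃ v ∈ R, ∃ u, u ∉ D ∪ ↑R ∧ triAdj u v := by
      intro t ht
      induction ht with
      | refl => exact Or.inl hw
      | @tail t t' _ htt ih' =>
        rcases ih' with h1 | h1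
        · by_cases ht' : t' ∈ R
          · exact Or.inl ht'
          · refine Or.inr ⟨t, h1, t', ?_, htt.1.symm⟩
            rintro (h2 | h2)
            · exact htt.2.2 h2
            · exact ht' h2
        · exact Or.inr h1
    obtain ⟨v, hv, u, hu, huv⟩ : ∃ v ∈ R, ∃ u, u ∉ D ∪ ↑R ∧ triAdj u v := by
      rcases claim z (hc w (hRD w hw) z hzD) with h1 | h1
      · exact (hz (Or.inr h1)).elim
      · exact h1
    have hE : D ∪ ↑R = insert v (D ∪ ↑(R.erase v)) := by
      ext a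
      simp only [Set.mem_union, Set.mem_insert_iff, Finset.mem_coe, Finset.mem_erase]
      constructor
      · rintro (h1 | h1)
        · exact Or.inr (Or.inl h1)
        · by_cases hav : a = v
          · exact Or.inl hav
          · exact Or.inr (Or.inr ⟨hav, h1⟩)
      · rintro (rfl | h1 | h1)
        · exact Or.inr hv
        · exact Or.inl h1
        · exact Or.inr h1.2
    rw [hE] at h
    have hvn : v ∉ D ∪ ↑(R.erase v) := by
      rintro (h1 | h1)
      · exact hRD v hv h1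
      · exact (Finset.notMem_erase v R) h1
    refine ih (R.erase v) (by rw [Finset.card_erase_of_mem hv, hR]; rfl) (fun a ha => hRD a (Finset.mem_of_mem_erase ha)) (tsc_erase h hvn ?_)
    refine tsc_link A v (fun a ha => ha.2) huv ?_
    rintro ⟨h1, _⟩
    refine hu ?_
    rcases h1 with h1 | h1
    · exact Or.inl h1
    · exact Or.inr (Finset.mem_of_mem_erase h1)

/-- **HOLE-FREE DOMAINS**: every finite set of sites with connected complement is simply connected -/
theorem tsc_coconn {D : Set (ℤ × ℤ)} (hD : D.Finite) (hc : TscConn tscG Dᶜ) : TriSCOn A tscG D := by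
  classical
  -- a box around `D`
  obtain ⟨n, hn⟩ : ∃ n : ℕ, D ⊆ tscBox (-n) n (-n) n := by
    refine ⟨hD.toFinset.sup (fun p => p.1.natAbs + p.2.natAbs), fun p hp => ?_⟩
    have := Finset.le_sup (f := fun p : ℤ × ℤ => p.1.natAbs + p.2.natAbs) ((Set.Finite.mem_toFinset hD).2 hp)
    simp only [tscBox, Set.mem_ofPred_eq]
    omega
  set R : Finset (ℤ × ℤ) := (tsc_box_finite (-n) n (-n) n).toFinset.filter (fun p => p ∉ D) with hR
  refine tsc_coconn_aux A hD hc R.card R rfl (fun u hu => (Finset.mem_filter.1 hu).2) ?_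
  have hE : D ∪ ↑R = tscBox (-n) n (-n) n := by
    ext a
    simp only [hR, Set.mem_union, Finset.mem_coe, Finset.mem_filter, Set.Finite.mem_toFinset]
    constructor
    · rintro (h1 | h1)
      · exact hn h1
      · exact h1.1
    · intro h1
      by_cases ha : a ∈ D
      · exact Or.inl ha
      · exact Or.inr ⟨h1, ha⟩
  rw [hE]
  exact tsc_box_sc A _ _ _ _

end lattice

/-- plane forms of the edge lemma and of the sign lemma -/
theorem tsc_plane_timar_edge {C : Set (ℤ × ℤ)} (hC : TscConn tscG C) (x : ℤ × ℤ) {e e' : (ℤ × ℤ) × (ℤ × ℤ)}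
    (he : e.1 ∈ C ∧ e.2 ∈ tscComp tscG Cᶜ x ∧ triAdj e.1 e.2) (he' : e'.1 ∈ C ∧ e'.2 ∈ tscComp tscG Cᶜ x ∧ triAdj e'.1 e'.2) :
    ReflTransGen (TscEStep tscG C (tscComp tscG Cᶜ x)) e e' := by
  rw [Set.compl_eq_univ_sdiff] at he he' ⊢
  exact tsc_timar_edge (tsc_plane (ZMod 2)) (Set.subset_univ C) hC x he he'

theorem tsc_plane_timar_sign {α : Type*} {C : Set (ℤ × ℤ)} (hC : TscConn tscG C) (x : ℤ × ℤ) (σ : ℤ × ℤ → α)
    (hσ : ∀ u ∈ C, ∀ v ∈ tscComp tscG Cᶜ x, triAdj u v → σ u = σ v) {u v u' v' : ℤ × ℤ}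
    (hu : u ∈ C) (hv : v ∈ tscComp tscG Cᶜ x) (huv : triAdj u v) (hu' : u' ∈ C) (hv' : v' ∈ tscComp tscG Cᶜ x) (huv' : triAdj u' v') :
    σ u = σ u' ∧ σ v = σ v' ∧ σ u = σ v' := by
  rw [Set.compl_eq_univ_sdiff] at hσ hv hv'
  exact tsc_timar_sign (tsc_plane (ZMod 2)) (Set.subset_univ C) hC x σ hσ hu hv huv hu' hv' huv'

/-- unfolding equations of the definitions of this file -/
theorem tsc_edge_eqns_cite {V : Type*} (G : SimpleGraph V) (X Y : Set V) (e e' : V × V) (v u : ℤ × ℤ) :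
    (TscEStep G X Y e e' ↔ (e.1 ∈ X ∧ e.2 ∈ Y ∧ G.Adj e.1 e.2) ∧ (e'.1 ∈ X ∧ e'.2 ∈ Y ∧ G.Adj e'.1 e'.2) ∧
      ((e.1 = e'.1 ∧ G.Adj e.2 e'.2) ∨ (e.2 = e'.2 ∧ G.Adj e.1 e'.1))) ∧ tscPt v u = (2 * v.1 - u.1, 2 * v.2 - u.2) :=
  ⟨Iff.rfl, rfl⟩

end Claimed.Agent.R291
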