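import Claimed.Agent.R291.Tool.Midpoint
import Claimed.Agent.R291.Defs.Frozen
import Claimed.Agent.R291.Defs.Ht

/-!
# Row 291 (S0539), TOOL `MidWeight`      (owner helper164; prefix `mid_`, `mid`)

Paper: Gaussian free field limits of weighted integer Lipschitz heights, Sec. 3.2, Lemma 3.4
"Admissibility and energy at rounded midpoints" (03-moments.tex l.313-358).      TEX[moments:weighted-midpoints]
Stands on `midL`, `midU`, `mid_ineq` (Tool/Midpoint.lean).      0 sorry.

* §1 any index type `ι`, any finite edge set `E : Finset (ι × ι)`: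
  `MidLip E h` (1-Lipschitz along `E`), `midEn E h` (energy `∑ |h_i - h_j|`), `midCnt E h` (number of unequal edges);
  `midL_lip`, `midU_lip` (both midpoints are Lipschitz), `mid_energy`, `mid_count` (energy is subadditive),
  `midL_fixed`, `midU_fixed` (fixed coordinates are preserved), `midL_mem_Icc`, `midU_mem_Icc` (boxes),
  `mid_weight_en`, `mid_weight_cnt` (TEX (moments:weight-midpoint), `0 ≤ x ≤ 1`),
  `midY`, `midL_round`, `midU_round` (TEX (moments:rounding), signed weights), `mid_four` (four sets, one weight).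
* §2 the FROZEN model `Claims.C0467`: `mid_mem_adm` (membership unfolded), `midL_adm`, `midU_adm`, `mid_heightChanges`,
  `mid_frozen_weight`, `mid_pairing_eq`, `midL_pairing`, `midU_pairing`, `mid_frozen_four`.
* §3 the laws of `Defs/Ht` (TOTAL heights `TV → ℤ`, free set `A`, boundary functions `b`, `b'`): `midL_htAdm`, `midU_htAdm` (boundary
  `midL b b'`, `midU b b'`), `midL_htAdm_same`, `midU_htAdm_same`, `mid_htN`, `mid_htWt`, `mid_ht_four`,
  `midL_latPair`, `midU_latPair`, `midL_latArr`, `midU_latArr`.   (`mid_four` holds on ANY index type, by `mid_ineq_any`.)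
-/

set_option autoImplicit false

namespace Claimed.Agent.R291

open Finset

/-! ### Admissibility and energy at rounded midpoints (paper Lemma 3.4), any finite edge set -/

section weighted
variable {ι : Type*}

/-- `1`-Lipschitz along the edges of `E` -/
def MidLip (E : Finset (ι × ι)) (h : ι → ℤ) : Prop := ∀ e ∈ E, |h e.1 - h e.2| ≤ 1

/-- the energy `∑ |h_i - h_j|` -/
def midEn (E : Finset (ι × ι)) (h : ι → ℤ) : ℕ := ∑ e ∈ E, (h e.1 - h e.2).natAbs

/-- the number of edges with unequal heights -/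
def midCnt (E : Finset (ι × ι)) (h : ι → ℤ) : ℕ := ∑ e ∈ E, if h e.1 ≠ h e.2 then 1 else 0

theorem midL_lip {E : Finset (ι × ι)} {s t : ι → ℤ} (hs : MidLip E s) (ht : MidLip E t) : MidLip E (midL s t) := by
  intro e he
  have h1 := hs e he
  have h2 := ht e he
  unfold midL
  rw [abs_le] at *; omega

theorem midU_lip {E : Finset (ι × ι)} {s t : ι → ℤ} (hs : MidLip E s) (ht : MidLip E t) : MidLip E (midU s t) := by
  intro e he
  have h1 := hs e he
  have h2 := ht e he
  unfold midU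
  rw [abs_le] at *; omega

/-- the energy does not increase (no Lipschitz hypothesis) -/
theorem mid_energy (E : Finset (ι × ι)) (s t : ι → ℤ) : midEn E (midL s t) + midEn E (midU s t) ≤ midEn E s + midEn E t := by
  unfold midEn
  rw [← Finset.sum_add_distrib, ← Finset.sum_add_distrib]
  apply Finset.sum_le_sum
  intro e _
  unfold midL midU
  omega

theorem midCnt_eq_midEn {E : Finset (ι × ι)} {h : ι → ℤ} (hh : MidLip E h) : midCnt E h = midEn E h := by
  unfold midCnt midEn
  apply Finset.sum_congr rfl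
  intro e he
  have h1 := hh e he
  rw [abs_le] at h1
  split_ifs <;> omega

theorem mid_count {E : Finset (ι × ι)} {s t : ι → ℤ} (hs : MidLip E s) (ht : MidLip E t) :
    midCnt E (midL s t) + midCnt E (midU s t) ≤ midCnt E s + midCnt E t := by
  rw [midCnt_eq_midEn hs, midCnt_eq_midEn ht, midCnt_eq_midEn (midL_lip hs ht), midCnt_eq_midEn (midU_lip hs ht)]
  exact mid_energy E s t

theorem midL_fixed {s t : ι → ℤ} {i : ι} {k : ℤ} (hs : s i = k) (ht : t i = k) : midL s t i = k := by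
  unfold midL; omega

theorem midU_fixed {s t : ι → ℤ} {i : ι} {k : ℤ} (hs : s i = k) (ht : t i = k) : midU s t i = k := by
  unfold midU; omega

theorem midL_mem_Icc {s t : ι → ℤ} {i : ι} {a b : ℤ} (hs : s i ∈ Finset.Icc a b) (ht : t i ∈ Finset.Icc a b) :
    midL s t i ∈ Finset.Icc a b := by
  rw [Finset.mem_Icc] at *; unfold midL; omega

theorem midU_mem_Icc {s t : ι → ℤ} {i : ι} {a b : ℤ} (hs : s i ∈ Finset.Icc a b) (ht : t i ∈ Finset.Icc a b) :
    midU s t i ∈ Finset.Icc a b := by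
  rw [Finset.mem_Icc] at *; unfold midU; omega

/-- a weight `x ^ N` with `x ≤ 1` and `N` subadditive under rounding -/
theorem mid_pow_le {x : ℝ} (hx0 : 0 ≤ x) (hx1 : x ≤ 1) {a b c d : ℕ} (h : c + d ≤ a + b) : x ^ a * x ^ b ≤ x ^ c * x ^ d := by
  rw [← pow_add, ← pow_add]
  exact pow_le_pow_of_le_one hx0 hx1 h

/-- (paper (3.7)) the weight inequality, energy form.   TEX[moments:weighted-midpoints] -/
theorem mid_weight_en {x : ℝ} (hx0 : 0 ≤ x) (hx1 : x ≤ 1) (E : Finset (ι × ι)) (s t : ι → ℤ) :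
    x ^ midEn E s * x ^ midEn E t ≤ x ^ midEn E (midL s t) * x ^ midEn E (midU s t) :=
  mid_pow_le hx0 hx1 (mid_energy E s t)

/-- the weight inequality, counting form.   TEX[moments:weighted-midpoints] -/
theorem mid_weight_cnt {x : ℝ} (hx0 : 0 ≤ x) (hx1 : x ≤ 1) {E : Finset (ι × ι)} {s t : ι → ℤ} (hs : MidLip E s) (ht : MidLip E t) :
    x ^ midCnt E s * x ^ midCnt E t ≤ x ^ midCnt E (midL s t) * x ^ midCnt E (midU s t) :=
  mid_pow_le hx0 hx1 (mid_count hs ht)

theorem midL_half (a b : ℤ) : |(((a + b) / 2 : ℤ) : ℝ) - ((a : ℝ) + b) / 2| ≤ 1 / 2 := by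
  have h1 : 2 * ((a + b) / 2) ≤ a + b := by omega
  have h2 : a + b ≤ 2 * ((a + b) / 2) + 1 := by omega
  have h1' : (2 : ℝ) * (((a + b) / 2 : ℤ) : ℝ) ≤ (a : ℝ) + b := by exact_mod_cast h1
  have h2' : (a : ℝ) + b ≤ 2 * (((a + b) / 2 : ℤ) : ℝ) + 1 := by exact_mod_cast h2
  rw [abs_le]; constructor <;> linarith

theorem midU_half (a b : ℤ) : |(((a + b + 1) / 2 : ℤ) : ℝ) - ((a : ℝ) + b) / 2| ≤ 1 / 2 := by
  have h1 : 2 * ((a + b + 1) / 2) ≤ a + b + 1 := by omega
  have h2 : a + b ≤ 2 * ((a + b + 1) / 2) := by omega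
  have h1' : (2 : ℝ) * (((a + b + 1) / 2 : ℤ) : ℝ) ≤ (a : ℝ) + b + 1 := by exact_mod_cast h1
  have h2' : (a : ℝ) + b ≤ 2 * (((a + b + 1) / 2 : ℤ) : ℝ) := by exact_mod_cast h2
  rw [abs_le]; constructor <;> linarith

/-- a linear statistic -/
def midY (I : Finset ι) (w : ι → ℝ) (h : ι → ℤ) : ℝ := ∑ i ∈ I, w i * h i

/-- (paper (3.8)) rounding of a linear statistic, signed weights.   TEX[moments:weighted-midpoints] -/
theorem midL_round (I : Finset ι) (w : ι → ℝ) (s t : ι → ℤ) :
    |midY I w (midL s t) - (midY I w s + midY I w t) / 2| ≤ (∑ i ∈ I, |w i|) / 2 := by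
  unfold midY
  have e : ∑ i ∈ I, w i * (midL s t i : ℝ) - (∑ i ∈ I, w i * (s i : ℝ) + ∑ i ∈ I, w i * (t i : ℝ)) / 2
      = ∑ i ∈ I, w i * ((midL s t i : ℝ) - ((s i : ℝ) + t i) / 2) := by
    rw [← Finset.sum_add_distrib, Finset.sum_div, ← Finset.sum_sub_distrib]
    exact Finset.sum_congr rfl fun i _ => by ring
  rw [e, Finset.sum_div]
  refine (Finset.abs_sum_le_sum_abs _ _).trans (Finset.sum_le_sum fun i _ => ?_)
  rw [abs_mul]
  have := midL_half (s i) (t i)
  have h0 := abs_nonneg (w i)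
  unfold midL
  nlinarith

theorem midU_round (I : Finset ι) (w : ι → ℝ) (s t : ι → ℤ) :
    |midY I w (midU s t) - (midY I w s + midY I w t) / 2| ≤ (∑ i ∈ I, |w i|) / 2 := by
  unfold midY
  have e : ∑ i ∈ I, w i * (midU s t i : ℝ) - (∑ i ∈ I, w i * (s i : ℝ) + ∑ i ∈ I, w i * (t i : ℝ)) / 2
      = ∑ i ∈ I, w i * ((midU s t i : ℝ) - ((s i : ℝ) + t i) / 2) := by
    rw [← Finset.sum_add_distrib, Finset.sum_div, ← Finset.sum_sub_distrib]
    exact Finset.sum_congr rfl fun i _ => by ring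
  rw [e, Finset.sum_div]
  refine (Finset.abs_sum_le_sum_abs _ _).trans (Finset.sum_le_sum fun i _ => ?_)
  rw [abs_mul]
  have := midU_half (s i) (t i)
  have h0 := abs_nonneg (w i)
  unfold midU
  nlinarith

/-- four sets, one weight: the form consumed by the amplification lemma -/
theorem mid_four (W : (ι → ℤ) → ℝ) (hW : ∀ s, 0 ≤ W s) (A B C D : Finset (ι → ℤ))
    (H : ∀ s ∈ A, ∀ t ∈ B, midL s t ∈ C ∧ midU s t ∈ D ∧ W s * W t ≤ W (midL s t) * W (midU s t)) :
    (∑ s ∈ A, W s) * (∑ t ∈ B, W t) ≤ (∑ s ∈ C, W s) * ∑ s ∈ D, W s :=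
  mid_ineq_any A B C D W W W W (fun s _ => hW s) (fun s _ => hW s) (fun s _ => hW s) (fun s _ => hW s) H

end weighted

/-! ### The frozen model `Claims.C0467` -/

section frozen
open Claims.C0467

variable {F : Finset (ℤ × ℤ)}

theorem mid_heightAt_L (s t : F → ℤ) (u : ℤ × ℤ) : heightAt (midL s t) u = (heightAt s u + heightAt t u) / 2 := by
  unfold heightAt midL
  split_ifs <;> simp

theorem mid_heightAt_U (s t : F → ℤ) (u : ℤ × ℤ) : heightAt (midU s t) u = (heightAt s u + heightAt t u + 1) / 2 := by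
  unfold heightAt midU
  split_ifs <;> simp

theorem mid_mem_adm {h : F → ℤ} : h ∈ admissibleHeights F ↔
    (∀ u : F, h u ∈ Finset.Icc (-(F.card : ℤ)) F.card) ∧ (∀ u ∈ F, (∃ v, triAdj u v ∧ v ∉ F) → heightAt h u = 0) ∧
      ∀ u ∈ F, ∀ v ∈ F, triAdj u v → |heightAt h u - heightAt h v| ≤ 1 := by
  classical
  unfold admissibleHeights
  simp only [Finset.mem_filter, Fintype.mem_piFinset]

/-- rounded midpoints of admissible heights are admissible -/
theorem midL_adm {s t : F → ℤ} (hs : s ∈ admissibleHeights F) (ht : t ∈ admissibleHeights F) : midL s t ∈ admissibleHeights F := by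
  rw [mid_mem_adm] at *
  obtain ⟨a1, a2, a3⟩ := hs
  obtain ⟨b1, b2, b3⟩ := ht
  refine ⟨fun u => midL_mem_Icc (a1 u) (b1 u), fun u hu hv => ?_, fun u hu v hv huv => ?_⟩
  · rw [mid_heightAt_L, a2 u hu hv, b2 u hu hv]; rfl
  · have h1 := a3 u hu v hv huv
    have h2 := b3 u hu v hv huv
    rw [mid_heightAt_L, mid_heightAt_L]
    rw [abs_le] at *; omega

theorem midU_adm {s t : F → ℤ} (hs : s ∈ admissibleHeights F) (ht : t ∈ admissibleHeights F) : midU s t ∈ admissibleHeights F := by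
  rw [mid_mem_adm] at *
  obtain ⟨a1, a2, a3⟩ := hs
  obtain ⟨b1, b2, b3⟩ := ht
  refine ⟨fun u => midU_mem_Icc (a1 u) (b1 u), fun u hu hv => ?_, fun u hu v hv huv => ?_⟩
  · rw [mid_heightAt_U, a2 u hu hv, b2 u hu hv]; rfl
  · have h1 := a3 u hu v hv huv
    have h2 := b3 u hu v hv huv
    rw [mid_heightAt_U, mid_heightAt_U]
    rw [abs_le] at *; omega

/-- the number of height changes is subadditive under rounding -/
theorem mid_heightChanges {s t : F → ℤ} (hs : s ∈ admissibleHeights F) (ht : t ∈ admissibleHeights F) :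
    heightChanges (midL s t) + heightChanges (midU s t) ≤ heightChanges s + heightChanges t := by
  rw [mid_mem_adm] at hs ht
  obtain ⟨-, -, a3⟩ := hs
  obtain ⟨-, -, b3⟩ := ht
  unfold heightChanges
  rw [← Finset.sum_add_distrib, ← Finset.sum_add_distrib]
  apply Finset.sum_le_sum
  intro u hu
  rw [← Finset.sum_add_distrib, ← Finset.sum_add_distrib]
  apply Finset.sum_le_sum
  intro d hd
  by_cases hv : u + d ∈ F
  · have hadj : triAdj u (u + d) := by
      unfold triAdj
      simp only [Finset.mem_insert, Finset.mem_singleton] at hd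
      rw [add_sub_cancel_left]
      rcases hd with h | h | h
      · exact Or.inl h
      · exact Or.inr (Or.inl h)
      · exact Or.inr (Or.inr (Or.inl h))
    have h1 := a3 u hu _ hv hadj
    have h2 := b3 u hu _ hv hadj
    rw [abs_le] at h1 h2
    simp only [hv, true_and, mid_heightAt_L, mid_heightAt_U]
    split_ifs <;> omega
  · simp [hv]

/-- the weight inequality of the frozen law -/
theorem mid_frozen_weight {x : ℝ} (hx0 : 0 ≤ x) (hx1 : x ≤ 1) {s t : F → ℤ} (hs : s ∈ admissibleHeights F)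
    (ht : t ∈ admissibleHeights F) :
    x ^ heightChanges s * x ^ heightChanges t ≤ x ^ heightChanges (midL s t) * x ^ heightChanges (midU s t) :=
  mid_pow_le hx0 hx1 (mid_heightChanges hs ht)

theorem mid_heightAt_coe (h : F → ℤ) (u : F) : heightAt h (u : ℤ × ℤ) = h u := by
  unfold heightAt; simp

theorem mid_pairing_eq (δ : ℝ) (f : ℝ × ℝ → ℝ) (h : F → ℤ) :
    heightPairing δ f h = midY Finset.univ (fun u : F => ∫ z in hexFace δ u, f z) h := by
  unfold heightPairing midY
  exact Finset.sum_congr rfl fun u _ => by rw [mid_heightAt_coe]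

theorem midL_pairing (δ : ℝ) (f : ℝ × ℝ → ℝ) (s t : F → ℤ) :
    |heightPairing δ f (midL s t) - (heightPairing δ f s + heightPairing δ f t) / 2| ≤ (∑ u : F, |∫ z in hexFace δ u, f z|) / 2 := by
  simp only [mid_pairing_eq]; exact midL_round _ _ s t

theorem midU_pairing (δ : ℝ) (f : ℝ × ℝ → ℝ) (s t : F → ℤ) :
    |heightPairing δ f (midU s t) - (heightPairing δ f s + heightPairing δ f t) / 2| ≤ (∑ u : F, |∫ z in hexFace δ u, f z|) / 2 := by
  simp only [mid_pairing_eq]; exact midU_round _ _ s t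

/-- four events of the frozen law: `Z(A) Z(B) ≤ Z(C) Z(D)` as soon as the midpoints of `A × B` fall in `C`, `D` -/
theorem mid_frozen_four {x : ℝ} (hx0 : 0 ≤ x) (hx1 : x ≤ 1) (A B C D : Finset (F → ℤ)) (hA : A ⊆ admissibleHeights F)
    (hB : B ⊆ admissibleHeights F) (H : ∀ s ∈ A, ∀ t ∈ B, midL s t ∈ C ∧ midU s t ∈ D) :
    (∑ s ∈ A, x ^ heightChanges s) * (∑ t ∈ B, x ^ heightChanges t) ≤
      (∑ s ∈ C, x ^ heightChanges s) * ∑ s ∈ D, x ^ heightChanges s :=
  mid_four (fun s => x ^ heightChanges s) (fun _ => pow_nonneg hx0 _) A B C D fun s hs t ht =>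
    ⟨(H s hs t ht).1, (H s hs t ht).2, mid_frozen_weight hx0 hx1 (hA hs) (hB ht)⟩

end frozen

/-! ### The height laws of `Defs/Ht` (total height functions, free set `A`, boundary function `b`) -/

section ht
open Claims.C0467

theorem midL_self {κ : Type*} (b : κ → ℤ) : midL b b = b := by
  funext i; unfold midL; omega

theorem midU_self {κ : Type*} (b : κ → ℤ) : midU b b = b := by
  funext i; unfold midU; omega

variable {A : Finset TV} {b b' s t : TV → ℤ}

theorem midL_htAdm (hs : HtAdm A b s) (ht : HtAdm A b' t) : HtAdm A (midL b b') (midL s t) := by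
  refine ⟨fun u hu => ?_, fun u hu d hd => ?_⟩
  · unfold midL; rw [hs.1 u hu, ht.1 u hu]
  · have h1 := hs.2 u hu d hd
    have h2 := ht.2 u hu d hd
    unfold midL
    rw [abs_le] at *; omega

theorem midU_htAdm (hs : HtAdm A b s) (ht : HtAdm A b' t) : HtAdm A (midU b b') (midU s t) := by
  refine ⟨fun u hu => ?_, fun u hu d hd => ?_⟩
  · unfold midU; rw [hs.1 u hu, ht.1 u hu]
  · have h1 := hs.2 u hu d hd
    have h2 := ht.2 u hu d hd
    unfold midU
    rw [abs_le] at *; omega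

theorem midL_htAdm_same (hs : HtAdm A b s) (ht : HtAdm A b t) : HtAdm A b (midL s t) := by
  have := midL_htAdm hs ht; rwa [midL_self] at this

theorem midU_htAdm_same (hs : HtAdm A b s) (ht : HtAdm A b t) : HtAdm A b (midU s t) := by
  have := midU_htAdm hs ht; rwa [midU_self] at this

/-- an admissible height is 1-Lipschitz along every positive edge meeting `A` -/
theorem mid_htAdm_edge (hs : HtAdm A b s) {p : TV × TV} (hp : p ∈ latE A) : |s p.1 - s (p.1 + p.2)| ≤ 1 := by
  obtain ⟨h1, h2⟩ := lat_mem_E.1 hp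
  rcases h2 with h | h
  · have := hs.2 _ h _ (lat_pos_sub h1)
    rwa [abs_sub_comm] at this
  · have := hs.2 _ h _ (lat_dirs_neg (lat_pos_sub h1))
    rwa [add_neg_cancel_right] at this

/-- the number of unequal edges is subadditive under rounding (two boundary functions allowed) -/
theorem mid_htN (hs : HtAdm A b s) (ht : HtAdm A b' t) : htN A (midL s t) + htN A (midU s t) ≤ htN A s + htN A t := by
  unfold htN
  rw [← Finset.sum_add_distrib, ← Finset.sum_add_distrib]
  refine Finset.sum_le_sum fun p hp => ?_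
  have h1 := mid_htAdm_edge hs hp
  have h2 := mid_htAdm_edge ht hp
  rw [abs_le] at h1 h2
  unfold midL midU
  split_ifs <;> omega

/-- TEX (moments:weight-midpoint) for the laws of `Defs/Ht` -/
theorem mid_htWt {x : ℝ} (hx0 : 0 ≤ x) (hx1 : x ≤ 1) (hs : HtAdm A b s) (ht : HtAdm A b' t) :
    htWt x A s * htWt x A t ≤ htWt x A (midL s t) * htWt x A (midU s t) :=
  mid_pow_le hx0 hx1 (mid_htN hs ht)

/-- four events: `Z(𝒜) Z(ℬ) ≤ Z(𝒞) Z(𝒟)` as soon as the rounded midpoints of `𝒜 × ℬ` fall in `𝒞`, `𝒟` -/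
theorem mid_ht_four {x : ℝ} (hx0 : 0 ≤ x) (hx1 : x ≤ 1) (𝒜 ℬ 𝒞 𝒟 : Finset (TV → ℤ)) (hA : ∀ s ∈ 𝒜, HtAdm A b s)
    (hB : ∀ t ∈ ℬ, HtAdm A b' t) (H : ∀ s ∈ 𝒜, ∀ t ∈ ℬ, midL s t ∈ 𝒞 ∧ midU s t ∈ 𝒟) :
    (∑ s ∈ 𝒜, htWt x A s) * (∑ t ∈ ℬ, htWt x A t) ≤ (∑ s ∈ 𝒞, htWt x A s) * ∑ s ∈ 𝒟, htWt x A s :=
  mid_four (fun s => htWt x A s) (fun _ => pow_nonneg hx0 _) 𝒜 ℬ 𝒞 𝒟 fun s hs t ht =>
    ⟨(H s hs t ht).1, (H s hs t ht).2, mid_htWt hx0 hx1 (hA s hs) (hB t ht)⟩

theorem mid_latPair_eq (δ : ℝ) (f : ℝ × ℝ → ℝ) (S : Finset TV) (h : TV → ℤ) : latPair δ f S h = midY S (latW δ f) h := rfl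

theorem mid_latArr_eq (a : TV →₀ ℝ) (h : TV → ℤ) : latArr a h = midY a.support a h := rfl

theorem midL_latPair (δ : ℝ) (f : ℝ × ℝ → ℝ) (S : Finset TV) (s t : TV → ℤ) :
    |latPair δ f S (midL s t) - (latPair δ f S s + latPair δ f S t) / 2| ≤ (∑ u ∈ S, |latW δ f u|) / 2 :=
  midL_round S (latW δ f) s t

theorem midU_latPair (δ : ℝ) (f : ℝ × ℝ → ℝ) (S : Finset TV) (s t : TV → ℤ) :
    |latPair δ f S (midU s t) - (latPair δ f S s + latPair δ f S t) / 2| ≤ (∑ u ∈ S, |latW δ f u|) / 2 :=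
  midU_round S (latW δ f) s t

theorem midL_latArr (a : TV →₀ ℝ) (s t : TV → ℤ) :
    |latArr a (midL s t) - (latArr a s + latArr a t) / 2| ≤ (∑ u ∈ a.support, |a u|) / 2 :=
  midL_round a.support a s t

theorem midU_latArr (a : TV →₀ ℝ) (s t : TV → ℤ) :
    |latArr a (midU s t) - (latArr a s + latArr a t) / 2| ≤ (∑ u ∈ a.support, |a u|) / 2 :=
  midU_round a.support a s t

end ht

/-- house rule: the equation lemmas of the defs of this file are generated HERE (not in two importers) -/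
theorem mid_weight_eqns_cite : True := by
  have := @MidLip.eq_1.{0}; have := @midEn.eq_1.{0}; have := @midCnt.eq_1.{0}; have := @midY.eq_1.{0}
  trivial

end Claimed.Agent.R291
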