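import Claimed.Agent.R291.Tool.Midpoint

/-!
# Row 291 (S0539), Tool/MidAmp : MIDPOINT AMPLIFICATION (paper Sec. 3.2, Lemma 3.5)      (owner helper23; prefix `mdp_`, defs `mdp*`, `MdpAmp`, `MdpAmp0`)      model free

TEX[lem:midpoint-amplification]: a finite weighted family `Ω` of integer arrays, cut into at most `J` classes; two arrays of the same class have both rounded
midpoints in `Ω`, with `W s * W t ≤ W (midL s t) * W (midU s t)`; a statistic `Y` is midpoint-affine up to the error `M`; every class has central mass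
`≥ c * Z` in `{|Y| ≤ M}`.  THEN `μ(|Y| ≥ t M) ≤ 4 exp (- a t)` and `E |Y|^k ≤ C_k M^k` with `a = mdpRate J c`, `C_k = mdpC J c k` depending on `J, c, k` ONLY.
All sums are unnormalised (`Z = ∑ s ∈ Ω, W s` on the right).   Uses `mid_ineq` of helper164.
ANY index type `ι` (NO `Fintype`): `mdp_ineq_any` = `mid_ineq` for finite sets of arrays on an arbitrary index type, so `Ω = htCfg A b : Finset (ℤ × ℤ → ℤ)` (total heights of Defs/Ht) is allowed verbatim.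
-/

set_option autoImplicit false

namespace Claimed.Agent.R291

open Finset

/-- finitely many arrays on ANY index type are separated by finitely many coordinates -/
theorem mdp_sep {ι : Type*} (X : Finset (ι → ℤ)) : ∃ I : Finset ι, ∀ s ∈ X, ∀ t ∈ X, (∀ i ∈ I, s i = t i) → s = t := by
  classical
  have h1 : ∀ p : (ι → ℤ) × (ι → ℤ), ∃ J : Finset ι, (∀ i ∈ J, p.1 i = p.2 i) → p.1 = p.2 := by
    intro p
    by_cases hp : p.1 = p.2
    · exact ⟨∅, fun _ => hp⟩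
    · obtain ⟨i, hi⟩ := Function.ne_iff.mp hp
      exact ⟨{i}, fun h => absurd (h i (mem_singleton_self i)) hi⟩
  choose J hJ using h1
  refine ⟨(X ×ˢ X).biUnion J, fun s hs t ht h => hJ (s, t) fun i hi => h i ?_⟩
  exact mem_biUnion.mpr ⟨(s, t), mem_product.mpr ⟨hs, ht⟩, hi⟩

/-- **Discrete midpoint inequality on ANY index type** (e.g. total heights `ℤ × ℤ → ℤ`): restriction to finitely many separating coordinates + `mid_ineq` -/
theorem mdp_ineq_any {ι : Type*} (𝒮 𝒯 𝒰 𝒱 : Finset (ι → ℤ)) (f g u v : (ι → ℤ) → ℝ)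
    (hf : ∀ s ∈ 𝒮, 0 ≤ f s) (hg : ∀ t ∈ 𝒯, 0 ≤ g t) (hu : ∀ a ∈ 𝒰, 0 ≤ u a) (hv : ∀ b ∈ 𝒱, 0 ≤ v b)
    (hyp : ∀ s ∈ 𝒮, ∀ t ∈ 𝒯, midL s t ∈ 𝒰 ∧ midU s t ∈ 𝒱 ∧ f s * g t ≤ u (midL s t) * v (midU s t)) :
    (∑ s ∈ 𝒮, f s) * (∑ t ∈ 𝒯, g t) ≤ (∑ a ∈ 𝒰, u a) * (∑ b ∈ 𝒱, v b) := by
  classical
  set X := 𝒮 ∪ 𝒯 ∪ 𝒰 ∪ 𝒱 with hX
  obtain ⟨I, hI⟩ := mdp_sep X
  set r : (ι → ℤ) → (I → ℤ) := fun s i => s i.1 with hr
  have hinj : Set.InjOn r (X : Set (ι → ℤ)) := by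
    intro s hs t ht hst
    exact hI s hs t ht fun i hi => congrFun hst ⟨i, hi⟩
  set e : (I → ℤ) → (ι → ℤ) := Function.invFunOn r (X : Set (ι → ℤ)) with he
  have hinv : ∀ s ∈ X, e (r s) = s := fun s hs => hinj.leftInvOn_invFunOn hs
  have hS : 𝒮 ⊆ X := fun s hs => by simp [hX, hs]
  have hT : 𝒯 ⊆ X := fun s hs => by simp [hX, hs]
  have hU : 𝒰 ⊆ X := fun s hs => by simp [hX, hs]
  have hV : 𝒱 ⊆ X := fun s hs => by simp [hX, hs]
  have hsum : ∀ (Y : Finset (ι → ℤ)) (F : (ι → ℤ) → ℝ), Y ⊆ X → ∑ s' ∈ Y.image r, F (e s') = ∑ s ∈ Y, F s := by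
    intro Y F hY
    rw [sum_image (fun a ha b hb hab => hinj (hY ha) (hY hb) hab)]
    exact sum_congr rfl fun s hs => by rw [hinv s (hY hs)]
  have hmain := mid_ineq (𝒮.image r) (𝒯.image r) (𝒰.image r) (𝒱.image r) (fun s' => f (e s')) (fun s' => g (e s')) (fun s' => u (e s'))
    (fun s' => v (e s'))
    (by intro s' hs'; obtain ⟨s, hs, rfl⟩ := mem_image.mp hs'; rw [hinv s (hS hs)]; exact hf s hs)
    (by intro s' hs'; obtain ⟨s, hs, rfl⟩ := mem_image.mp hs'; rw [hinv s (hT hs)]; exact hg s hs)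
    (by intro s' hs'; obtain ⟨s, hs, rfl⟩ := mem_image.mp hs'; rw [hinv s (hU hs)]; exact hu s hs)
    (by intro s' hs'; obtain ⟨s, hs, rfl⟩ := mem_image.mp hs'; rw [hinv s (hV hs)]; exact hv s hs)
    (by
      intro s' hs' t' ht'
      obtain ⟨s, hs, rfl⟩ := mem_image.mp hs'
      obtain ⟨t, ht, rfl⟩ := mem_image.mp ht'
      obtain ⟨a1, a2, a3⟩ := hyp s hs t ht
      have e1 : midL (r s) (r t) = r (midL s t) := rfl
      have e2 : midU (r s) (r t) = r (midU s t) := rfl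
      rw [e1, e2]
      refine ⟨mem_image_of_mem r a1, mem_image_of_mem r a2, ?_⟩
      rw [hinv s (hS hs), hinv t (hT ht), hinv _ (hU a1), hinv _ (hV a2)]
      exact a3)
  rwa [hsum 𝒮 f hS, hsum 𝒯 g hT, hsum 𝒰 u hU, hsum 𝒱 v hV] at hmain

section amp
variable {ι κ : Type*} [DecidableEq κ]

/-- INTERNAL form of the hypotheses (premises for ALL pairs of `Ω`); consumers use `MdpAmp` at the end of the file -/
structure MdpAmp0 (Ω : Finset (ι → ℤ)) (W Y : (ι → ℤ) → ℝ) (cls : (ι → ℤ) → κ) (J : ℕ) (c M : ℝ) : Prop where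
  W_nn : ∀ s ∈ Ω, 0 ≤ W s
  M_pos : 0 < M
  c_pos : 0 < c
  card_le : (Ω.image cls).card ≤ J
  mid : ∀ s ∈ Ω, ∀ t ∈ Ω, cls s = cls t → midL s t ∈ Ω ∧ midU s t ∈ Ω ∧ W s * W t ≤ W (midL s t) * W (midU s t)
  rnd : ∀ s ∈ Ω, ∀ t ∈ Ω, cls s = cls t → |Y (midL s t) - (Y s + Y t) / 2| ≤ M ∧ |Y (midU s t) - (Y s + Y t) / 2| ≤ M
  cen : ∀ s₀ ∈ Ω, 0 < W s₀ → c * ∑ s ∈ Ω, W s ≤ ∑ s ∈ Ω with cls s = cls s₀ ∧ |Y s| ≤ M, W s

/-- mass of the window `I_j = [(2^j - 4) M, (2^(j+1) + 4) M]` -/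
noncomputable def mdpP (Ω : Finset (ι → ℤ)) (W Y : (ι → ℤ) → ℝ) (M : ℝ) (j : ℕ) : ℝ :=
  ∑ s ∈ Ω with (2 ^ j - 4) * M ≤ Y s ∧ Y s ≤ (2 ^ (j + 1) + 4) * M, W s

/-- mass of the upper tail `{2^j M ≤ Y}` -/
noncomputable def mdpT (Ω : Finset (ι → ℤ)) (W Y : (ι → ℤ) → ℝ) (M : ℝ) (j : ℕ) : ℝ := ∑ s ∈ Ω with 2 ^ j * M ≤ Y s, W s

variable {Ω : Finset (ι → ℤ)} {W Y : (ι → ℤ) → ℝ} {cls : (ι → ℤ) → κ} {J : ℕ} {c M : ℝ}

theorem MdpAmp0.neg (h : MdpAmp0 Ω W Y cls J c M) : MdpAmp0 Ω W (fun s => - Y s) cls J c M where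
  W_nn := h.W_nn
  M_pos := h.M_pos
  c_pos := h.c_pos
  card_le := h.card_le
  mid := h.mid
  rnd := by
    intro s hs t ht hst
    obtain ⟨h1, h2⟩ := h.rnd s hs t ht hst
    constructor
    · rw [show - Y (midL s t) - (- Y s + - Y t) / 2 = - (Y (midL s t) - (Y s + Y t) / 2) by ring, abs_neg]; exact h1
    · rw [show - Y (midU s t) - (- Y s + - Y t) / 2 = - (Y (midU s t) - (Y s + Y t) / 2) by ring, abs_neg]; exact h2
  cen := by
    intro s₀ hs₀ hW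
    simpa only [abs_neg] using h.cen s₀ hs₀ hW

theorem mdpP_nonneg (hW : ∀ s ∈ Ω, 0 ≤ W s) (j : ℕ) : 0 ≤ mdpP Ω W Y M j := sum_nonneg fun s hs => hW s (mem_filter.mp hs).1
theorem mdpT_nonneg (hW : ∀ s ∈ Ω, 0 ≤ W s) (j : ℕ) : 0 ≤ mdpT Ω W Y M j := sum_nonneg fun s hs => hW s (mem_filter.mp hs).1

/-- the recursion (3.11) `p_{j+1} ≤ (J / c) p_j ^ 2`, unnormalised; no pigeonhole: sum over the classes -/
theorem mdp_amp_rec (h : MdpAmp0 Ω W Y cls J c M) (j : ℕ) :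
    c * (∑ s ∈ Ω, W s) * mdpP Ω W Y M (j + 1) ≤ J * (mdpP Ω W Y M j) ^ 2 := by
  classical
  unfold mdpP
  set Z := ∑ s ∈ Ω, W s with hZ
  set A := Ω.filter (fun s => (2 ^ (j + 1) - 4) * M ≤ Y s ∧ Y s ≤ (2 ^ (j + 1 + 1) + 4) * M) with hA
  set B := Ω.filter (fun s => (2 ^ j - 4) * M ≤ Y s ∧ Y s ≤ (2 ^ (j + 1) + 4) * M) with hB
  have hM := h.M_pos
  have hBnn : ∀ s ∈ B, 0 ≤ W s := fun s hs => h.W_nn s (mem_filter.mp hs).1
  have key : ∀ k ∈ Ω.image cls, c * Z * ∑ s ∈ A with cls s = k, W s ≤ (∑ s ∈ B, W s) ^ 2 := by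
    intro k _
    by_cases hz : ∀ s ∈ A.filter (fun s => cls s = k), W s = 0
    · rw [sum_eq_zero hz, mul_zero]; positivity
    · push Not at hz
      obtain ⟨s₀, hs₀, hW₀⟩ := hz
      have hs₀A := (mem_filter.mp hs₀).1
      have hs₀k := (mem_filter.mp hs₀).2
      have hs₀Ω := (mem_filter.mp hs₀A).1
      have hpos : 0 < W s₀ := lt_of_le_of_ne (h.W_nn _ hs₀Ω) (Ne.symm hW₀)
      have hcen := h.cen s₀ hs₀Ω hpos
      have hT0 : 0 ≤ ∑ s ∈ A with cls s = k, W s := sum_nonneg fun s hs => h.W_nn s (mem_filter.mp (mem_filter.mp hs).1).1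
      have hmid := mdp_ineq_any (A.filter fun s => cls s = k) (Ω.filter fun s => cls s = cls s₀ ∧ |Y s| ≤ M) B B W W W W
        (fun s hs => h.W_nn s (mem_filter.mp (mem_filter.mp hs).1).1) (fun s hs => h.W_nn s (mem_filter.mp hs).1) hBnn hBnn (by
          intro s hs t ht
          obtain ⟨hsA, hsk⟩ := mem_filter.mp hs
          obtain ⟨hsΩ, hs1, hs2⟩ := mem_filter.mp hsA
          obtain ⟨htΩ, htk, htM⟩ := mem_filter.mp ht
          have hst : cls s = cls t := by rw [hsk, htk, hs₀k]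
          obtain ⟨m1, m2, m3⟩ := h.mid s hsΩ t htΩ hst
          obtain ⟨r1, r2⟩ := h.rnd s hsΩ t htΩ hst
          rw [abs_le] at htM r1 r2
          have e1 : (2 : ℝ) ^ (j + 1) = 2 * 2 ^ j := by ring
          have e2 : (2 : ℝ) ^ (j + 1 + 1) = 4 * 2 ^ j := by ring
          rw [e1] at hs1
          rw [e2] at hs2
          refine ⟨mem_filter.mpr ⟨m1, ?_, ?_⟩, mem_filter.mpr ⟨m2, ?_, ?_⟩, m3⟩
          · linarith [r1.1, htM.1]
          · rw [e1]; linarith [r1.2, htM.2]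
          · linarith [r2.1, htM.1]
          · rw [e1]; linarith [r2.2, htM.2])
      calc c * Z * ∑ s ∈ A with cls s = k, W s
          ≤ (∑ s ∈ Ω with cls s = cls s₀ ∧ |Y s| ≤ M, W s) * ∑ s ∈ A with cls s = k, W s := mul_le_mul_of_nonneg_right hcen hT0
        _ = (∑ s ∈ A with cls s = k, W s) * (∑ s ∈ Ω with cls s = cls s₀ ∧ |Y s| ≤ M, W s) := mul_comm _ _
        _ ≤ (∑ s ∈ B, W s) ^ 2 := by rw [sq]; exact hmid
  have hfib : ∑ k ∈ Ω.image cls, ∑ s ∈ A with cls s = k, W s = ∑ s ∈ A, W s :=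
    sum_fiberwise_of_maps_to (fun s hs => mem_image_of_mem cls (mem_filter.mp hs).1) W
  calc c * Z * ∑ s ∈ A, W s = ∑ k ∈ Ω.image cls, c * Z * ∑ s ∈ A with cls s = k, W s := by rw [← hfib, mul_sum]
    _ ≤ ∑ _k ∈ Ω.image cls, (∑ s ∈ B, W s) ^ 2 := sum_le_sum key
    _ = ((Ω.image cls).card : ℝ) * (∑ s ∈ B, W s) ^ 2 := by rw [sum_const, nsmul_eq_mul]
    _ ≤ J * (∑ s ∈ B, W s) ^ 2 := mul_le_mul_of_nonneg_right (by exact_mod_cast h.card_le) (sq_nonneg _)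


/-- the windows `I_3, I_5, I_7, ...` are pairwise disjoint -/
theorem mdp_amp_disj (hM : 0 < M) {y : ℝ} {i i' : ℕ} (hi : (2 ^ (3 + 2 * i) - 4) * M ≤ y ∧ y ≤ (2 ^ (3 + 2 * i + 1) + 4) * M)
    (hi' : (2 ^ (3 + 2 * i') - 4) * M ≤ y ∧ y ≤ (2 ^ (3 + 2 * i' + 1) + 4) * M) : i = i' := by
  have aux : ∀ a b : ℕ, a < b → (2 ^ (3 + 2 * b) - 4) * M ≤ y → y ≤ (2 ^ (3 + 2 * a + 1) + 4) * M → False := by
    intro a b hab h1 h2
    have h3 : ((2 : ℝ) ^ (3 + 2 * b) - 4) ≤ (2 ^ (3 + 2 * a + 1) + 4) := le_of_mul_le_mul_right (h1.trans h2) hM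
    have h4 : (2 : ℝ) ^ (3 + 2 * a + 2) ≤ 2 ^ (3 + 2 * b) := pow_le_pow_right₀ (by norm_num) (by omega)
    have h5 : (2 : ℝ) ^ 4 ≤ 2 ^ (3 + 2 * a + 1) := pow_le_pow_right₀ (by norm_num) (by omega)
    have h6 : (2 : ℝ) ^ (3 + 2 * a + 2) = 2 * 2 ^ (3 + 2 * a + 1) := by ring
    norm_num at h5
    linarith
  rcases lt_trichotomy i i' with hlt | heq | hgt
  · exact (aux i i' hlt hi'.1 hi.2).elim
  · exact heq
  · exact (aux i' i hgt hi.1 hi'.2).elim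

/-- total mass of the disjoint windows -/
theorem mdp_amp_sum_le (hW : ∀ s ∈ Ω, 0 ≤ W s) (hM : 0 < M) (N : ℕ) : ∑ i ∈ range N, mdpP Ω W Y M (3 + 2 * i) ≤ ∑ s ∈ Ω, W s := by
  unfold mdpP
  simp_rw [sum_filter]
  rw [sum_comm]
  apply sum_le_sum
  intro s hs
  have h0 := hW s hs
  by_cases hex : ∃ i ∈ range N, (2 ^ (3 + 2 * i) - 4) * M ≤ Y s ∧ Y s ≤ (2 ^ (3 + 2 * i + 1) + 4) * M
  · obtain ⟨i, hi, hc⟩ := hex
    rw [sum_eq_single_of_mem i hi, if_pos hc]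
    intro b _ hb
    rw [if_neg]
    intro hc'
    exact hb (mdp_amp_disj hM hc' hc)
  · push Not at hex
    rw [sum_eq_zero]
    · exact h0
    · intro i hi
      rw [if_neg]
      intro hc
      exact absurd hc.2 (not_le.mpr (hex i hi hc.1))

/-- some window among the first `N` odd ones is light -/
theorem mdp_amp_light (hW : ∀ s ∈ Ω, 0 ≤ W s) (hM : 0 < M) {N : ℕ} (hN : 0 < N) : ∃ i < N, (N : ℝ) * mdpP Ω W Y M (3 + 2 * i) ≤ ∑ s ∈ Ω, W s := by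
  by_contra hcon
  push Not at hcon
  have h1 := mdp_amp_sum_le (Y := Y) hW hM N
  have h2 : ∑ _i ∈ range N, (∑ s ∈ Ω, W s) < ∑ i ∈ range N, (N : ℝ) * mdpP Ω W Y M (3 + 2 * i) :=
    sum_lt_sum_of_nonempty (nonempty_range_iff.mpr hN.ne') (fun i hi => hcon i (mem_range.mp hi))
  rw [sum_const, card_range, nsmul_eq_mul, ← mul_sum] at h2
  have h3 : (0 : ℝ) < N := by exact_mod_cast hN
  exact absurd (lt_of_mul_lt_mul_left h2 h3.le) (not_lt.mpr h1)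

/-- the scale after which the windows decay doubly exponentially -/
noncomputable def mdpL (J : ℕ) (c : ℝ) : ℕ := 3 + 2 * ⌈2 * (J : ℝ) / c⌉₊

/-- `J / c ≥ 1` as soon as the total mass is positive -/
theorem mdp_amp_K_ge (h : MdpAmp0 Ω W Y cls J c M) (hZ : 0 < ∑ s ∈ Ω, W s) : 1 ≤ (J : ℝ) / c := by
  classical
  obtain ⟨s₀, hs₀, hW₀⟩ : ∃ s ∈ Ω, 0 < W s := by
    by_contra hcon
    push Not at hcon
    exact absurd (sum_nonpos hcon) (not_le.mpr hZ)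
  have h1 := h.cen s₀ hs₀ hW₀
  have h2 : ∑ s ∈ Ω with cls s = cls s₀ ∧ |Y s| ≤ M, W s ≤ ∑ s ∈ Ω, W s :=
    sum_le_sum_of_subset_of_nonneg (filter_subset _ _) (fun s hs _ => h.W_nn s hs)
  have h3 : c ≤ 1 := by
    have : c * ∑ s ∈ Ω, W s ≤ 1 * ∑ s ∈ Ω, W s := by rw [one_mul]; exact h1.trans h2
    exact le_of_mul_le_mul_right this hZ
  have h4 : 1 ≤ J := by
    have : 0 < (Ω.image cls).card := card_pos.mpr ⟨cls s₀, mem_image_of_mem cls hs₀⟩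
    exact this.trans_le h.card_le
  have h5 : (1 : ℝ) ≤ J := by exact_mod_cast h4
  rw [le_div_iff₀ h.c_pos]
  linarith

/-- doubly exponential decay of the windows beyond `mdpL J c` -/
theorem mdp_amp_win (h : MdpAmp0 Ω W Y cls J c M) (hZ : 0 < ∑ s ∈ Ω, W s) (m : ℕ) :
    (J : ℝ) / c * mdpP Ω W Y M (mdpL J c + m) ≤ (1 / 2) ^ (2 ^ m) * ∑ s ∈ Ω, W s := by
  set Z := ∑ s ∈ Ω, W s with hZdef
  set K : ℝ := (J : ℝ) / c with hK
  have hK1 : 1 ≤ K := mdp_amp_K_ge h hZ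
  have hc := h.c_pos
  set N := ⌈2 * (J : ℝ) / c⌉₊ with hN
  have hN2 : 2 * K ≤ N := by
    have h0 : 2 * (J : ℝ) / c ≤ N := Nat.le_ceil (2 * (J : ℝ) / c)
    rw [hK, ← mul_div_assoc]; exact h0
  have hN0 : 0 < N := by
    have : (0 : ℝ) < N := by linarith
    exact_mod_cast this
  obtain ⟨i, hi, hli⟩ := mdp_amp_light (Y := Y) h.W_nn h.M_pos hN0
  have hP0 : ∀ j, 0 ≤ mdpP Ω W Y M j := mdpP_nonneg h.W_nn
  -- iteration from `j₀ = 3 + 2 i`
  have hit : ∀ r : ℕ, K * mdpP Ω W Y M (3 + 2 * i + r) ≤ (1 / 2) ^ (2 ^ r) * Z := by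
    intro r
    induction r with
    | zero =>
      have h1 : 2 * K * mdpP Ω W Y M (3 + 2 * i) ≤ Z := (mul_le_mul_of_nonneg_right hN2 (hP0 _)).trans hli
      simp only [add_zero, pow_zero, pow_one]
      linarith
    | succ r ih =>
      have hrec := mdp_amp_rec h (3 + 2 * i + r)
      rw [← hZdef] at hrec
      have h1 : Z * mdpP Ω W Y M (3 + 2 * i + r + 1) ≤ K * (mdpP Ω W Y M (3 + 2 * i + r)) ^ 2 := by
        rw [hK, div_mul_eq_mul_div, le_div_iff₀ hc]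
        linarith
      have h2 : (K * mdpP Ω W Y M (3 + 2 * i + r)) ^ 2 ≤ ((1 / 2) ^ (2 ^ r) * Z) ^ 2 :=
        pow_le_pow_left₀ (mul_nonneg (by linarith) (hP0 _)) ih 2
      have h3 : Z * (K * mdpP Ω W Y M (3 + 2 * i + r + 1)) ≤ Z * ((1 / 2) ^ (2 ^ (r + 1)) * Z) := by
        calc Z * (K * mdpP Ω W Y M (3 + 2 * i + r + 1)) = K * (Z * mdpP Ω W Y M (3 + 2 * i + r + 1)) := by ring
          _ ≤ K * (K * (mdpP Ω W Y M (3 + 2 * i + r)) ^ 2) := mul_le_mul_of_nonneg_left h1 (by linarith)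
          _ = (K * mdpP Ω W Y M (3 + 2 * i + r)) ^ 2 := by ring
          _ ≤ ((1 / 2) ^ (2 ^ r) * Z) ^ 2 := h2
          _ = Z * ((1 / 2) ^ (2 ^ (r + 1)) * Z) := by rw [pow_succ 2 r, pow_mul]; ring
      exact le_of_mul_le_mul_left h3 hZ
  have hidx : mdpL J c + m = 3 + 2 * i + (2 * (N - i) + m) := by unfold mdpL; omega
  rw [hidx]
  refine (hit _).trans (mul_le_mul_of_nonneg_right ?_ hZ.le)
  exact pow_le_pow_of_le_one (by norm_num) (by norm_num) (Nat.pow_le_pow_right (by norm_num) (by omega))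

/-- one dyadic step of the tail -/
theorem mdp_amp_T_step (hW : ∀ s ∈ Ω, 0 ≤ W s) (hM : 0 < M) (k : ℕ) : mdpT Ω W Y M k ≤ mdpP Ω W Y M k + mdpT Ω W Y M (k + 1) := by
  unfold mdpT mdpP
  rw [sum_filter, sum_filter, sum_filter, ← sum_add_distrib]
  apply sum_le_sum
  intro s hs
  have h0 := hW s hs
  by_cases h1 : 2 ^ k * M ≤ Y s
  · by_cases h2 : 2 ^ (k + 1) * M ≤ Y s
    · rw [if_pos h1, if_pos h2]; split_ifs <;> linarith
    · rw [if_pos h1, if_neg h2, if_pos ⟨by linarith, by linarith⟩]; linarith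
  · rw [if_neg h1]; split_ifs <;> linarith

/-- the tail vanishes far out -/
theorem mdp_amp_T_zero (Ω : Finset (ι → ℤ)) (W Y : (ι → ℤ) → ℝ) (hM : 0 < M) : ∃ n : ℕ, ∀ k, n ≤ k → mdpT Ω W Y M k = 0 := by
  obtain ⟨R, hR⟩ := (Ω.image Y).exists_le
  obtain ⟨n, hn⟩ := pow_unbounded_of_one_lt (R / M) (one_lt_two : (1 : ℝ) < 2)
  refine ⟨n, fun k hk => ?_⟩
  unfold mdpT
  rw [filter_false_of_mem, sum_empty]
  intro s hs
  rw [not_le]
  have h1 : Y s ≤ R := hR _ (mem_image_of_mem Y hs)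
  have h2 : R < 2 ^ n * M := (div_lt_iff₀ hM).mp hn
  have h3 : (2 : ℝ) ^ n ≤ 2 ^ k := pow_le_pow_right₀ (by norm_num) hk
  have h4 : (2 : ℝ) ^ n * M ≤ 2 ^ k * M := mul_le_mul_of_nonneg_right h3 hM.le
  linarith

/-- doubly exponential decay of the upper tail at dyadic levels -/
theorem mdp_amp_T_le (h : MdpAmp0 Ω W Y cls J c M) (hZ : 0 < ∑ s ∈ Ω, W s) (m : ℕ) :
    mdpT Ω W Y M (mdpL J c + m) ≤ 2 * (1 / 2) ^ (2 ^ m) * ∑ s ∈ Ω, W s := by
  set Z := ∑ s ∈ Ω, W s with hZdef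
  have hK1 : 1 ≤ (J : ℝ) / c := mdp_amp_K_ge h hZ
  have hwin : ∀ m, mdpP Ω W Y M (mdpL J c + m) ≤ (1 / 2) ^ (2 ^ m) * Z := by
    intro m
    have h1 := mdp_amp_win h hZ m
    have h2 : 1 * mdpP Ω W Y M (mdpL J c + m) ≤ (J : ℝ) / c * mdpP Ω W Y M (mdpL J c + m) :=
      mul_le_mul_of_nonneg_right hK1 (mdpP_nonneg h.W_nn _)
    linarith
  obtain ⟨n, hn⟩ := mdp_amp_T_zero Ω W Y h.M_pos
  have main : ∀ d m : ℕ, n ≤ mdpL J c + m + d → mdpT Ω W Y M (mdpL J c + m) ≤ 2 * (1 / 2) ^ (2 ^ m) * Z := by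
    intro d
    induction d with
    | zero =>
      intro m hm
      rw [hn (mdpL J c + m) hm]; positivity
    | succ d ih =>
      intro m hm
      have h1 := mdp_amp_T_step (Y := Y) h.W_nn h.M_pos (mdpL J c + m)
      have h2 := ih (m + 1) (by omega)
      have h3 := hwin m
      have h4 : ((1 : ℝ) / 2) ^ (2 ^ (m + 1)) ≤ 1 / 2 * (1 / 2) ^ (2 ^ m) := by
        rw [pow_succ 2 m, pow_mul, sq]
        apply mul_le_mul_of_nonneg_right _ (by positivity)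
        calc ((1 : ℝ) / 2) ^ (2 ^ m) ≤ (1 / 2) ^ 1 := pow_le_pow_of_le_one (by norm_num) (by norm_num) Nat.one_le_two_pow
          _ = 1 / 2 := pow_one _
      have h5 : ((1 : ℝ) / 2) ^ (2 ^ (m + 1)) * Z ≤ 1 / 2 * (1 / 2) ^ (2 ^ m) * Z := mul_le_mul_of_nonneg_right h4 hZ.le
      rw [add_assoc] at h1
      nlinarith
  exact main n m (by omega)

/-- two-sided dyadic tail: `μ(|Y| ≥ 2^(L+m) M) ≤ 4 * 2^(-2^m)` -/
theorem mdp_amp0_dyadic (h : MdpAmp0 Ω W Y cls J c M) (m : ℕ) :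
    ∑ s ∈ Ω with 2 ^ (mdpL J c + m) * M ≤ |Y s|, W s ≤ 4 * (1 / 2) ^ (2 ^ m) * ∑ s ∈ Ω, W s := by
  have hle : ∑ s ∈ Ω with 2 ^ (mdpL J c + m) * M ≤ |Y s|, W s ≤ ∑ s ∈ Ω, W s :=
    sum_le_sum_of_subset_of_nonneg (filter_subset _ _) (fun s hs _ => h.W_nn s hs)
  rcases (sum_nonneg h.W_nn).eq_or_lt with hZ | hZ
  · rw [← hZ, mul_zero]; rw [← hZ] at hle; exact hle
  · have h1 := mdp_amp_T_le h hZ m
    have h2 := mdp_amp_T_le h.neg hZ m
    have h3 : ∑ s ∈ Ω with 2 ^ (mdpL J c + m) * M ≤ |Y s|, W s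
        ≤ mdpT Ω W Y M (mdpL J c + m) + mdpT Ω W (fun s => - Y s) M (mdpL J c + m) := by
      unfold mdpT
      rw [sum_filter, sum_filter, sum_filter, ← sum_add_distrib]
      apply sum_le_sum
      intro s hs
      have h0 := h.W_nn s hs
      by_cases hc : 2 ^ (mdpL J c + m) * M ≤ |Y s|
      · rw [if_pos hc]
        rcases le_abs.mp hc with hp | hp
        · rw [if_pos hp]; split_ifs <;> linarith
        · rw [if_pos hp]; split_ifs <;> linarith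
      · rw [if_neg hc]; split_ifs <;> linarith
    linarith

/-- the exponential rate `a_* = log 2 * 2^(-L-1)` -/
noncomputable def mdpRate (J : ℕ) (c : ℝ) : ℝ := Real.log 2 / 2 ^ (mdpL J c + 1)

theorem mdpRate_pos (J : ℕ) (c : ℝ) : 0 < mdpRate J c := div_pos (Real.log_pos one_lt_two) (by positivity)

/-- **Amplification, tail form** (3.10 left), with `≥` : `μ(|Y| ≥ t M) ≤ 4 exp (- a t)`.   TEX[lem:midpoint-amplification] -/
theorem mdp_amp0_tail (h : MdpAmp0 Ω W Y cls J c M) {t : ℝ} (ht : 0 ≤ t) :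
    ∑ s ∈ Ω with t * M ≤ |Y s|, W s ≤ 4 * Real.exp (-(mdpRate J c * t)) * ∑ s ∈ Ω, W s := by
  set L := mdpL J c with hL
  have hZ0 : 0 ≤ ∑ s ∈ Ω, W s := sum_nonneg h.W_nn
  have hle : ∑ s ∈ Ω with t * M ≤ |Y s|, W s ≤ ∑ s ∈ Ω, W s :=
    sum_le_sum_of_subset_of_nonneg (filter_subset _ _) (fun s hs _ => h.W_nn s hs)
  have hlog : 0 < Real.log 2 := Real.log_pos one_lt_two
  have hhalf : (1 : ℝ) / 2 = Real.exp (- Real.log 2) := by rw [Real.exp_neg, Real.exp_log two_pos]; norm_num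
  by_cases ht2 : t < 2 ^ L
  · have h1 : mdpRate J c * t ≤ Real.log 2 := by
      unfold mdpRate
      rw [div_mul_eq_mul_div, div_le_iff₀ (by positivity)]
      apply mul_le_mul_of_nonneg_left _ hlog.le
      rw [← hL, pow_succ]
      have : (0 : ℝ) < 2 ^ L := by positivity
      linarith
    have h2 : 1 / 2 ≤ Real.exp (-(mdpRate J c * t)) := by
      rw [hhalf]; exact Real.exp_le_exp.mpr (by linarith)
    nlinarith
  · push Not at ht2
    set n := ⌊t⌋₊ with hn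
    have hn2 : t < n + 1 := Nat.lt_floor_add_one t
    have hLn : 2 ^ L ≤ n := Nat.le_floor (by push_cast; exact ht2)
    have hn0 : n ≠ 0 := by
      have : 0 < 2 ^ L := by positivity
      omega
    have hk1 : 2 ^ (Nat.log 2 n) ≤ n := Nat.pow_log_le_self 2 hn0
    have hk2 : n < 2 ^ (Nat.log 2 n + 1) := Nat.lt_pow_succ_log_self (by norm_num) n
    have hLk : L ≤ Nat.log 2 n := (Nat.le_log_iff_pow_le (by norm_num) hn0).mpr hLn
    obtain ⟨m, hm⟩ : ∃ m, Nat.log 2 n = L + m := Nat.exists_eq_add_of_le hLk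
    rw [hm] at hk1 hk2
    have hd := mdp_amp0_dyadic h m
    rw [← hL] at hd
    have hk1' : (2 : ℝ) ^ (L + m) ≤ t := by
      have h1 : ((2 ^ (L + m) : ℕ) : ℝ) ≤ n := by exact_mod_cast hk1
      have h2 : (n : ℝ) ≤ t := Nat.floor_le ht
      push_cast at h1
      linarith
    have hk2' : t ≤ (2 : ℝ) ^ (L + m + 1) := by
      have h1 : ((n + 1 : ℕ) : ℝ) ≤ ((2 ^ (L + m + 1) : ℕ) : ℝ) := by exact_mod_cast hk2
      push_cast at h1
      linarith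
    have hsub : ∑ s ∈ Ω with t * M ≤ |Y s|, W s ≤ ∑ s ∈ Ω with 2 ^ (L + m) * M ≤ |Y s|, W s := by
      apply sum_le_sum_of_subset_of_nonneg
      · intro s hs
        obtain ⟨h1, h2⟩ := mem_filter.mp hs
        exact mem_filter.mpr ⟨h1, (mul_le_mul_of_nonneg_right hk1' h.M_pos.le).trans h2⟩
      · intro s hs _
        exact h.W_nn s (mem_filter.mp hs).1
    have he : ((1 : ℝ) / 2) ^ (2 ^ m) ≤ Real.exp (-(mdpRate J c * t)) := by
      rw [hhalf, ← Real.exp_nat_mul]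
      apply Real.exp_le_exp.mpr
      have h1 : mdpRate J c * t ≤ Real.log 2 * 2 ^ m := by
        unfold mdpRate
        rw [← hL, div_mul_eq_mul_div, div_le_iff₀ (by positivity), mul_assoc]
        apply mul_le_mul_of_nonneg_left _ hlog.le
        calc t ≤ (2 : ℝ) ^ (L + m + 1) := hk2'
          _ = 2 ^ m * 2 ^ (L + 1) := by ring
      push_cast
      linarith
    calc ∑ s ∈ Ω with t * M ≤ |Y s|, W s ≤ 4 * (1 / 2) ^ (2 ^ m) * ∑ s ∈ Ω, W s := hsub.trans hd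
      _ ≤ 4 * Real.exp (-(mdpRate J c * t)) * ∑ s ∈ Ω, W s := by gcongr

/-- tail form with the strict inequality of the paper -/
theorem mdp_amp0_tail_lt (h : MdpAmp0 Ω W Y cls J c M) {t : ℝ} (ht : 0 ≤ t) :
    ∑ s ∈ Ω with t * M < |Y s|, W s ≤ 4 * Real.exp (-(mdpRate J c * t)) * ∑ s ∈ Ω, W s := by
  refine le_trans ?_ (mdp_amp0_tail h ht)
  apply sum_le_sum_of_subset_of_nonneg
  · intro s hs
    obtain ⟨h1, h2⟩ := mem_filter.mp hs
    exact mem_filter.mpr ⟨h1, h2.le⟩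
  · intro s hs _
    exact h.W_nn s (mem_filter.mp hs).1

theorem mdp_summable (k : ℕ) {a : ℝ} (ha : 0 < a) : Summable fun n : ℕ => ((n : ℝ) + 1) ^ k * Real.exp (-(a * n)) := by
  have h1 := Real.summable_pow_mul_exp_neg_nat_mul k ha
  have h2 := ((summable_nat_add_iff 1).mpr h1).mul_left (Real.exp a)
  refine h2.congr fun n => ?_
  push_cast
  rw [mul_left_comm, ← Real.exp_add]
  congr 2
  ring

/-- the moment constant `C_k(J, c)` (for the `k`-th moment itself, not its `k`-th root) -/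
noncomputable def mdpC (J : ℕ) (c : ℝ) (k : ℕ) : ℝ := 4 * ∑' n : ℕ, ((n : ℝ) + 1) ^ k * Real.exp (-(mdpRate J c * n))

theorem mdpC_pos (J : ℕ) (c : ℝ) (k : ℕ) : 0 < mdpC J c k := by
  unfold mdpC
  have h := (mdp_summable k (mdpRate_pos J c)).tsum_pos (fun n => by positivity) 0 (by positivity)
  positivity

/-- **Amplification, moment form** (3.10 right): `E |Y|^k ≤ C_k(J, c) M^k`.   TEX[lem:midpoint-amplification] -/
theorem mdp_amp0_mom (h : MdpAmp0 Ω W Y cls J c M) (k : ℕ) :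
    ∑ s ∈ Ω, |Y s| ^ k * W s ≤ mdpC J c k * M ^ k * ∑ s ∈ Ω, W s := by
  set a := mdpRate J c with ha'
  have ha : 0 < a := mdpRate_pos J c
  have hM := h.M_pos
  have hZ0 : 0 ≤ ∑ s ∈ Ω, W s := sum_nonneg h.W_nn
  obtain ⟨R, hR⟩ : ∃ R : ℕ, ∀ s ∈ Ω, ⌊|Y s| / M⌋₊ < R := by
    obtain ⟨R, hR⟩ := (Ω.image fun s => ⌊|Y s| / M⌋₊).exists_le
    exact ⟨R + 1, fun s hs => Nat.lt_succ_of_le (hR _ (mem_image_of_mem _ hs))⟩
  have h1 : ∀ s ∈ Ω, |Y s| ^ k * W s ≤ ∑ n ∈ range R, (((n : ℝ) + 1) * M) ^ k * (if (n : ℝ) * M ≤ |Y s| then W s else 0) := by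
    intro s hs
    have h0 := h.W_nn s hs
    have hn1 : ((⌊|Y s| / M⌋₊ : ℕ) : ℝ) ≤ |Y s| / M := Nat.floor_le (by positivity)
    have hn2 : |Y s| / M < (⌊|Y s| / M⌋₊ : ℕ) + 1 := Nat.lt_floor_add_one _
    rw [le_div_iff₀ hM] at hn1
    rw [div_lt_iff₀ hM] at hn2
    have hterm : |Y s| ^ k * W s
        ≤ ((((⌊|Y s| / M⌋₊ : ℕ) : ℝ) + 1) * M) ^ k * (if ((⌊|Y s| / M⌋₊ : ℕ) : ℝ) * M ≤ |Y s| then W s else 0) := by
      rw [if_pos hn1]
      exact mul_le_mul_of_nonneg_right (pow_le_pow_left₀ (abs_nonneg _) hn2.le k) h0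
    refine hterm.trans (single_le_sum (f := fun n : ℕ => (((n : ℝ) + 1) * M) ^ k * (if (n : ℝ) * M ≤ |Y s| then W s else 0))
      (fun i _ => ?_) (mem_range.mpr (hR s hs)))
    apply mul_nonneg (by positivity)
    split_ifs
    · exact h0
    · exact le_rfl
  calc ∑ s ∈ Ω, |Y s| ^ k * W s
      ≤ ∑ s ∈ Ω, ∑ n ∈ range R, (((n : ℝ) + 1) * M) ^ k * (if (n : ℝ) * M ≤ |Y s| then W s else 0) := sum_le_sum h1
    _ = ∑ n ∈ range R, (((n : ℝ) + 1) * M) ^ k * ∑ s ∈ Ω with (n : ℝ) * M ≤ |Y s|, W s := by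
        rw [sum_comm]; apply sum_congr rfl; intro n _; rw [← mul_sum, sum_filter]
    _ ≤ ∑ n ∈ range R, (((n : ℝ) + 1) * M) ^ k * (4 * Real.exp (-(a * n)) * ∑ s ∈ Ω, W s) :=
        sum_le_sum fun n _ => mul_le_mul_of_nonneg_left (mdp_amp0_tail h (Nat.cast_nonneg n)) (by positivity)
    _ = 4 * (∑ n ∈ range R, ((n : ℝ) + 1) ^ k * Real.exp (-(a * n))) * M ^ k * ∑ s ∈ Ω, W s := by
        generalize ∑ s ∈ Ω, W s = Z
        rw [mul_sum, sum_mul, sum_mul]; apply sum_congr rfl; intro n _; rw [mul_pow]; ring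
    _ ≤ mdpC J c k * M ^ k * ∑ s ∈ Ω, W s := by
        unfold mdpC
        have := (mdp_summable k ha).sum_le_tsum (range R) (fun i _ => by positivity)
        gcongr

/-! ## Public form: all premises only on the support `{W > 0}` -/

/-- **hypotheses of TEX[lem:midpoint-amplification]** (public form).  `Ω` any finite carrier (e.g. a box), `W ≥ 0` the unnormalised weight, `cls` the class map,
`J` a bound for the number of classes; the midpoint premises are asked only for pairs of POSITIVE weight in the same class; the paper's `A / 2 ≤ M` is absorbed in `rnd`;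
`cen` = (3.9): every class which carries mass has central mass `≥ c Z`. -/
structure MdpAmp (Ω : Finset (ι → ℤ)) (W Y : (ι → ℤ) → ℝ) (cls : (ι → ℤ) → κ) (J : ℕ) (c M : ℝ) : Prop where
  W_nn : ∀ s ∈ Ω, 0 ≤ W s
  M_pos : 0 < M
  c_pos : 0 < c
  card_le : (Ω.image cls).card ≤ J
  mid : ∀ s ∈ Ω, ∀ t ∈ Ω, 0 < W s → 0 < W t → cls s = cls t → midL s t ∈ Ω ∧ midU s t ∈ Ω ∧ W s * W t ≤ W (midL s t) * W (midU s t)
  rnd : ∀ s ∈ Ω, ∀ t ∈ Ω, 0 < W s → 0 < W t → cls s = cls t →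
    |Y (midL s t) - (Y s + Y t) / 2| ≤ M ∧ |Y (midU s t) - (Y s + Y t) / 2| ≤ M
  cen : ∀ s₀ ∈ Ω, 0 < W s₀ → c * ∑ s ∈ Ω, W s ≤ ∑ s ∈ Ω with cls s = cls s₀ ∧ |Y s| ≤ M, W s

omit [DecidableEq κ] in
/-- sums against `W` do not see the zero set of `W` -/
theorem mdp_supp_sum (hW : ∀ s ∈ Ω, 0 ≤ W s) (g : (ι → ℤ) → ℝ) (p : (ι → ℤ) → Prop) [DecidablePred p] :
    ∑ s ∈ (Ω.filter fun s => 0 < W s) with p s, g s * W s = ∑ s ∈ Ω with p s, g s * W s := by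
  rw [sum_filter, sum_filter, sum_filter]
  apply sum_congr rfl
  intro s hs
  by_cases h0 : 0 < W s
  · rw [if_pos h0]
  · rw [if_neg h0]
    have : W s = 0 := le_antisymm (not_lt.mp h0) (hW s hs)
    rw [this, mul_zero, ite_self]

omit [DecidableEq κ] in
theorem mdp_supp_sum_one (hW : ∀ s ∈ Ω, 0 ≤ W s) (p : (ι → ℤ) → Prop) [DecidablePred p] :
    ∑ s ∈ (Ω.filter fun s => 0 < W s) with p s, W s = ∑ s ∈ Ω with p s, W s := by
  simpa only [one_mul] using mdp_supp_sum hW (fun _ => 1) p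

omit [DecidableEq κ] in
theorem mdp_supp_sum_all (hW : ∀ s ∈ Ω, 0 ≤ W s) (g : (ι → ℤ) → ℝ) : ∑ s ∈ Ω with 0 < W s, g s * W s = ∑ s ∈ Ω, g s * W s := by
  simpa only [filter_true] using mdp_supp_sum hW g (fun _ => True)

theorem MdpAmp.toAmp0 (h : MdpAmp Ω W Y cls J c M) : MdpAmp0 (Ω.filter fun s => 0 < W s) W Y cls J c M where
  W_nn := fun s hs => (mem_filter.mp hs).2.le
  M_pos := h.M_pos
  c_pos := h.c_pos
  card_le := (card_le_card (image_subset_image (filter_subset _ _))).trans h.card_le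
  mid := by
    intro s hs t ht hst
    obtain ⟨hs1, hs2⟩ := mem_filter.mp hs
    obtain ⟨ht1, ht2⟩ := mem_filter.mp ht
    obtain ⟨m1, m2, m3⟩ := h.mid s hs1 t ht1 hs2 ht2 hst
    have hpos : 0 < W (midL s t) * W (midU s t) := (mul_pos hs2 ht2).trans_le m3
    have hL0 := h.W_nn _ m1
    have hU0 := h.W_nn _ m2
    refine ⟨mem_filter.mpr ⟨m1, ?_⟩, mem_filter.mpr ⟨m2, ?_⟩, m3⟩
    · exact lt_of_le_of_ne hL0 (fun h0 => by rw [← h0, zero_mul] at hpos; exact lt_irrefl _ hpos)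
    · exact lt_of_le_of_ne hU0 (fun h0 => by rw [← h0, mul_zero] at hpos; exact lt_irrefl _ hpos)
  rnd := by
    intro s hs t ht hst
    obtain ⟨hs1, hs2⟩ := mem_filter.mp hs
    obtain ⟨ht1, ht2⟩ := mem_filter.mp ht
    exact h.rnd s hs1 t ht1 hs2 ht2 hst
  cen := by
    intro s₀ hs₀ hW
    have h1 := h.cen s₀ (mem_filter.mp hs₀).1 hW
    have h2 := mdp_supp_sum_all h.W_nn (fun _ => 1)
    simp only [one_mul] at h2
    rw [h2, mdp_supp_sum_one h.W_nn]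
    exact h1

/-- weakening of the constants: consumers fix `J, c, M` once, uniformly in the mesh -/
theorem MdpAmp.mono (h : MdpAmp Ω W Y cls J c M) {J' : ℕ} {c' M' : ℝ} (hJ : J ≤ J') (hc0 : 0 < c') (hc : c' ≤ c) (hM : M ≤ M') :
    MdpAmp Ω W Y cls J' c' M' where
  W_nn := h.W_nn
  M_pos := h.M_pos.trans_le hM
  c_pos := hc0
  card_le := h.card_le.trans hJ
  mid := h.mid
  rnd := fun s hs t ht h1 h2 h3 => ⟨((h.rnd s hs t ht h1 h2 h3).1).trans hM, ((h.rnd s hs t ht h1 h2 h3).2).trans hM⟩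
  cen := by
    intro s₀ hs₀ hW
    have h1 := h.cen s₀ hs₀ hW
    have h2 : c' * ∑ s ∈ Ω, W s ≤ c * ∑ s ∈ Ω, W s := mul_le_mul_of_nonneg_right hc (sum_nonneg h.W_nn)
    refine (h2.trans h1).trans ?_
    apply sum_le_sum_of_subset_of_nonneg
    · intro s hs
      obtain ⟨a1, a2, a3⟩ := mem_filter.mp hs
      exact mem_filter.mpr ⟨a1, a2, a3.trans hM⟩
    · intro s hs _
      exact h.W_nn s (mem_filter.mp hs).1

/-- **Amplification, tail form** : `μ(|Y| ≥ t M) ≤ 4 exp (- a t)`, `a = mdpRate J c`.   TEX[lem:midpoint-amplification] (3.10 left) -/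
theorem mdp_amp_tail (h : MdpAmp Ω W Y cls J c M) {t : ℝ} (ht : 0 ≤ t) :
    ∑ s ∈ Ω with t * M ≤ |Y s|, W s ≤ 4 * Real.exp (-(mdpRate J c * t)) * ∑ s ∈ Ω, W s := by
  have h1 := mdp_amp0_tail h.toAmp0 ht
  have h2 := mdp_supp_sum_all h.W_nn (fun _ => 1)
  simp only [one_mul] at h2
  rwa [h2, mdp_supp_sum_one h.W_nn] at h1

/-- the same with the strict inequality of the paper -/
theorem mdp_amp_tail_lt (h : MdpAmp Ω W Y cls J c M) {t : ℝ} (ht : 0 ≤ t) :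
    ∑ s ∈ Ω with t * M < |Y s|, W s ≤ 4 * Real.exp (-(mdpRate J c * t)) * ∑ s ∈ Ω, W s := by
  have h1 := mdp_amp0_tail_lt h.toAmp0 ht
  have h2 := mdp_supp_sum_all h.W_nn (fun _ => 1)
  simp only [one_mul] at h2
  rwa [h2, mdp_supp_sum_one h.W_nn] at h1

/-- **Amplification, moment form** : `E |Y|^k ≤ mdpC J c k * M^k`.   TEX[lem:midpoint-amplification] (3.10 right) -/
theorem mdp_amp_mom (h : MdpAmp Ω W Y cls J c M) (k : ℕ) :
    ∑ s ∈ Ω, |Y s| ^ k * W s ≤ mdpC J c k * M ^ k * ∑ s ∈ Ω, W s := by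
  have h1 := mdp_amp0_mom h.toAmp0 k
  have h2 := mdp_supp_sum_all h.W_nn (fun _ => 1)
  simp only [one_mul] at h2
  rwa [h2, mdp_supp_sum_all h.W_nn] at h1

/-- normalised moment form -/
theorem mdp_amp_mom_div (h : MdpAmp Ω W Y cls J c M) (k : ℕ) :
    (∑ s ∈ Ω, |Y s| ^ k * W s) / ∑ s ∈ Ω, W s ≤ mdpC J c k * M ^ k := by
  rcases (sum_nonneg h.W_nn).eq_or_lt with hZ | hZ
  · rw [← hZ, div_zero]
    have := mdpC_pos J c k
    have := h.M_pos
    positivity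
  · rw [div_le_iff₀ hZ]; exact mdp_amp_mom h k

omit [DecidableEq κ] in
/-- ONE class (Prop. 3.6, Prop. 3.7, (5.x) common offsets): constructor -/
theorem mdp_amp_one (W_nn : ∀ s ∈ Ω, 0 ≤ W s) (M_pos : 0 < M) (c_pos : 0 < c)
    (mid : ∀ s ∈ Ω, ∀ t ∈ Ω, 0 < W s → 0 < W t → midL s t ∈ Ω ∧ midU s t ∈ Ω ∧ W s * W t ≤ W (midL s t) * W (midU s t))
    (rnd : ∀ s ∈ Ω, ∀ t ∈ Ω, 0 < W s → 0 < W t → |Y (midL s t) - (Y s + Y t) / 2| ≤ M ∧ |Y (midU s t) - (Y s + Y t) / 2| ≤ M)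
    (cen : c * ∑ s ∈ Ω, W s ≤ ∑ s ∈ Ω with |Y s| ≤ M, W s) : MdpAmp Ω W Y (fun _ => ()) 1 c M where
  W_nn := W_nn
  M_pos := M_pos
  c_pos := c_pos
  card_le := by
    have : Ω.image (fun _ => ()) ⊆ {()} := fun x _ => mem_singleton.mpr (Subsingleton.elim _ _)
    exact (card_le_card this).trans (by simp)
  mid := fun s hs t ht h1 h2 _ => mid s hs t ht h1 h2
  rnd := fun s hs t ht h1 h2 _ => rnd s hs t ht h1 h2
  cen := by
    intro s₀ _ _
    simpa only [true_and] using cen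

end amp

/-- house rule: equation lemmas of the defs of this file are generated here -/
theorem mdp_eqns_cite : True := by
  have := @mdpP.eq_1.{0}; have := @mdpT.eq_1.{0}; have := @mdpL.eq_1; have := @mdpRate.eq_1; have := @mdpC.eq_1
  trivial

end Claimed.Agent.R291
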