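import Mathlib

/-!
# Row 291 (S0539), Tool/Midpoint : THE DISCRETE MIDPOINT INEQUALITY (paper Sec. 3.2)      (owner helper164; prefix `mid_`, defs `mid*`)      Mathlib only, model free

TEX[thm:midpoint] = Klartag-Lehec 2019 Theorem 1.4 in the form of Gozlan-Roberto-Samson-Tetali 2019 Theorem 3 (CITED by the paper, not in the box).
OWN ELEMENTARY PROOF (no entropy inequality, no quantile coupling, no logarithm):
* chain form: interleave `x (2a) = v a`, `x (2a+1) = u a`; then `u ⌊z/2⌋ * v ⌈z/2⌉ = x z * x (z+1)` and `(∑ u)(∑ v)` = (odd sum)(even sum) of `x`;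
* `mid_chain_step`: remove the top atom of `f` (if its relative mass is the smaller one) together with the same PROPORTION `θ` of the top atom of `g`; the removed pair only uses
  `x z, x (z+1)` (`z` = top sum), the rest only `x k`, `k ≤ z`, and `x z` only through the pair `(sp - 1, tq)`, which carries the factor `1 - θ`: split `x z = (1-θ) x z + θ x z`;
* `mid_combine`: proportional pieces add up by Cauchy-Schwarz;      * `mid_chain`: induction on `|S| + |T|`;      * `mid_one`: back to `u, v`;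
* `mid_box`: induction on the coordinates (boxes of `Fin n → ℤ`);      * **`mid_ineq`**: any finite index type, sums over finite sets of arrays.
`midL s t = ⌊(s+t)/2⌋`, `midU s t = ⌈(s+t)/2⌉` coordinatewise (`Int` division by `2` is the floor).
-/

set_option autoImplicit false

namespace Claimed.Agent.R291

open Finset

/-- Cauchy-Schwarz combination of two proportional pieces -/
theorem mid_combine {AL AR BL BR EL ER OL OR : ℝ} (hAL : 0 ≤ AL) (hAR : 0 ≤ AR) (hBL : 0 ≤ BL) (hBR : 0 ≤ BR)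
    (hEL : 0 ≤ EL) (hER : 0 ≤ ER) (hOL : 0 ≤ OL) (hOR : 0 ≤ OR)
    (hL : AL * BL ≤ EL * OL) (hR : AR * BR ≤ ER * OR) (hp : AL * BR = AR * BL) :
    (AL + AR) * (BL + BR) ≤ (EL + ER) * (OL + OR) := by
  have hc : 0 ≤ AL * BR := mul_nonneg hAL hBR
  have h1 : (AL * BR) ^ 2 ≤ (EL * OL) * (ER * OR) := by
    calc (AL * BR) ^ 2 = (AL * BR) * (AR * BL) := by rw [sq, hp]
      _ = (AL * BL) * (AR * BR) := by ring
      _ ≤ _ := mul_le_mul hL hR (by positivity) (by positivity)
  have h2 : (2 * (AL * BR)) ^ 2 ≤ (EL * OR + ER * OL) ^ 2 := by nlinarith [sq_nonneg (EL * OR - ER * OL)]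
  have h3 : 2 * (AL * BR) ≤ EL * OR + ER * OL := le_of_pow_le_pow_left₀ two_ne_zero (by positivity) h2
  nlinarith

/-- even and odd sums of a chain -/
noncomputable def midE (K : Finset ℤ) (x : ℤ → ℝ) : ℝ := ∑ k ∈ K with Even k, x k
noncomputable def midO (K : Finset ℤ) (x : ℤ → ℝ) : ℝ := ∑ k ∈ K with ¬ Even k, x k

theorem midE_nonneg (K : Finset ℤ) {x : ℤ → ℝ} (hx : ∀ k, 0 ≤ x k) : 0 ≤ midE K x := Finset.sum_nonneg fun k _ => hx k
theorem midO_nonneg (K : Finset ℤ) {x : ℤ → ℝ} (hx : ∀ k, 0 ≤ x k) : 0 ≤ midO K x := Finset.sum_nonneg fun k _ => hx k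

/-- a chain carried by two consecutive sites -/
theorem mid_two_sites (K : Finset ℤ) (z : ℤ) (hz : z ∈ K) (hz1 : z + 1 ∈ K) (a b : ℝ) :
    midE K (fun k => if k = z then a else if k = z + 1 then b else 0) * midO K (fun k => if k = z then a else if k = z + 1 then b else 0)
      = a * b := by
  unfold midE midO
  rcases Int.even_or_odd z with he | ho
  · have ho1 : ¬ Even (z + 1) := by
      rw [Int.not_even_iff_odd]; exact he.add_one
    rw [Finset.sum_eq_single z, Finset.sum_eq_single (z + 1)]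
    · simp
    · intro k hk hne
      have hk' := (Finset.mem_filter.mp hk).2
      have : k ≠ z := fun h => hk' (h ▸ he)
      simp [this, hne]
    · intro h; exact absurd (Finset.mem_filter.mpr ⟨hz1, ho1⟩) h
    · intro k hk hne
      have hk' := (Finset.mem_filter.mp hk).2
      have : k ≠ z + 1 := fun h => ho1 (h ▸ hk')
      simp [this, hne]
    · intro h; exact absurd (Finset.mem_filter.mpr ⟨hz, he⟩) h
  · have hne : ¬ Even z := by rw [Int.not_even_iff_odd]; exact ho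
    have he1 : Even (z + 1) := ho.add_one
    rw [Finset.sum_eq_single (z + 1), Finset.sum_eq_single z]
    · simp [mul_comm]
    · intro k hk hne'
      have hk' := (Finset.mem_filter.mp hk).2
      have : k ≠ z + 1 := fun h => hk' (h ▸ he1)
      simp [this, hne']
    · intro h; exact absurd (Finset.mem_filter.mpr ⟨hz, hne⟩) h
    · intro k hk hne'
      have hk' := (Finset.mem_filter.mp hk).2
      have : k ≠ z := fun h => hne (h ▸ hk')
      simp [this, hne']
    · intro h; exact absurd (Finset.mem_filter.mpr ⟨hz1, he1⟩) h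

/-- one step of the induction: the top atom of `f` is removed together with the same proportion of the top atom of `g` -/
theorem mid_chain_step (S T K : Finset ℤ) (f g x : ℤ → ℝ) (hf : ∀ s, 0 ≤ f s) (hg : ∀ t, 0 ≤ g t) (hx : ∀ k, 0 ≤ x k)
    (hK : ∀ s ∈ S, ∀ t ∈ T, s + t ∈ K ∧ s + t + 1 ∈ K)
    (hyp : ∀ s ∈ S, ∀ t ∈ T, f s * g t ≤ x (s + t) * x (s + t + 1)) (hS : S.Nonempty) (hT : T.Nonempty)
    (hcmp : f (S.max' hS) * ∑ t ∈ T, g t ≤ g (T.max' hT) * ∑ s ∈ S, f s)
    (IH : ∀ g' x' : ℤ → ℝ, (∀ t, 0 ≤ g' t) → (∀ k, 0 ≤ x' k) →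
      (∀ s ∈ S.erase (S.max' hS), ∀ t ∈ T, f s * g' t ≤ x' (s + t) * x' (s + t + 1)) →
      (∑ s ∈ S.erase (S.max' hS), f s) * (∑ t ∈ T, g' t) ≤ midE K x' * midO K x') :
    (∑ s ∈ S, f s) * (∑ t ∈ T, g t) ≤ midE K x * midO K x := by
  obtain ⟨sp, hsp⟩ : ∃ sp, sp = S.max' hS := ⟨_, rfl⟩
  obtain ⟨tq, htq⟩ : ∃ tq, tq = T.max' hT := ⟨_, rfl⟩
  rw [← hsp] at hcmp IH
  rw [← htq] at hcmp
  have hspS : sp ∈ S := hsp ▸ S.max'_mem hS
  have htqT : tq ∈ T := htq ▸ T.max'_mem hT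
  obtain ⟨A, hA⟩ : ∃ A, A = ∑ s ∈ S, f s := ⟨_, rfl⟩
  obtain ⟨B, hB⟩ : ∃ B, B = ∑ t ∈ T, g t := ⟨_, rfl⟩
  rw [← hA, ← hB]
  rw [← hA, ← hB] at hcmp
  have hA0 : 0 ≤ A := hA ▸ Finset.sum_nonneg fun s _ => hf s
  have hB0 : 0 ≤ B := hB ▸ Finset.sum_nonneg fun t _ => hg t
  have hEO : 0 ≤ midE K x * midO K x := mul_nonneg (midE_nonneg K hx) (midO_nonneg K hx)
  rcases hA0.eq_or_lt with hA00 | hApos
  · rw [← hA00, zero_mul]; exact hEO
  obtain ⟨z, hz⟩ : ∃ z, z = sp + tq := ⟨_, rfl⟩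
  obtain ⟨θ, hθ⟩ : ∃ θ, θ = f sp * B / (A * g tq) := ⟨_, rfl⟩
  have hθ0 : 0 ≤ θ := by rw [hθ]; exact div_nonneg (mul_nonneg (hf _) hB0) (mul_nonneg hA0 (hg _))
  have hθ1 : θ ≤ 1 := by
    rw [hθ]
    apply div_le_one_of_le₀ _ (mul_nonneg hA0 (hg _))
    linarith
  have hθg : θ * g tq = f sp * B / A := by
    rcases (hg tq).eq_or_lt with h0 | hpos
    · have h1 : f sp * B = 0 := le_antisymm (by rw [← h0, zero_mul] at hcmp; exact hcmp) (mul_nonneg (hf _) hB0)
      rw [← h0, h1]; simp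
    · rw [hθ]; field_simp
  -- the pieces
  set g' : ℤ → ℝ := fun t => if t = tq then (1 - θ) * g tq else g t with hg'
  set x' : ℤ → ℝ := fun k => if k < z then x k else if k = z then (1 - θ) * x z else 0 with hx'
  set xR : ℤ → ℝ := fun k => if k = z then θ * x z else if k = z + 1 then x (z + 1) else 0 with hxR
  have hg'0 : ∀ t, 0 ≤ g' t := by
    intro t; simp only [hg']; split_ifs
    · exact mul_nonneg (by linarith) (hg _)
    · exact hg _
  have hx'0 : ∀ k, 0 ≤ x' k := by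
    intro k; simp only [hx']; split_ifs
    · exact hx _
    · exact mul_nonneg (by linarith) (hx _)
    · exact le_rfl
  have hxR0 : ∀ k, 0 ≤ xR k := by
    intro k; simp only [hxR]; split_ifs
    · exact mul_nonneg hθ0 (hx _)
    · exact hx _
    · exact le_rfl
  have hleft : ∀ s ∈ S.erase sp, ∀ t ∈ T, f s * g' t ≤ x' (s + t) * x' (s + t + 1) := by
    intro s hs t ht
    have hsS : s ∈ S := Finset.mem_of_mem_erase hs
    have hslt : s < sp := lt_of_le_of_ne (hsp ▸ S.le_max' s hsS) (Finset.ne_of_mem_erase hs)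
    have htle : t ≤ tq := htq ▸ T.le_max' t ht
    have h0 := hyp s hsS t ht
    have hlt : s + t < z := by rw [hz]; linarith
    have e1 : x' (s + t) = x (s + t) := by simp only [hx']; rw [if_pos hlt]
    rw [e1]
    by_cases hteq : t = tq
    · subst hteq
      have e2 : g' t = (1 - θ) * g t := by simp [hg']
      rw [e2]
      rcases (show s + t + 1 ≤ z by rw [hz]; linarith).lt_or_eq with h1 | h1
      · have e3 : x' (s + t + 1) = x (s + t + 1) := by simp only [hx']; rw [if_pos h1]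
        rw [e3]
        have : f s * ((1 - θ) * g t) ≤ f s * g t := by
          apply mul_le_mul_of_nonneg_left _ (hf s)
          nlinarith [hg t]
        linarith
      · have e3 : x' (s + t + 1) = (1 - θ) * x (s + t + 1) := by
          simp only [hx']; rw [if_neg (by rw [h1]; exact lt_irrefl z), if_pos h1, h1]
        rw [e3]
        have := mul_le_mul_of_nonneg_left h0 (show 0 ≤ 1 - θ by linarith)
        nlinarith
    · have htlt : t < tq := lt_of_le_of_ne htle hteq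
      have e2 : g' t = g t := by simp only [hg']; rw [if_neg hteq]
      have h1 : s + t + 1 < z := by rw [hz]; linarith
      have e3 : x' (s + t + 1) = x (s + t + 1) := by simp only [hx']; rw [if_pos h1]
      rw [e2, e3]; exact h0
  have hIH := IH g' x' hg'0 hx'0 hleft
  have hsumf : ∑ s ∈ S.erase sp, f s = A - f sp := by
    rw [hA, ← Finset.add_sum_erase S f hspS]; ring
  have hsumg : ∑ t ∈ T, g' t = B - θ * g tq := by
    rw [hB, ← Finset.add_sum_erase T g htqT, ← Finset.add_sum_erase T g' htqT]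
    have e1 : g' tq = (1 - θ) * g tq := by simp [hg']
    have e2 : ∑ t ∈ T.erase tq, g' t = ∑ t ∈ T.erase tq, g t := by
      apply Finset.sum_congr rfl
      intro t ht
      simp only [hg']; rw [if_neg (Finset.ne_of_mem_erase ht)]
    rw [e1, e2]; ring
  rw [hsumf, hsumg] at hIH
  have hzK := hK sp hspS tq htqT
  rw [← hz] at hzK
  have hR : f sp * (θ * g tq) ≤ midE K xR * midO K xR := by
    rw [mid_two_sites K z hzK.1 hzK.2]
    have h0 := hyp sp hspS tq htqT
    rw [← hz] at h0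
    have := mul_le_mul_of_nonneg_left h0 hθ0
    nlinarith
  have hfle : f sp ≤ A := by
    rw [hA]; exact Finset.single_le_sum (fun s _ => hf s) hspS
  have hBL0 : 0 ≤ B - θ * g tq := by
    rw [hθg, sub_nonneg, div_le_iff₀ hApos]
    nlinarith
  have hcomb := mid_combine (AL := A - f sp) (AR := f sp) (BL := B - θ * g tq) (BR := θ * g tq)
    (by linarith) (hf sp) hBL0 (mul_nonneg hθ0 (hg _)) (midE_nonneg K hx'0) (midE_nonneg K hxR0) (midO_nonneg K hx'0)
    (midO_nonneg K hxR0) hIH hR (by rw [hθg]; field_simp)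
  have hpt : ∀ k, x' k + xR k ≤ x k := by
    intro k
    simp only [hx', hxR]
    rcases lt_trichotomy k z with h | h | h
    · rw [if_pos h, if_neg h.ne, if_neg (by omega)]; simp
    · subst h; simp; linarith
    · rw [if_neg (by omega), if_neg h.ne', if_neg h.ne']
      by_cases h1 : k = z + 1
      · rw [if_pos h1, h1]; simp
      · rw [if_neg h1]; simpa using hx k
  have hE : midE K x' + midE K xR ≤ midE K x := by
    unfold midE; rw [← Finset.sum_add_distrib]; exact Finset.sum_le_sum fun k _ => hpt k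
  have hO : midO K x' + midO K xR ≤ midO K x := by
    unfold midO; rw [← Finset.sum_add_distrib]; exact Finset.sum_le_sum fun k _ => hpt k
  calc A * B = (A - f sp + f sp) * (B - θ * g tq + θ * g tq) := by ring
    _ ≤ _ := hcomb
    _ ≤ _ := mul_le_mul hE hO (add_nonneg (midO_nonneg K hx'0) (midO_nonneg K hxR0)) (midE_nonneg K hx)

/-- **the chain form of the one-dimensional midpoint inequality** -/
theorem mid_chain : ∀ (n : ℕ) (S T K : Finset ℤ) (f g x : ℤ → ℝ), S.card + T.card = n →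
    (∀ s, 0 ≤ f s) → (∀ t, 0 ≤ g t) → (∀ k, 0 ≤ x k) →
    (∀ s ∈ S, ∀ t ∈ T, s + t ∈ K ∧ s + t + 1 ∈ K) →
    (∀ s ∈ S, ∀ t ∈ T, f s * g t ≤ x (s + t) * x (s + t + 1)) →
    (∑ s ∈ S, f s) * (∑ t ∈ T, g t) ≤ midE K x * midO K x := by
  intro n
  induction n with
  | zero =>
    intro S T K f g x hn hf hg hx _ _
    have hS : S = ∅ := Finset.card_eq_zero.mp (by omega)
    rw [hS]; simp only [Finset.sum_empty, zero_mul]
    exact mul_nonneg (midE_nonneg K hx) (midO_nonneg K hx)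
  | succ n ih =>
    intro S T K f g x hn hf hg hx hK hyp
    rcases S.eq_empty_or_nonempty with hS | hS
    · rw [hS]; simp only [Finset.sum_empty, zero_mul]
      exact mul_nonneg (midE_nonneg K hx) (midO_nonneg K hx)
    rcases T.eq_empty_or_nonempty with hT | hT
    · rw [hT]; simp only [Finset.sum_empty, mul_zero]
      exact mul_nonneg (midE_nonneg K hx) (midO_nonneg K hx)
    rcases le_total (f (S.max' hS) * ∑ t ∈ T, g t) (g (T.max' hT) * ∑ s ∈ S, f s) with hc | hc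
    · apply mid_chain_step S T K f g x hf hg hx hK hyp hS hT hc
      intro g' x' hg' hx' h'
      apply ih (S.erase (S.max' hS)) T K f g' x' _ hf hg' hx' _ h'
      · rw [Finset.card_erase_of_mem (S.max'_mem hS)]
        have := Finset.card_pos.mpr hS
        omega
      · intro s hs t ht; exact hK s (Finset.mem_of_mem_erase hs) t ht
    · rw [mul_comm]
      apply mid_chain_step T S K g f x hg hf hx (fun t ht s hs => by rw [add_comm t s]; exact hK s hs t ht)
        (fun t ht s hs => by rw [add_comm t s, mul_comm]; exact hyp s hs t ht) hT hS hc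
      intro f' x' hf' hx' h'
      apply ih (T.erase (T.max' hT)) S K g f' x' _ hg hf' hx' _ h'
      · rw [Finset.card_erase_of_mem (T.max'_mem hT)]
        have := Finset.card_pos.mpr hT
        omega
      · intro t ht s hs; rw [add_comm t s]; exact hK s hs t (Finset.mem_of_mem_erase ht)

/-- **one-dimensional discrete midpoint inequality** (Klartag-Lehec; Gozlan-Roberto-Samson-Tetali, Theorem 3) -/
theorem mid_one (S T U V : Finset ℤ) (f g u v : ℤ → ℝ) (hf : ∀ s, 0 ≤ f s) (hg : ∀ t, 0 ≤ g t) (hu : ∀ a, 0 ≤ u a)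
    (hv : ∀ a, 0 ≤ v a) (hU : ∀ s ∈ S, ∀ t ∈ T, (s + t) / 2 ∈ U) (hV : ∀ s ∈ S, ∀ t ∈ T, (s + t + 1) / 2 ∈ V)
    (hyp : ∀ s ∈ S, ∀ t ∈ T, f s * g t ≤ u ((s + t) / 2) * v ((s + t + 1) / 2)) :
    (∑ s ∈ S, f s) * (∑ t ∈ T, g t) ≤ (∑ a ∈ U, u a) * (∑ b ∈ V, v b) := by
  classical
  set x : ℤ → ℝ := fun k => if Even k then v (k / 2) else u (k / 2) with hx
  set K : Finset ℤ := (S ×ˢ T).image (fun p => p.1 + p.2) ∪ (S ×ˢ T).image (fun p => p.1 + p.2 + 1) with hK
  have hx0 : ∀ k, 0 ≤ x k := by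
    intro k; simp only [hx]; split_ifs
    · exact hv _
    · exact hu _
  have hxx : ∀ z : ℤ, x z * x (z + 1) = u (z / 2) * v ((z + 1) / 2) := by
    intro z
    rcases Int.even_or_odd z with he | ho
    · have ho1 : ¬ Even (z + 1) := by rw [Int.not_even_iff_odd]; exact he.add_one
      have e : (z + 1) / 2 = z / 2 := by obtain ⟨r, hr⟩ := he; omega
      simp only [hx]; rw [if_pos he, if_neg ho1, e, mul_comm]
    · have hne : ¬ Even z := by rw [Int.not_even_iff_odd]; exact ho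
      simp only [hx]; rw [if_neg hne, if_pos ho.add_one]
  have h1 := mid_chain _ S T K f g x rfl hf hg hx0
    (fun s hs t ht => ⟨Finset.mem_union_left _ (Finset.mem_image.mpr ⟨(s, t), Finset.mk_mem_product hs ht, rfl⟩),
      Finset.mem_union_right _ (Finset.mem_image.mpr ⟨(s, t), Finset.mk_mem_product hs ht, rfl⟩)⟩)
    (fun s hs t ht => by rw [hxx]; exact hyp s hs t ht)
  have hKmem : ∀ k ∈ K, ∃ s ∈ S, ∃ t ∈ T, k = s + t ∨ k = s + t + 1 := by
    intro k hk
    rcases Finset.mem_union.mp hk with h | h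
    · obtain ⟨p, hp, rfl⟩ := Finset.mem_image.mp h
      exact ⟨p.1, (Finset.mem_product.mp hp).1, p.2, (Finset.mem_product.mp hp).2, Or.inl rfl⟩
    · obtain ⟨p, hp, rfl⟩ := Finset.mem_image.mp h
      exact ⟨p.1, (Finset.mem_product.mp hp).1, p.2, (Finset.mem_product.mp hp).2, Or.inr rfl⟩
  have hE : midE K x ≤ ∑ b ∈ V, v b := by
    unfold midE
    have e1 : ∑ k ∈ K with Even k, x k = ∑ k ∈ K with Even k, v (k / 2) :=
      Finset.sum_congr rfl fun k hk => by simp only [hx]; rw [if_pos (Finset.mem_filter.mp hk).2]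
    rw [e1, ← Finset.sum_image (f := v) (g := fun k : ℤ => k / 2)]
    · apply Finset.sum_le_sum_of_subset_of_nonneg _ fun b _ _ => hv b
      intro b hb
      obtain ⟨k, hk, rfl⟩ := Finset.mem_image.mp hb
      obtain ⟨hkK, hke⟩ := Finset.mem_filter.mp hk
      obtain ⟨s, hs, t, ht, h | h⟩ := hKmem k hkK
      · have := hV s hs t ht
        have e : (s + t + 1) / 2 = k / 2 := by obtain ⟨r, hr⟩ := hke; omega
        rwa [e] at this
      · have := hV s hs t ht
        rwa [← h] at this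
    · intro a ha b hb hab
      obtain ⟨r, hr⟩ := (Finset.mem_filter.mp ha).2
      obtain ⟨r', hr'⟩ := (Finset.mem_filter.mp hb).2
      simp only at hab
      omega
  have hO : midO K x ≤ ∑ a ∈ U, u a := by
    unfold midO
    have e1 : ∑ k ∈ K with ¬ Even k, x k = ∑ k ∈ K with ¬ Even k, u (k / 2) :=
      Finset.sum_congr rfl fun k hk => by simp only [hx]; rw [if_neg (Finset.mem_filter.mp hk).2]
    rw [e1, ← Finset.sum_image (f := u) (g := fun k : ℤ => k / 2)]
    · apply Finset.sum_le_sum_of_subset_of_nonneg _ fun b _ _ => hu b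
      intro b hb
      obtain ⟨k, hk, rfl⟩ := Finset.mem_image.mp hb
      obtain ⟨hkK, hke⟩ := Finset.mem_filter.mp hk
      rw [Int.not_even_iff_odd] at hke
      obtain ⟨s, hs, t, ht, h | h⟩ := hKmem k hkK
      · have := hU s hs t ht
        rwa [← h] at this
      · have := hU s hs t ht
        have e : (s + t) / 2 = k / 2 := by obtain ⟨r, hr⟩ := hke; omega
        rwa [e] at this
    · intro a ha b hb hab
      have ha' := (Finset.mem_filter.mp ha).2
      have hb' := (Finset.mem_filter.mp hb).2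
      rw [Int.not_even_iff_odd] at ha' hb'
      obtain ⟨r, hr⟩ := ha'
      obtain ⟨r', hr'⟩ := hb'
      simp only at hab
      omega
  calc _ ≤ _ := h1
    _ = midO K x * midE K x := mul_comm _ _
    _ ≤ _ := mul_le_mul hO hE (midE_nonneg K hx0) (Finset.sum_nonneg fun a _ => hu a)

/-! ### several coordinates -/

/-- lower rounded midpoint -/
def midL {ι : Type*} (s t : ι → ℤ) : ι → ℤ := fun i => (s i + t i) / 2
/-- upper rounded midpoint -/
def midU {ι : Type*} (s t : ι → ℤ) : ι → ℤ := fun i => (s i + t i + 1) / 2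

theorem midL_cons {n : ℕ} (a b : ℤ) (s t : Fin n → ℤ) :
    midL (Fin.cons a s : Fin (n + 1) → ℤ) (Fin.cons b t) = Fin.cons ((a + b) / 2) (midL s t) := by
  funext i
  refine Fin.cases ?_ (fun j => ?_) i <;> simp [midL]

theorem midU_cons {n : ℕ} (a b : ℤ) (s t : Fin n → ℤ) :
    midU (Fin.cons a s : Fin (n + 1) → ℤ) (Fin.cons b t) = Fin.cons ((a + b + 1) / 2) (midU s t) := by
  funext i
  refine Fin.cases ?_ (fun j => ?_) i <;> simp [midU]

/-- the box -/
noncomputable def midBox (n : ℕ) (N : ℤ) : Finset (Fin n → ℤ) := Fintype.piFinset fun _ => Finset.Icc (-N) N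

theorem mid_cons_mem_box {n : ℕ} {N : ℤ} {a : ℤ} {s : Fin n → ℤ} :
    (Fin.cons a s : Fin (n + 1) → ℤ) ∈ midBox (n + 1) N ↔ a ∈ Finset.Icc (-N) N ∧ s ∈ midBox n N := by
  simp only [midBox, Fintype.mem_piFinset, Fin.forall_fin_succ, Fin.cons_zero, Fin.cons_succ]

theorem mid_sum_cons (n : ℕ) (N : ℤ) (F : (Fin (n + 1) → ℤ) → ℝ) :
    ∑ r ∈ midBox (n + 1) N, F r = ∑ s ∈ midBox n N, ∑ a ∈ Finset.Icc (-N) N, F (Fin.cons a s) := by
  rw [← Finset.sum_product']
  apply Finset.sum_nbij' (fun r => (Fin.tail r, r 0)) (fun p => Fin.cons p.2 p.1)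
  · intro r hr
    have := (Fin.mem_piFinset_iff_zero_tail).mp hr
    exact Finset.mk_mem_product this.2 this.1
  · intro p hp
    obtain ⟨h1, h2⟩ := Finset.mem_product.mp hp
    exact mid_cons_mem_box.mpr ⟨h2, h1⟩
  · intro r _; simp
  · intro p _; simp
  · intro r _; simp

theorem midL_mem_box {n : ℕ} {N : ℤ} {s t : Fin n → ℤ} (hs : s ∈ midBox n N) (ht : t ∈ midBox n N) : midL s t ∈ midBox n N := by
  unfold midBox at *
  rw [Fintype.mem_piFinset] at *
  intro i
  have h1 := Finset.mem_Icc.mp (hs i)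
  have h2 := Finset.mem_Icc.mp (ht i)
  rw [Finset.mem_Icc]; unfold midL; constructor <;> omega

theorem midU_mem_box {n : ℕ} {N : ℤ} {s t : Fin n → ℤ} (hs : s ∈ midBox n N) (ht : t ∈ midBox n N) : midU s t ∈ midBox n N := by
  unfold midBox at *
  rw [Fintype.mem_piFinset] at *
  intro i
  have h1 := Finset.mem_Icc.mp (hs i)
  have h2 := Finset.mem_Icc.mp (ht i)
  rw [Finset.mem_Icc]; unfold midU; constructor <;> omega

/-- the midpoint inequality on a box of `ℤ^n` -/
theorem mid_box (N : ℤ) : ∀ (n : ℕ) (f g u v : (Fin n → ℤ) → ℝ), (∀ s, 0 ≤ f s) → (∀ s, 0 ≤ g s) → (∀ s, 0 ≤ u s) → (∀ s, 0 ≤ v s) →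
    (∀ s ∈ midBox n N, ∀ t ∈ midBox n N, f s * g t ≤ u (midL s t) * v (midU s t)) →
    (∑ s ∈ midBox n N, f s) * (∑ t ∈ midBox n N, g t) ≤ (∑ a ∈ midBox n N, u a) * (∑ b ∈ midBox n N, v b) := by
  intro n
  induction n with
  | zero =>
    intro f g u v _ _ _ _ hyp
    have hb : midBox 0 N = {default} := by
      ext r
      simp only [midBox, Fintype.mem_piFinset, Finset.mem_singleton]
      exact ⟨fun _ => Subsingleton.elim _ _, fun _ i => i.elim0⟩
    rw [hb]; simp only [Finset.sum_singleton]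
    have := hyp default (by rw [hb]; simp) default (by rw [hb]; simp)
    rwa [Subsingleton.elim (midL default default) (default : Fin 0 → ℤ),
      Subsingleton.elim (midU default default) (default : Fin 0 → ℤ)] at this
  | succ n ih =>
    intro f g u v hf hg hu hv hyp
    simp only [mid_sum_cons]
    apply ih (fun s => ∑ a ∈ Finset.Icc (-N) N, f (Fin.cons a s)) (fun s => ∑ a ∈ Finset.Icc (-N) N, g (Fin.cons a s))
      (fun s => ∑ a ∈ Finset.Icc (-N) N, u (Fin.cons a s)) (fun s => ∑ a ∈ Finset.Icc (-N) N, v (Fin.cons a s))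
      (fun s => Finset.sum_nonneg fun a _ => hf _) (fun s => Finset.sum_nonneg fun a _ => hg _)
      (fun s => Finset.sum_nonneg fun a _ => hu _) (fun s => Finset.sum_nonneg fun a _ => hv _)
    intro s hs t ht
    apply mid_one _ _ _ _ (fun a => f (Fin.cons a s)) (fun a => g (Fin.cons a t)) (fun a => u (Fin.cons a (midL s t)))
      (fun a => v (Fin.cons a (midU s t))) (fun a => hf _) (fun a => hg _) (fun a => hu _) (fun a => hv _)
    · intro a ha b hb
      rw [Finset.mem_Icc] at *; constructor <;> omega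
    · intro a ha b hb
      rw [Finset.mem_Icc] at *; constructor <;> omega
    · intro a ha b hb
      have h := hyp (Fin.cons a s) (mid_cons_mem_box.mpr ⟨ha, hs⟩) (Fin.cons b t) (mid_cons_mem_box.mpr ⟨hb, ht⟩)
      rwa [midL_cons, midU_cons] at h

section general
variable {ι : Type*} [Fintype ι]

open Classical in
/-- transport of a function on a finite set of arrays to `Fin n → ℤ`, extended by zero -/
noncomputable def midExt {n : ℕ} (e : ι ≃ Fin n) (X : Finset (ι → ℤ)) (F : (ι → ℤ) → ℝ) (r : Fin n → ℤ) : ℝ :=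
  if r ∘ e ∈ X then F (r ∘ e) else 0

theorem midExt_nonneg {n : ℕ} (e : ι ≃ Fin n) (X : Finset (ι → ℤ)) (F : (ι → ℤ) → ℝ) (hF : ∀ s ∈ X, 0 ≤ F s) (r : Fin n → ℤ) :
    0 ≤ midExt e X F r := by
  unfold midExt; split_ifs with h
  · exact hF _ h
  · exact le_rfl

theorem midExt_sum {n : ℕ} (e : ι ≃ Fin n) (X : Finset (ι → ℤ)) (F : (ι → ℤ) → ℝ) (N : ℤ)
    (hN : ∀ s ∈ X, ∀ i, s i ∈ Finset.Icc (-N) N) : ∑ r ∈ midBox n N, midExt e X F r = ∑ s ∈ X, F s := by
  classical
  unfold midExt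
  rw [← Finset.sum_filter]
  apply Finset.sum_nbij' (fun r => r ∘ e) (fun s => s ∘ e.symm)
  · intro r hr; exact (Finset.mem_filter.mp hr).2
  · intro s hs
    refine Finset.mem_filter.mpr ⟨?_, ?_⟩
    · unfold midBox; rw [Fintype.mem_piFinset]; intro j; exact hN s hs _
    · have : (s ∘ e.symm) ∘ e = s := by funext i; simp
      rwa [this]
  · intro r _; funext j; simp
  · intro s _; funext i; simp
  · intro r _; rfl

/-- **Discrete midpoint inequality** (Theorem 3.3 of the paper = Klartag-Lehec Theorem 1.4, GRST Theorem 3): any finite index type,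
sums over finite sets of integer arrays.   TEX[thm:midpoint] -/
theorem mid_ineq (𝒮 𝒯 𝒰 𝒱 : Finset (ι → ℤ)) (f g u v : (ι → ℤ) → ℝ)
    (hf : ∀ s ∈ 𝒮, 0 ≤ f s) (hg : ∀ t ∈ 𝒯, 0 ≤ g t) (hu : ∀ a ∈ 𝒰, 0 ≤ u a) (hv : ∀ b ∈ 𝒱, 0 ≤ v b)
    (hyp : ∀ s ∈ 𝒮, ∀ t ∈ 𝒯, midL s t ∈ 𝒰 ∧ midU s t ∈ 𝒱 ∧ f s * g t ≤ u (midL s t) * v (midU s t)) :
    (∑ s ∈ 𝒮, f s) * (∑ t ∈ 𝒯, g t) ≤ (∑ a ∈ 𝒰, u a) * (∑ b ∈ 𝒱, v b) := by
  classical
  set e := Fintype.equivFin ι with he
  set N : ℤ := (((𝒮 ∪ 𝒯 ∪ 𝒰 ∪ 𝒱).sup fun s => Finset.univ.sup fun i => (s i).natAbs : ℕ) : ℤ) with hN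
  have hbd : ∀ s ∈ 𝒮 ∪ 𝒯 ∪ 𝒰 ∪ 𝒱, ∀ i, s i ∈ Finset.Icc (-N) N := by
    intro s hs i
    have h1 : (s i).natAbs ≤ Finset.univ.sup fun i => (s i).natAbs :=
      Finset.le_sup (f := fun i => (s i).natAbs) (Finset.mem_univ i)
    have h2 : (Finset.univ.sup fun i => (s i).natAbs) ≤ (𝒮 ∪ 𝒯 ∪ 𝒰 ∪ 𝒱).sup fun s => Finset.univ.sup fun i => (s i).natAbs :=
      Finset.le_sup (f := fun s : ι → ℤ => Finset.univ.sup fun i => (s i).natAbs) hs
    have h3 : ((s i).natAbs : ℤ) ≤ N := by rw [hN]; exact_mod_cast h1.trans h2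
    rw [Finset.mem_Icc]
    constructor <;> omega
  have h := mid_box N _ (midExt e 𝒮 f) (midExt e 𝒯 g) (midExt e 𝒰 u) (midExt e 𝒱 v) (midExt_nonneg e _ _ hf)
    (midExt_nonneg e _ _ hg) (midExt_nonneg e _ _ hu) (midExt_nonneg e _ _ hv) (by
      intro r _ r' _
      by_cases h1 : r ∘ e ∈ 𝒮
      · by_cases h2 : r' ∘ e ∈ 𝒯
        · obtain ⟨a1, a2, a3⟩ := hyp _ h1 _ h2
          have e1 : midL r r' ∘ e = midL (r ∘ e) (r' ∘ e) := rfl
          have e2 : midU r r' ∘ e = midU (r ∘ e) (r' ∘ e) := rfl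
          unfold midExt
          rw [if_pos h1, if_pos h2, e1, e2, if_pos a1, if_pos a2]
          exact a3
        · have : midExt e 𝒯 g r' = 0 := by unfold midExt; rw [if_neg h2]
          rw [this, mul_zero]
          exact mul_nonneg (midExt_nonneg e _ _ hu _) (midExt_nonneg e _ _ hv _)
      · have : midExt e 𝒮 f r = 0 := by unfold midExt; rw [if_neg h1]
        rw [this, zero_mul]
        exact mul_nonneg (midExt_nonneg e _ _ hu _) (midExt_nonneg e _ _ hv _))
  rwa [midExt_sum e 𝒮 f N (fun s hs => hbd s (by simp [hs])), midExt_sum e 𝒯 g N (fun s hs => hbd s (by simp [hs])),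
    midExt_sum e 𝒰 u N (fun s hs => hbd s (by simp [hs])), midExt_sum e 𝒱 v N (fun s hs => hbd s (by simp [hs]))] at h

end general

/-! ## Arbitrary index types -/

section anyindex
variable {κ : Type*}

/-- finitely many arrays on an arbitrary index type are separated by finitely many coordinates -/
theorem mid_sep (X : Finset (κ → ℤ)) : ∃ J : Finset κ, Set.InjOn (fun (s : κ → ℤ) (j : J) => s j) X := by
  classical
  refine ⟨(X ×ˢ X).biUnion fun p => if h : p.1 ≠ p.2 then {Classical.choose (Function.ne_iff.1 h)} else ∅, ?_⟩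
  intro s hs t ht hst
  by_contra hne
  have hi := Classical.choose_spec (Function.ne_iff.1 hne)
  have hmem : Classical.choose (Function.ne_iff.1 hne) ∈
      (X ×ˢ X).biUnion fun p => if h : p.1 ≠ p.2 then {Classical.choose (Function.ne_iff.1 h)} else ∅ := by
    rw [Finset.mem_biUnion]
    refine ⟨(s, t), Finset.mem_product.2 ⟨hs, ht⟩, ?_⟩
    rw [dif_pos (show (s, t).1 ≠ (s, t).2 from hne)]
    exact Finset.mem_singleton_self _
  exact hi (congr_fun hst ⟨_, hmem⟩)

/-- **Discrete midpoint inequality on an ARBITRARY index type** (e.g. total height functions `ℤ × ℤ → ℤ`): finite sets of arrays.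
TEX[thm:midpoint] -/
theorem mid_ineq_any (𝒮 𝒯 𝒰 𝒱 : Finset (κ → ℤ)) (f g u v : (κ → ℤ) → ℝ)
    (hf : ∀ s ∈ 𝒮, 0 ≤ f s) (hg : ∀ t ∈ 𝒯, 0 ≤ g t) (hu : ∀ a ∈ 𝒰, 0 ≤ u a) (hv : ∀ b ∈ 𝒱, 0 ≤ v b)
    (hyp : ∀ s ∈ 𝒮, ∀ t ∈ 𝒯, midL s t ∈ 𝒰 ∧ midU s t ∈ 𝒱 ∧ f s * g t ≤ u (midL s t) * v (midU s t)) :
    (∑ s ∈ 𝒮, f s) * (∑ t ∈ 𝒯, g t) ≤ (∑ a ∈ 𝒰, u a) * (∑ b ∈ 𝒱, v b) := by
  classical
  obtain ⟨J, hJ⟩ := mid_sep (𝒮 ∪ 𝒯 ∪ 𝒰 ∪ 𝒱)
  set X : Finset (κ → ℤ) := 𝒮 ∪ 𝒯 ∪ 𝒰 ∪ 𝒱 with hX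
  set ρ : (κ → ℤ) → (J → ℤ) := fun s j => s j with hρ
  set σ : (J → ℤ) → (κ → ℤ) := Function.invFunOn ρ (X : Set (κ → ℤ)) with hσ
  have hσρ : ∀ s ∈ X, σ (ρ s) = s := fun s hs => hJ.leftInvOn_invFunOn hs
  have hS : 𝒮 ⊆ X := fun s hs => by simp [hX, hs]
  have hT : 𝒯 ⊆ X := fun s hs => by simp [hX, hs]
  have hU : 𝒰 ⊆ X := fun s hs => by simp [hX, hs]
  have hV : 𝒱 ⊆ X := fun s hs => by simp [hX, hs]
  have hsum : ∀ (Y : Finset (κ → ℤ)) (φ : (κ → ℤ) → ℝ), Y ⊆ X → ∑ r ∈ Y.image ρ, φ (σ r) = ∑ s ∈ Y, φ s := by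
    intro Y φ hY
    rw [Finset.sum_image (fun a ha b hb hab => hJ (hY ha) (hY hb) hab)]
    exact Finset.sum_congr rfl fun s hs => by rw [hσρ s (hY hs)]
  have key := mid_ineq (𝒮.image ρ) (𝒯.image ρ) (𝒰.image ρ) (𝒱.image ρ) (fun r => f (σ r)) (fun r => g (σ r))
    (fun r => u (σ r)) (fun r => v (σ r))
    (by intro r hr; obtain ⟨s, hs, rfl⟩ := Finset.mem_image.1 hr; rw [hσρ s (hS hs)]; exact hf s hs)
    (by intro r hr; obtain ⟨s, hs, rfl⟩ := Finset.mem_image.1 hr; rw [hσρ s (hT hs)]; exact hg s hs)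
    (by intro r hr; obtain ⟨s, hs, rfl⟩ := Finset.mem_image.1 hr; rw [hσρ s (hU hs)]; exact hu s hs)
    (by intro r hr; obtain ⟨s, hs, rfl⟩ := Finset.mem_image.1 hr; rw [hσρ s (hV hs)]; exact hv s hs)
    (by
      intro r hr r' hr'
      obtain ⟨s, hs, rfl⟩ := Finset.mem_image.1 hr
      obtain ⟨t, ht, rfl⟩ := Finset.mem_image.1 hr'
      obtain ⟨a1, a2, a3⟩ := hyp s hs t ht
      have e1 : midL (ρ s) (ρ t) = ρ (midL s t) := rfl
      have e2 : midU (ρ s) (ρ t) = ρ (midU s t) := rfl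
      refine ⟨e1 ▸ Finset.mem_image_of_mem ρ a1, e2 ▸ Finset.mem_image_of_mem ρ a2, ?_⟩
      show f (σ (ρ s)) * g (σ (ρ t)) ≤ u (σ (midL (ρ s) (ρ t))) * v (σ (midU (ρ s) (ρ t)))
      rw [e1, e2, hσρ s (hS hs), hσρ t (hT ht), hσρ _ (hU a1), hσρ _ (hV a2)]
      exact a3)
  rwa [hsum 𝒮 f hS, hsum 𝒯 g hT, hsum 𝒰 u hU, hsum 𝒱 v hV] at key

end anyindex

/-- house rule: the equation lemmas of the defs of this file are generated HERE (not in two importers)   (added by helper23) -/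
theorem mid_eqns_cite : True := by
  have := @midE.eq_1; have := @midO.eq_1; have := @midL.eq_1.{0}; have := @midU.eq_1.{0}; have := @midBox.eq_1; have := @midExt.eq_1.{0}
  trivial

end Claimed.Agent.R291
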